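import Crest.Agent.N221.K.In1
import Crest.Agent.N221.D.Dyn
import Crest.Agent.N221.K.Nat
import Crest.Agent.N221.K.Pol
import Crest.Agent.N221.K.Itr
import Crest.Agent.N221.K.LA
import Mathlib
import Crest.Agent.R137.BU
import Crest.Agent.N221.Bd.Defs
import Crest.Agent.N221.P.Tau
import Crest.Agent.N221.T6.Defs
import Crest.Agent.N221.C.Ex

-- ▼ part N221/K/In2
section

/-! Row 221, block K: the cover gives a `Cone` (leaf K-In2). -/

set_option autoImplicit false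
set_option linter.unusedSectionVars false
set_option linter.unusedVariables false

open MeasureTheory Set Filter Topology
open scoped ContDiff RealInnerProductSpace
open Crest.GeometryTopology.Submanifold
open Crest.Agent.R241.DDefs Crest.Agent.R241.D2
open Crest.Agent.R208.J Crest.Agent.R208.L
open Crest.Agent.N221.K

noncomputable section

namespace Crest.Agent.N221

variable {n N : ℕ} {a : ℝ} {S : Set (Euc N)} {G : Geo n N (-(a ^ 2)) S}

namespace Cov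

variable (C : Cov G) {ξ η : Euc n} {g : Euc n → Euc n} (h : SH G)
include h

lemma iso_smul {G₁ G₂ : Euc n → Euc n} (hi : Iso C.Fc G₁ G₂) {t : ℝ} (ht : 0 < t) :
    Iso C.Fc (fun ξ => t⁻¹ • G₁ ξ) (fun η => t • G₂ η) := by
  refine ⟨hi.sm₁.const_smul _, hi.sm₂.const_smul _, fun s hs ξ => ?_, fun s hs ξ => ?_,
    fun ξ η hp => GO_smul (inv_pos.2 ht) ht (hi.maps ξ η hp), fun ξ η hp => ?_⟩
  · simp only [hi.hom₁ s hs, smul_comm s]
  · simp only [hi.hom₂ s hs, smul_comm s]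
  · rw [← hi.inv ξ η hp]
    simp only [Fc, C.cc_smul (inv_pos.2 ht) ht, norm_smul, norm_inv, Real.norm_of_nonneg ht.le]
    field_simp

/-- the rescaled action -/
lemma In2.sc (hg : C.Deck g) (hη : ‖η‖ = 1) :
    Real.exp (-C.be g η) • C.hat g η = C.act g η ∧ ∀ u, ∃ r : ℝ,
      fderiv ℝ (fun x => Real.exp (-C.be g η) • C.hat g x) η u = C.Da g η u + r • C.act g η := by
  have e : Real.exp (-C.be g η) * Real.exp (C.be g η) = 1 := by rw [← Real.exp_add]; simp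
  refine ⟨by rw [C.hat_unit h hη, smul_smul, e, one_smul], fun u => ?_⟩
  obtain ⟨r, hr⟩ := C.fderiv_hat h hg hη u
  have h0 : η ≠ 0 := norm_ne_zero_iff.1 (by rw [hη]; exact one_ne_zero)
  have hd : DifferentiableAt ℝ (C.hat g) η :=
    ((C.iso_hat h hg).sm₂.contDiffAt (isOpen_compl_singleton.mem_nhds h0)).differentiableAt
      (by simp)
  refine ⟨Real.exp (-C.be g η) * r, ?_⟩
  rw [fderiv_fun_const_smul hd, _root_.smul_apply, hr, smul_add, smul_smul, smul_smul,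
    e, one_smul]

lemma In2.sc' (hξ : ‖ξ‖ = 1) (s : ℝ) :
    (Real.exp (-s))⁻¹ • C.hat g ξ = Real.exp (s + C.be g ξ) • C.act g ξ := by
  rw [C.hat_unit h hξ, smul_smul, Real.exp_neg, inv_inv, Real.exp_add]

/-- a power of `g`, `rates` with `K = {(ξ, η)}`, `G₂ = e^{-be} hat`, `G₁ = e^{be} hat` -/
lemma perD (hp : C.Per g ξ η) : PerD C.Fc ξ η := by
  have ha := h.hyp.a_pos
  have hG := Per.GG C h.hyp hp
  obtain ⟨y, w, l, hA, rfl, rfl⟩ := hp
  obtain ⟨b, -, hr⟩ := C.rates h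
  obtain ⟨B, hB, hr⟩ := hr {(C.ep y w, C.ep y (-w))} isCompact_singleton (singleton_subset_iff.2 hG)
  have hl := mul_pos ha hA.pos
  obtain ⟨j, hj⟩ := exists_nat_gt (Real.log B / (a * l))
  have hA' := hA.iterate C j
  have a1 := hA'.act_pos C ha
  have a2 := hA'.act_neg C ha
  have b1 := hA'.be_pos C ha
  have b2 := hA'.be_neg C ha
  obtain ⟨s1, s2⟩ := In2.sc C h hA'.deck hG.1
  refine ⟨GO_symm (GG_sub hG), _, _, B * Real.exp (-(a * ((j + 1) * l))),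
    C.iso_smul h (C.iso_hat h hA'.deck) (Real.exp_pos (-C.be g^[j + 1] (C.ep y w))), ?_,
    s1.trans a1, by positivity, ?_, fun u hu => ?_⟩
  · beta_reduce
    rw [In2.sc' C h hG.2.1, b1, b2, a2, add_neg_cancel, Real.exp_zero, one_smul]
  · rw [div_lt_iff₀ hl] at hj
    rw [← Real.exp_log hB, ← Real.exp_add, Real.exp_lt_one_iff]
    linarith
  · obtain ⟨r, e⟩ := s2 u
    refine ⟨r, ?_⟩
    rw [e, a1, add_sub_cancel_right, ← b1]
    exact (((hr _ hA'.deck _ _ rfl (by rw [a1, a2]; rfl)).2 u (by rwa [real_inner_comm])).1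
      (b1 ▸ hA'.pos.le)).1

/-- `cocompact` with `s → -∞`, `rates` for the swapped pair, `t = -be g η` -/
lemma rate_Fc : ∃ a' b : ℝ, 0 < a' ∧ ∀ ξ η, (ξ, η) ∈ GG n → ∃ (K : Set (PE n)) (c : ℝ),
    IsCompact K ∧ K ⊆ GO n ∧ 0 < c ∧ ∀ T : ℝ, ∃ t, T ≤ t ∧ ∃ G₁ G₂, Iso C.Fc G₁ G₂ ∧
      (G₁ ξ, G₂ η) ∈ K ∧ Expd G₂ η (Real.exp (a' * t) / c) (c * Real.exp (b * t)) := by
  have ha := h.hyp.a_pos
  obtain ⟨b, -, hr⟩ := C.rates h
  obtain ⟨K₀, k1, k2, k3⟩ := C.cocompact ha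
  obtain ⟨B', hB'⟩ := k1.exists_bound_of_continuousOn continuous_snd.continuousOn
  refine ⟨a, b, ha, fun ξ η hp => ?_⟩
  obtain ⟨B, hB, hr⟩ := hr (insert (η, ξ) ((fun q => (q.1.2, q.1.1)) '' K₀))
    ((k1.image (by fun_prop)).insert _) (by
      rintro _ (rfl | ⟨q, hq, rfl⟩)
      · exact ⟨hp.2.1, hp.1, hp.2.2.symm⟩
      · exact ⟨(k2 hq).1.2.1, (k2 hq).1.1, (k2 hq).1.2.2.symm⟩)
  refine ⟨(fun q => (Real.exp q.2 • q.1.1.1, q.1.1.2)) '' (K₀ ×ˢ Icc (-B) B), B,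
    (k1.prod isCompact_Icc).image (by fun_prop), ?_, hB, fun T => ?_⟩
  · rintro _ ⟨q, hq, rfl⟩
    simpa using GO_smul (Real.exp_pos q.2) one_pos (GG_sub (k2 hq.1).1)
  obtain ⟨g, hg, hK⟩ := k3 ξ η (-(|T| + B + B')) hp
  obtain ⟨r1, r2⟩ := hr g hg η ξ (mem_insert _ _) (mem_insert_of_mem _ ⟨_, hK, rfl⟩)
  have r3 := abs_le.1 (hB' _ hK)
  rw [abs_le] at r1
  have r4 : |T| ≤ -C.be g η := by linarith [r1.2, r3.1]
  obtain ⟨s1, s2⟩ := In2.sc C h hg hp.2.1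
  refine ⟨-C.be g η, (le_abs_self T).trans r4, _, _,
    C.iso_smul h (C.iso_hat h hg) (Real.exp_pos (-C.be g η)),
    ⟨(_, C.be g η + C.be g ξ), ⟨hK, r1⟩, Prod.ext (In2.sc' C h hp.1 _).symm s1.symm⟩,
    fun u hu => ?_⟩
  obtain ⟨r, e⟩ := s2 u
  obtain ⟨u1, u2⟩ := (r2 u (by rwa [real_inner_comm])).2 (by linarith [abs_nonneg T])
  beta_reduce
  rw [e, s1, mul_neg, mul_neg]
  refine ⟨fun r' => ?_, r, by rwa [add_sub_cancel_right]⟩
  rw [div_mul_eq_mul_div, div_le_iff₀' hB]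
  refine u2.trans (mul_le_mul_of_nonneg_left ?_ hB.le)
  rw [add_sub_assoc, ← sub_smul, ← sq_le_sq₀ (norm_nonneg _) (norm_nonneg _), norm_add_sq_real,
    inner_smul_right, real_inner_comm, C.inner_Da h hg (GG_sub hp).2.1]
  nlinarith [sq_nonneg ‖(r - r') • C.act g η‖]

theorem exists_cone (hSp : H.SplitS) (hT : TrS) (hc : Cob G) :
    ∃ B : Cone n, B.F = C.Fc ∧ B.h ≠ 0 := by
  obtain ⟨hh, ν, h0, h1, h2, h3, h4, -⟩ := C.exists_nu h hSp hc
  refine ⟨⟨C.Fc, fun ξ => ‖ξ‖ ^ (hh - n) * ν ξ, hh, h.hyp.hn, C.Fc_sm h,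
    fun p hp => C.Fc_pos h hp, fun ξ η => C.Fc_symm h, fun t ht ξ η => C.Fc_hom h ht,
    fun ξ hξ => ?_, fun ξ hξ => mul_pos (Real.rpow_pos_of_pos (norm_pos_iff.2 hξ) _) (h1 ξ),
    fun t ht ξ hξ => ?_, fun ξ η hp => ?_, C.rate_Fc h, fun ξ hξ ε hε => ?_⟩, rfl, h0.ne'⟩
  · exact (((contDiffAt_norm ℝ hξ).rpow_const_of_ne (norm_ne_zero_iff.2 hξ)).mul
      (h3 ξ hξ)).contDiffWithinAt
  · rw [h2 t ht, norm_smul, Real.norm_of_nonneg ht.le, Real.mul_rpow ht.le (norm_nonneg _),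
      mul_assoc]
  · have e : C.Fc (ξ, η) = Real.exp (-C.cc ξ η) := by
      rw [Fc, show ‖(ξ, η).1‖ = 1 from hp.1, show ‖(ξ, η).2‖ = 1 from hp.2.1, one_mul, one_mul]
    rw [C.det_Fc h hp, h4 ξ η hp, show ‖ξ‖ = 1 from hp.1, show ‖η‖ = 1 from hp.2.1, Real.one_rpow,
      one_mul, one_mul, e, ← Real.exp_nat_mul, ← Real.exp_mul, ← mul_assoc, ← mul_assoc,
      ← Real.exp_add]
    congr 3; ring
  · obtain ⟨ζ, z1, z2, -⟩ := dyn_third h.hyp ξ ξ
    obtain ⟨g, P, R, p1, p2, -⟩ := C.dense_per h.hyp hT (η := ζ) ⟨hξ, z1, z2.symm⟩ hε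
    exact ⟨P, R, p2, C.perD h p1⟩

end Cov

end Crest.Agent.N221
end
end

-- ▼ part N221/K/Ext
section

/-! Row 221, block K: the extension formula and its defect (leaf K-Ext). -/

set_option autoImplicit false
set_option linter.unusedSectionVars false
set_option linter.unusedVariables false

open Set Filter Topology
open scoped ContDiff RealInnerProductSpace
open Crest.GeometryTopology.Submanifold

noncomputable section

namespace Crest.Agent.N221.K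

variable {n : ℕ} {ξ η u u' : Euc n} {p : PE n} {t : ℝ} {O : Set (Euc n)}
  {Y Y' G₁ G₂ : Euc n → Euc n}

namespace ExtA

variable {E E' : Type} [NormedAddCommGroup E] [NormedSpace ℝ E] [NormedAddCommGroup E']
  [NormedSpace ℝ E']

lemma bil_sum (T : Euc n →L[ℝ] Euc n) (u u' : Euc n) :
    ⟪T u, u'⟫ = ∑ ij : Fin n × Fin n, u ij.1 * u' ij.2 * ⟪T (ee ij.1), ee ij.2⟫ := by
  have e : ∀ v : Euc n, v = ∑ i, v i • ee i := fun v => by
    simpa using ((EuclideanSpace.basisFun (Fin n) ℝ).sum_repr v).symm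
  conv_lhs => rw [e u, e u']
  rw [map_sum, sum_inner, Fintype.sum_prod_type]
  refine Finset.sum_congr rfl fun i _ => ?_
  rw [inner_sum]
  refine Finset.sum_congr rfl fun j _ => ?_
  rw [map_smul, real_inner_smul_left, real_inner_smul_right, mul_assoc]

/-- transfer of `η`-derivatives -/
lemma tr {f : PE n → E} {f' : PE n → E'} {a : Euc n} {G : Euc n → Euc n} (T : E' →L[ℝ] E)
    (hf : DifferentiableAt ℝ f (a, G η)) (hf' : DifferentiableAt ℝ f' (ξ, η))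
    (hG : DifferentiableAt ℝ G η) (e : ∀ᶠ η' in 𝓝 η, f (a, G η') = T (f' (ξ, η'))) (u : Euc n) :
    fderiv ℝ f (a, G η) (0, fderiv ℝ G η u) = T (fderiv ℝ f' (ξ, η) (0, u)) := by
  have h1 := hf.hasFDerivAt.comp η ((hasFDerivAt_const a η).prodMk hG.hasFDerivAt)
  have h2 := T.hasFDerivAt.comp η (hf'.hasFDerivAt.comp η (hasFDerivAt_prodMk_right ξ η))
  exact congrArg (fun L => L u) (h1.unique (h2.congr_of_eventuallyEq e))

lemma tr_id {f : PE n → E} {f' : PE n → E'} {a : Euc n} (T : E' →L[ℝ] E)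
    (hf : DifferentiableAt ℝ f (a, η)) (hf' : DifferentiableAt ℝ f' (ξ, η))
    (e : ∀ᶠ η' in 𝓝 η, f (a, η') = T (f' (ξ, η'))) (u : Euc n) :
    fderiv ℝ f (a, η) (0, u) = T (fderiv ℝ f' (ξ, η) (0, u)) := by
  simpa using tr (G := id) T hf hf' differentiableAt_id e u

lemma fd_apply {c : PE n → E →L[ℝ] E'} {a : PE n → E} (hc : DifferentiableAt ℝ c p)
    (ha : DifferentiableAt ℝ a p) (v : PE n) : fderiv ℝ (fun q => c q (a q)) p v =
      c p (fderiv ℝ a p v) + fderiv ℝ (fun q => c q (a p)) p v := by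
  rw [fderiv_clm_apply hc ha, fderiv_clm_apply hc (differentiableAt_const _)]
  simp

lemma ev_Om (hO : IsOpen O) (h : (ξ, η) ∈ Om O) : ∀ᶠ η' in 𝓝 η, (ξ, η') ∈ Om O :=
  (continuous_const.prodMk continuous_id).continuousAt.eventually_mem ((isOpen_Om hO).mem_nhds h)

lemma smul_Om (ht : 0 < t) (h : (ξ, η) ∈ Om O) : (t • ξ, η) ∈ Om O :=
  ⟨by simpa using GO_smul ht one_pos h.1, h.2⟩

end ExtA

open ExtA

namespace Cone

variable (B : Cone n)

lemma psi_eq (Y' : Euc n → Euc n) (p : PE n) : B.psi Y' p = ⟪zz B.F p, Y' p.2⟫ :=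
  (inner_zz _ _ _).symm

lemma DD_sum (Y' : Euc n → Euc n) (u u' : Euc n) (p : PE n) : B.DD Y' u u' p =
    ∑ ij : Fin n × Fin n, u ij.1 * u' ij.2 * B.DD Y' (ee ij.1) (ee ij.2) p :=
  bil_sum (MM B.F p ∘L fderiv ℝ (B.ext Y') p ∘L ContinuousLinearMap.inr ℝ (Euc n) (Euc n)) u u'

lemma del_swap (h : (ξ, η) ∈ GO n) : B.del Y' Y (η, ξ) = B.del Y Y' (ξ, η) :=
  B.fderiv_swap h _ _

lemma Kil.swap (h : B.Kil Y Y') : B.Kil Y' Y :=
  ⟨h.sm', h.sm, h.hom', h.hom, fun p hp =>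
    (B.del_swap (Cov.GO_symm hp)).trans (h.eq _ (Cov.GO_symm hp))⟩

lemma psi_smul (ht : 0 < t) (h : (ξ, η) ∈ GO n) : B.psi Y' (t • ξ, η) = t * B.psi Y' (ξ, η) := by
  have := B.zz_smul ht one_pos h
  rw [one_smul] at this
  rw [psi_eq, psi_eq, this, real_inner_smul_left]

variable (hO : IsOpen O) (h0 : O ⊆ {0}ᶜ) (hY : ContDiffOn ℝ ∞ Y' O)
include hO h0 hY

lemma psi_sm : ContDiffOn ℝ ∞ (B.psi Y') (Om O) :=
  ((B.sm.fderiv_of_isOpen Cov.isOpen_GO (by simp)).mono fun _ h => h.1).clm_apply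
    (contDiffOn_const.prodMk (hY.comp contDiffOn_snd fun _ h => h.2))

lemma ext_sm : ContDiffOn ℝ ∞ (B.ext Y') (Om O) :=
  ((B.Mi_sm.mono fun _ h => h.1).clm_apply (zz_sm (isOpen_Om hO) (B.psi_sm hO h0 hY))).neg

lemma DD_sm (u u' : Euc n) : ContDiffOn ℝ ∞ (B.DD Y' u u') (Om O) :=
  (((MM_sm Cov.isOpen_GO B.sm).mono fun _ h => h.1).clm_apply (((B.ext_sm hO h0 hY).fderiv_of_isOpen
    (isOpen_Om hO) (by simp)).clm_apply contDiffOn_const)).inner ℝ contDiffOn_const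

lemma ext_smul (ht : 0 < t) (h : (ξ, η) ∈ Om O) : B.ext Y' (t • ξ, η) = t • B.ext Y' (ξ, η) := by
  have h1 := B.Mi_smul ht one_pos h.1
  have hs := B.psi_sm hO h0 hY
  have h2 : zz (B.psi Y') (t • ξ, η) = t • zz (B.psi Y') (ξ, η) := ext_inner_right ℝ fun w => by
    rw [real_inner_smul_left, inner_zz, inner_zz]
    exact tr_id (t • ContinuousLinearMap.id ℝ ℝ) (sm_dif (isOpen_Om hO) hs (smul_Om ht h))
      (sm_dif (isOpen_Om hO) hs h) ((ev_Om hO h).mono fun _ e => B.psi_smul ht e.1) w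
  rw [one_smul] at h1
  rw [ext, ext, h1, h2, map_smul, smul_neg]

/-- `∇_η (dF (Y, Y')) = MM (Y - ext Y')` -/
lemma zz_del (h : p ∈ Om O) (hd : DifferentiableAt ℝ Y p.1) :
    zz (B.del Y Y') p = MM B.F p (Y p.1 - B.ext Y' p) := by
  obtain ⟨ξ, η⟩ := p
  have hc : DifferentiableAt ℝ (fderiv ℝ B.F) (ξ, η) :=
    sm_dif Cov.isOpen_GO (B.sm.fderiv_of_isOpen Cov.isOpen_GO (by simp)) h.1
  have h1 := hc.clm_apply (differentiableAt_const ((Y ξ, 0) : PE n))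
  have h2 := sm_dif (isOpen_Om hO) (B.psi_sm hO h0 hY) h
  refine ext_inner_right ℝ fun w => ?_
  rw [inner_zz, map_sub, ext, map_neg, B.MM_Mi h.1, sub_neg_eq_add, inner_add_left, inner_zz,
    inner_MM Cov.isOpen_GO B.sm h.1]
  refine (tr_id (f := B.del Y Y') (ContinuousLinearMap.id ℝ ℝ) (hc.clm_apply
    ((hd.comp (ξ, η) differentiableAt_fst).prodMk ((sm_dif hO hY h.2).comp (ξ, η) differentiableAt_snd)))
    (h1.fun_add h2) (Eventually.of_forall fun η' => ?_) w).trans ?_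
  · simp only [del, psi, ContinuousLinearMap.id_apply, ← map_add, Prod.mk_add_mk, add_zero, zero_add]
  · rw [ContinuousLinearMap.id_apply, fderiv_fun_add h1 h2, add_apply,
      fderiv_comm Cov.isOpen_GO B.sm h.1]
    rfl

/-- differentiate `MM ext = -zz psi` -/
lemma DD_eq (h : p ∈ Om O) (u u' : Euc n) : B.DD Y' u u' p =
    fderiv ℝ (B.QQ u u') p (B.Mi p (zz (B.psi Y') p), 0) - d2 u (d2 u' (B.psi Y')) p := by
  have hg := d2_sm Cov.isOpen_GO B.sm u'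
  have hc : DifferentiableAt ℝ (fderiv ℝ (d2 u' B.F)) p :=
    sm_dif Cov.isOpen_GO (hg.fderiv_of_isOpen Cov.isOpen_GO (by simp)) h.1
  have he := sm_dif (isOpen_Om hO) (B.ext_sm hO h0 hY) h
  have h1 := fd_apply hc (he.prodMk (differentiableAt_const (0 : Euc n))) (0, u)
  have h2 : EqOn (fun q => fderiv ℝ (d2 u' B.F) q (B.ext Y' q, 0)) (-d2 u' (B.psi Y')) (Om O) :=
    fun q hq => by
      simp only [Pi.neg_apply]
      rw [← inner_MM Cov.isOpen_GO B.sm hq.1, ext, map_neg, B.MM_Mi hq.1, inner_neg_left, inner_zz, d2]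
  have h3 : ((B.ext Y' p, 0) : PE n) = -(B.Mi p (zz (B.psi Y') p), 0) := by simp [ext]
  rw [(eventuallyEq_of_mem ((isOpen_Om hO).mem_nhds h) h2).fderiv_eq, fderiv_neg,
    he.fderiv_prodMk (differentiableAt_const _), fderiv_comm Cov.isOpen_GO hg h.1, h3, map_neg] at h1
  simp only [neg_apply, ContinuousLinearMap.prod_apply, fderiv_fun_const, Pi.zero_apply,
    zero_apply] at h1
  rw [DD, inner_MM Cov.isOpen_GO B.sm h.1]
  change _ = fderiv ℝ (fun q => fderiv ℝ (d2 u' B.F) q (0, u)) p _ - fderiv ℝ (d2 u' (B.psi Y')) p (0, u)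
  linarith

theorem DD_pol (hQ : B.PolQ) : ∃ k, ∀ u u', B.UPol O 1 k (B.DD Y' u u') := by
  have hp : B.UPol O 1 2 (B.psi Y') := ⟨B.psi_sm hO h0 hY, fun η hη =>
    ⟨fun t ht ξ hξ => by rw [Real.rpow_one]; exact B.psi_smul ht hξ,
      (B.pol_zz η (Y' η)).congr (isOpen_sl η) fun ξ _ => (B.psi_eq Y' (ξ, η)).symm⟩⟩
  obtain ⟨k1, h1⟩ := UPol.d2 B hQ hO h0 hp
  choose k2 h2 using fun j : Fin n => UPol.d2 B hQ hO h0 (h1 (ee j))
  obtain ⟨k0, hQ⟩ := hQ
  refine ⟨k1 + 3 + k0 + ∑ j, k2 j, fun u u' => ⟨B.DD_sm hO h0 hY u u', fun η hη =>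
    ⟨fun t ht ξ hξ => ?_, ?_⟩⟩⟩
  · have h : (ξ, η) ∈ Om O := ⟨hξ, hη⟩
    have hs := B.ext_sm hO h0 hY
    have h3 := B.MM_smul ht one_pos h.1
    rw [one_smul] at h3
    simp only [DD]
    rw [h3, tr_id (t • ContinuousLinearMap.id ℝ _) (sm_dif (isOpen_Om hO) hs (smul_Om ht h))
      (sm_dif (isOpen_Om hO) hs h) ((ev_Om hO h).mono fun _ e => B.ext_smul hO h0 hY ht e) u,
      smul_apply, map_smul, real_inner_smul_left, Real.rpow_one, ContinuousLinearMap.id_apply]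
  · have ho := isOpen_sl η
    have hN := B.Ns_sm η
    refine PolN.congr ho (PolN.sum ho hN Finset.univ fun (ij : Fin n × Fin n) _ =>
      PolN.cmul ho hN (u ij.1 * u' ij.2) (f := fun ξ => B.DD Y' (ee ij.1) (ee ij.2) (ξ, η)) ?_)
      fun ξ _ => (B.DD_sum Y' u u' (ξ, η)).symm
    have h3 := B.pol_field (h0 hη) (W := fun ξ => zz (B.psi Y') (ξ, η))
      (fun i => by simpa only [zz_apply] using ((h1 (ee i)).2 η hη).2) (hQ η (h0 hη) (ee ij.1) (ee ij.2))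
      (B.QQ_hom η _ _)
    refine PolN.congr ho (PolN.sub ho hN (PolN.mono ho hN h3 (Nat.le_add_right _ _))
      (PolN.mono ho hN ((h2 ij.2 (ee ij.1)).2 η hη).2 ((Finset.single_le_sum
        (fun _ _ => Nat.zero_le _) (Finset.mem_univ _)).trans (Nat.le_add_left _ _)))) fun ξ hξ => ?_
    rw [B.DD_eq hO h0 hY (p := (ξ, η)) ⟨hξ, hη⟩, fderiv_slice (sm_dif Cov.isOpen_GO (B.QQ_sm _ _) hξ)]

lemma ext_nat (hG : Iso B.F G₁ G₂) (hm : MapsTo G₂ O O)
    (e : ∀ η ∈ O, Y' (G₂ η) = fderiv ℝ G₂ η (Y' η)) (h : (ξ, η) ∈ Om O) :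
    B.ext Y' (G₁ ξ, G₂ η) = fderiv ℝ G₁ ξ (B.ext Y' (ξ, η)) := by
  have hs := B.psi_sm hO h0 hY
  have h1 : adj G₂ η (zz (B.psi Y') (G₁ ξ, G₂ η)) = zz (B.psi Y') (ξ, η) :=
    ext_inner_right ℝ fun w => by
      rw [ContinuousLinearMap.adjoint_inner_left, inner_zz, inner_zz]
      refine tr (ContinuousLinearMap.id ℝ ℝ) (sm_dif (isOpen_Om hO) hs ⟨hG.maps _ _ h.1, hm h.2⟩)
        (sm_dif (isOpen_Om hO) hs h) (sm_dif isOpen_compl_singleton hG.sm₂ (h0 h.2))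
        ((ev_Om hO h).mono fun η' h' => ?_) w
      have := hG.fderiv_F h'.1 0 (Y' η')
      rwa [map_zero, ← e η' h'.2] at this
  rw [ext, ext, map_neg, hG.Mi_nat h.1, ← h1, (hG.adj_inv (h0 h.2)).inverse_apply_eq.2 rfl]

lemma DD_nat (hG : Iso B.F G₁ G₂) (hm : MapsTo G₂ O O)
    (e : ∀ η ∈ O, Y' (G₂ η) = fderiv ℝ G₂ η (Y' η)) (h : (ξ, η) ∈ Om O) (u u' : Euc n) :
    B.DD Y' (fderiv ℝ G₂ η u) (fderiv ℝ G₂ η u') (G₁ ξ, G₂ η) = B.DD Y' u u' (ξ, η) := by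
  have hs := B.ext_sm hO h0 hY
  rw [DD, DD, tr (fderiv ℝ G₁ ξ) (sm_dif (isOpen_Om hO) hs ⟨hG.maps _ _ h.1, hm h.2⟩)
    (sm_dif (isOpen_Om hO) hs h) (sm_dif isOpen_compl_singleton hG.sm₂ (h0 h.2))
    ((ev_Om hO h).mono fun η' h' => B.ext_nat hO h0 hY hG hm e h') u,
    ← ContinuousLinearMap.adjoint_inner_left, hG.MM_nat h.1]

end Cone

end Crest.Agent.N221.K
end
end

-- ▼ part N221/K/Alg
section

/-! Row 221, block K: the Lie algebra of Killing pairs (leaf K-Alg). -/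

set_option autoImplicit false
set_option linter.unusedSectionVars false
set_option linter.unusedVariables false

open Set Filter Topology
open scoped ContDiff RealInnerProductSpace
open Crest.GeometryTopology.Submanifold

noncomputable section

namespace Crest.Agent.N221.K

variable {n : ℕ} {Y Y' Z Z' g : Euc n → Euc n}

/-- derivative of a determinant with variable columns -/
lemma fderiv_det {E : Type} [NormedAddCommGroup E] [NormedSpace ℝ E] {c : Fin n → E → Euc n}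
    {x : E} (hc : ∀ j, DifferentiableAt ℝ (c j) x) (v : E) :
    fderiv ℝ (fun y => (Matrix.of fun i j : Fin n => c j y i).det) x v =
      ∑ k, (Matrix.of fun i j : Fin n =>
        Function.update (fun j => c j x) k (fderiv ℝ (c k) x v) j i).det := by
  have h1 : ∀ (σ : Equiv.Perm (Fin n)) (i : Fin n), HasFDerivAt (fun y => c i y (σ i))
      ((EuclideanSpace.proj (σ i) : Euc n →L[ℝ] ℝ) ∘L fderiv ℝ (c i) x) x := fun σ i =>
    (EuclideanSpace.proj (σ i) : Euc n →L[ℝ] ℝ).hasFDerivAt.comp x (hc i).hasFDerivAt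
  have h2 := HasFDerivAt.fun_sum (u := Finset.univ) fun (σ : Equiv.Perm (Fin n)) _ =>
    (HasFDerivAt.finsetProd (u := Finset.univ) fun i _ => h1 σ i).const_mul
      ((Equiv.Perm.sign σ : ℤ) : ℝ)
  simp only [Matrix.det_apply', Matrix.of_apply]
  rw [h2.fderiv, Finset.sum_comm]
  simp only [sum_apply, smul_apply, smul_eq_mul, Finset.mul_sum]
  refine Finset.sum_congr rfl fun σ _ => Finset.sum_congr rfl fun k _ => ?_
  rw [← Finset.mul_prod_erase _ _ (Finset.mem_univ k), Function.update_self, mul_comm (_ : ℝ) (∏ _ ∈ _, _)]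
  congr 2
  exact Finset.prod_congr rfl fun i hi => by rw [Function.update_of_ne (Finset.ne_of_mem_erase hi)]

/-- `∑_k det (…, A c_k, …) = tr A * det` (Cramer / adjugate) -/
lemma sum_det_update (A : Euc n →L[ℝ] Euc n) (c : Fin n → Euc n) :
    ∑ k, (Matrix.of fun i j : Fin n => Function.update c k (A (c k)) j i).det =
      LinearMap.trace ℝ (Euc n) (A : Euc n →ₗ[ℝ] Euc n) *
        (Matrix.of fun i j : Fin n => c j i).det := by
  set b := (EuclideanSpace.basisFun (Fin n) ℝ).toBasis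
  set M : Matrix (Fin n) (Fin n) ℝ := Matrix.of fun i j => c j i with hM
  set T := LinearMap.toMatrix b b (A : Euc n →ₗ[ℝ] Euc n) with hT
  have h1 : ∀ k, (Matrix.of fun i j : Fin n => Function.update c k (A (c k)) j i).det =
      (M.adjugate * (T * M)) k k := fun k => by
    have e : (Matrix.of fun i j : Fin n => Function.update c k (A (c k)) j i) =
        M.updateCol k fun i => (T * M) i k := by
      ext i j
      rw [Matrix.updateCol_apply, Matrix.of_apply]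
      split_ifs with h
      · subst h
        have := congrFun (LinearMap.toMatrix_mulVec_repr b b (A : Euc n →ₗ[ℝ] Euc n) (c j)) i
        rw [Function.update_self]
        exact this.symm
      · rw [Function.update_of_ne h]; rfl
    rw [e, ← Matrix.cramer_apply, Matrix.cramer_eq_adjugate_mulVec]
    rfl
  simp only [h1]
  rw [LinearMap.trace_eq_matrix_trace ℝ b]
  change (M.adjugate * (T * M)).trace = _
  rw [Matrix.trace_mul_comm, Matrix.mul_assoc, Matrix.mul_adjugate, Matrix.mul_smul, Matrix.mul_one,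
    Matrix.trace_smul, smul_eq_mul, mul_comm]

lemma det_comp (A : Euc n →L[ℝ] Euc n) (c : Fin n → Euc n) :
    (Matrix.of fun i j : Fin n => A (c j) i).det =
      A.det * (Matrix.of fun i j : Fin n => c j i).det := by
  have h := (EuclideanSpace.basisFun (Fin n) ℝ).toBasis.det_comp (A : Euc n →ₗ[ℝ] Euc n) c
  rw [Module.Basis.det_apply, Module.Basis.det_apply] at h
  exact h

namespace Alg

/-- the product field -/
def pf (Y Y' : Euc n → Euc n) (p : PE n) : PE n := (Y p.1, Y' p.2)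

lemma dif (h : ContDiffOn ℝ ∞ Y {0}ᶜ) {ξ : Euc n} (hξ : ξ ≠ 0) : DifferentiableAt ℝ Y ξ :=
  sm_dif isOpen_compl_singleton h hξ

lemma pf_sm (h : ContDiffOn ℝ ∞ Y {0}ᶜ) (h' : ContDiffOn ℝ ∞ Y' {0}ᶜ) :
    ContDiffOn ℝ ∞ (pf Y Y') (GO n) :=
  (h.comp contDiffOn_fst fun _ hp => hp.1).prodMk (h'.comp contDiffOn_snd fun _ hp => hp.2.1)

lemma fderiv_pf (h : ContDiffOn ℝ ∞ Y {0}ᶜ) (h' : ContDiffOn ℝ ∞ Y' {0}ᶜ) {p : PE n}
    (hp : p ∈ GO n) (v : PE n) :
    fderiv ℝ (pf Y Y') p v = (fderiv ℝ Y p.1 v.1, fderiv ℝ Y' p.2 v.2) := by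
  have := ((dif h hp.1).hasFDerivAt.prodMap p (dif h' hp.2.1).hasFDerivAt).fderiv
  exact DFunLike.congr_fun this v

/-- commutator with a constant field -/
lemma comm_const {V : Type} [NormedAddCommGroup V] [NormedSpace ℝ V] {Ω : Set V} (hΩ : IsOpen Ω)
    {X : V → V} {f : V → ℝ} (hX : ContDiffOn ℝ ∞ X Ω) (hf : ContDiffOn ℝ ∞ f Ω) {p : V}
    (hp : p ∈ Ω) (v : V) : fderiv ℝ (dX X f) p v =
      dX X (fun q => fderiv ℝ f q v) p + fderiv ℝ f p (fderiv ℝ X p v) := by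
  have h := dX_comm hΩ (X := fun _ => v) contDiffOn_const hX hf hp
  simp only [VectorField.lieBracket, fderiv_fun_const, Pi.zero_apply, zero_apply, sub_zero] at h
  exact sub_eq_iff_eq_add'.1 h

lemma trace_adj (A : Euc n →L[ℝ] Euc n) :
    LinearMap.trace ℝ (Euc n) (ContinuousLinearMap.adjoint A : Euc n →ₗ[ℝ] Euc n) =
      LinearMap.trace ℝ (Euc n) (A : Euc n →ₗ[ℝ] Euc n) := by
  rw [LinearMap.trace_eq_sum_inner _ (EuclideanSpace.basisFun (Fin n) ℝ),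
    LinearMap.trace_eq_sum_inner _ (EuclideanSpace.basisFun (Fin n) ℝ)]
  refine Finset.sum_congr rfl fun i _ => ?_
  rw [ContinuousLinearMap.coe_coe, ContinuousLinearMap.coe_coe,
    ContinuousLinearMap.adjoint_inner_right, real_inner_comm]

lemma det_cols (A : Euc n →L[ℝ] Euc n) :
    (Matrix.of fun i j : Fin n => A (ee j) i).det = A.det := by
  have e : (Matrix.of fun i j : Fin n => (ee j : Euc n) i) = 1 := by
    ext i j; simp [Matrix.one_apply]
  rw [det_comp A ee, e, Matrix.det_one, mul_one]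

end Alg

open Alg Cov

namespace Cone

variable (B : Cone n)

lemma kil_euler : B.Kil (fun ξ => ξ) (fun η => -η) := by
  refine ⟨contDiffOn_id, contDiffOn_id.neg, fun _ _ _ => rfl, fun t _ ξ => (smul_neg t ξ).symm,
    fun p hp => ?_⟩
  have e : ((p.1, -p.2) : PE n) = (p.1, 0) - (0, p.2) := by simp
  rw [del, e, map_sub]
  exact sub_eq_zero.2 ((B.euler₁ hp).trans (B.euler₂ hp).symm)

lemma Kil.bracket (h : B.Kil Y Y') (h' : B.Kil Z Z') :
    B.Kil (VectorField.lieBracket ℝ Y Z) (VectorField.lieBracket ℝ Y' Z') := by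
  have hs : ∀ {Y Z : Euc n → Euc n}, ContDiffOn ℝ ∞ Y {0}ᶜ → ContDiffOn ℝ ∞ Z {0}ᶜ →
      ContDiffOn ℝ ∞ (VectorField.lieBracket ℝ Y Z) {0}ᶜ := fun hY hZ ξ hξ =>
    ((hY.contDiffAt (isOpen_compl_singleton.mem_nhds hξ)).lieBracket_vectorField
      (hZ.contDiffAt (isOpen_compl_singleton.mem_nhds hξ)) (by simp)).contDiffWithinAt
  have hh : ∀ {Y Z : Euc n → Euc n}, Hom1 Y → Hom1 Z → Hom1 (VectorField.lieBracket ℝ Y Z) :=
    fun hY hZ t ht ξ => by
    simp only [VectorField.lieBracket, hY.fderiv_smul ht, hZ.fderiv_smul ht, hY t ht, hZ t ht,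
      map_smul, smul_sub]
  refine ⟨hs h.sm h'.sm, hs h.sm' h'.sm', hh h.hom h'.hom, hh h.hom' h'.hom', fun p hp => ?_⟩
  have h1 := dX_comm isOpen_GO (pf_sm h.sm h.sm') (pf_sm h'.sm h'.sm') B.sm hp
  have h2 : dX (pf Y Y') (dX (pf Z Z') B.F) p = dX (pf Y Y') (fun _ => 0) p :=
    dX_congr isOpen_GO h'.eq hp
  have h3 : dX (pf Z Z') (dX (pf Y Y') B.F) p = dX (pf Z Z') (fun _ => 0) p :=
    dX_congr isOpen_GO h.eq hp
  rw [h2, h3, VectorField.lieBracket, fderiv_pf h.sm h.sm' hp, fderiv_pf h'.sm h'.sm' hp] at h1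
  simp only [dX, fderiv_fun_const, Pi.zero_apply, zero_apply, sub_zero] at h1
  exact h1.symm

lemma Kil.pull (h : B.Kil Y Y') (hg : Iso B.F g g) :
    B.Kil (fun ξ => (fderiv ℝ g ξ).inverse (Y (g ξ))) (fun ξ => (fderiv ℝ g ξ).inverse (Y' (g ξ))) := by
  have hi : ContDiffOn ℝ ∞ (fun ξ => (fderiv ℝ g ξ).inverse) {0}ᶜ := fun ξ hξ =>
    (hg.inv₁ hξ).contDiffAt_map_inverse.comp_contDiffWithinAt ξ
      (hg.sm₁.fderiv_of_isOpen (m := ∞) isOpen_compl_singleton (by simp) ξ hξ)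
  have hs : ∀ {Y : Euc n → Euc n}, ContDiffOn ℝ ∞ Y {0}ᶜ →
      ContDiffOn ℝ ∞ (fun ξ => (fderiv ℝ g ξ).inverse (Y (g ξ))) {0}ᶜ := fun hY =>
    hi.clm_apply (hY.comp hg.sm₁ fun _ hξ => hg.ne₂ hξ)
  have hh : ∀ {Y : Euc n → Euc n}, Hom1 Y → Hom1 (fun ξ => (fderiv ℝ g ξ).inverse (Y (g ξ))) :=
    fun hY t ht ξ => by simp only [hg.hom₁.fderiv_smul ht, hg.hom₁ t ht, hY t ht, map_smul]
  refine ⟨hs h.sm, hs h.sm', hh h.hom, hh h.hom', fun p hp => ?_⟩
  rw [del, ← hg.fderiv_F (ξ := p.1) (η := p.2) hp, (hg.inv₁ hp.1).self_apply_inverse,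
    (hg.inv₁ hp.2.1).self_apply_inverse]
  exact h.eq (g p.1, g p.2) (hg.maps _ _ hp)

/-- a Killing pair is determined by the first jet of `Y'` at one point -/
lemma Kil.eq_zero (h : B.Kil Y Y') {η : Euc n} (hη : η ≠ 0) (h0 : Y' η = 0)
    (h1 : fderiv ℝ Y' η = 0) : Y = 0 := by
  have hs : ∀ ξ ∈ sl η, Y ξ = 0 := fun ξ hξ => by
    have hp : (ξ, η) ∈ GO n := hξ
    have hz : zz (B.psi Y') (ξ, η) = 0 := by
      refine ext_inner_right ℝ fun w => ?_
      have e : B.psi Y' = fun p => ⟪zz B.F p, Y' p.2⟫ := funext (B.psi_eq Y')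
      have d1 := (sm_dif isOpen_GO (zz_sm isOpen_GO B.sm) hp).hasFDerivAt
      have d2 : HasFDerivAt (fun p : PE n => Y' p.2) _ (ξ, η) :=
        (dif h.sm' hη).hasFDerivAt.comp (ξ, η) (hasFDerivAt_snd (𝕜 := ℝ))
      rw [inner_zz, e, (d1.inner ℝ d2).fderiv]
      simp [h0, h1]
    have hd : zz (B.del Y Y') (ξ, η) = 0 := by
      refine ext_inner_right ℝ fun w => ?_
      rw [inner_zz, fderiv_congr_open isOpen_GO (g := fun _ => 0) h.eq hp]
      simp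
    have h2 := B.zz_del isOpen_compl_singleton Subset.rfl h.sm' (p := (ξ, η)) ⟨hp, hη⟩ (dif h.sm hp.1)
    rw [hd, ext, hz, map_zero, neg_zero, sub_zero] at h2
    have h3 := B.Mi_MM hp (Y ξ)
    rw [← h2, map_zero] at h3
    exact h3.symm
  funext ξ
  by_cases hξ : ξ = 0
  · rw [hξ]; exact h.hom.zero
  refine EqOn.of_subset_closure (s := sl η) (g := 0) hs h.sm.continuousOn continuousOn_const
    (sl_sub η) (fun x _ => ?_) hξ
  exact closure_mono (fun y hy => (mem_sl_of_plane hη hη hy).1) (dense_plane B.hn η η x)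

/-- the space of Killing pairs -/
def kilS : Submodule ℝ ((Euc n → Euc n) × (Euc n → Euc n)) where
  carrier := {q | B.Kil q.1 q.2}
  add_mem' := fun {q r} hq hr => ⟨hq.sm.add hr.sm, hq.sm'.add hr.sm',
    fun t ht ξ => by simp [hq.hom t ht, hr.hom t ht], fun t ht ξ => by simp [hq.hom' t ht, hr.hom' t ht],
    fun p hp => by
      have := (fderiv ℝ B.F p).map_add (q.1 p.1, q.2 p.2) (r.1 p.1, r.2 p.2)
      exact this.trans ((congrArg₂ (· + ·) (hq.eq p hp) (hr.eq p hp)).trans (add_zero 0))⟩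
  zero_mem' := ⟨contDiffOn_const, contDiffOn_const, fun t _ ξ => (smul_zero t).symm,
    fun t _ ξ => (smul_zero t).symm, fun p _ => (fderiv ℝ B.F p).map_zero⟩
  smul_mem' := fun c q hq => ⟨hq.sm.const_smul c, hq.sm'.const_smul c,
    fun t ht ξ => by simp [hq.hom t ht, smul_comm c t],
    fun t ht ξ => by simp [hq.hom' t ht, smul_comm c t],
    fun p hp => by
      have := (fderiv ℝ B.F p).map_smul c (q.1 p.1, q.2 p.2)
      exact this.trans ((congrArg (c • ·) (hq.eq p hp)).trans (smul_zero c))⟩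

/-- finite dimension: `(Y, Y') ↦ (Y' η₀, D Y' η₀)` is injective (`zz_del`) -/
theorem kil_fin : ∃ (ι : Type) (_ : Fintype ι) (Y : ι → Euc n → Euc n), (∀ i, B.Kf (Y i)) ∧
    ∀ Z, B.Kf Z → ∃ c : ι → ℝ, ∀ ξ, Z ξ = ∑ i, c i • Y i ξ := by
  have hn := B.hn
  let η : Euc n := ee ⟨0, by omega⟩
  have hη : η ≠ 0 := by simp [η]
  let Λ : B.kilS →ₗ[ℝ] Euc n × (Euc n →L[ℝ] Euc n) :=
    { toFun := fun q => (q.1.2 η, fderiv ℝ q.1.2 η)
      map_add' := fun q r => Prod.ext rfl (fderiv_add (dif q.2.sm' hη) (dif r.2.sm' hη))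
      map_smul' := fun c q => Prod.ext rfl (fderiv_const_smul (dif q.2.sm' hη) c) }
  have hΛ : Function.Injective Λ := (injective_iff_map_eq_zero Λ).2 fun q hq => by
    have h1 : q.1.1 = 0 := Kil.eq_zero B q.2 hη (congrArg Prod.fst hq) (congrArg Prod.snd hq)
    have h2 : q.1.2 = 0 := Kil.eq_zero B (Kil.swap B q.2) hη (by rw [h1]; rfl)
      (by rw [h1, fderiv_zero]; rfl)
    exact Subtype.ext (Prod.ext h1 h2)
  have := FiniteDimensional.of_injective Λ hΛ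
  let b := Module.finBasis ℝ B.kilS
  refine ⟨_, inferInstance, fun i => (b i).1.1, fun i => ⟨_, (b i).2⟩, fun Z ⟨Z', hZ⟩ => ?_⟩
  refine ⟨b.repr ⟨(Z, Z'), hZ⟩, fun ξ => ?_⟩
  have h := congrArg (fun q : B.kilS => q.1.1 ξ) (b.sum_repr ⟨(Z, Z'), hZ⟩)
  simpa only [Submodule.coe_sum, Prod.fst_sum, Finset.sum_apply, Submodule.coe_smul, Prod.smul_fst,
    Pi.smul_apply] using h.symm

/-- the derivative of `MM` along a Killing pair -/
lemma Kil.fderiv_MM (h : B.Kil Y Y') {p : PE n} (hp : p ∈ GO n) (a : Euc n) :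
    fderiv ℝ (fun q => MM B.F q a) p (pf Y Y' p) = -(MM B.F p (fderiv ℝ Y p.1 a)) -
      ContinuousLinearMap.adjoint (fderiv ℝ Y' p.2) (MM B.F p a) := by
  refine ext_inner_right ℝ fun w => ?_
  have hX := pf_sm h.sm h.sm'
  have hD : ContDiffOn ℝ ∞ (fderiv ℝ Y') {0}ᶜ :=
    h.sm'.fderiv_of_isOpen isOpen_compl_singleton (by simp)
  have e1 : EqOn (dX (pf Y Y') (d2 w B.F)) (fun q => -⟪zz B.F q, fderiv ℝ Y' q.2 w⟫) (GO n) :=
    fun q hq => by
    have h1 := comm_const isOpen_GO hX B.sm hq (0, w)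
    rw [fderiv_congr_open isOpen_GO (f := dX (pf Y Y') B.F) (g := fun _ => 0) h.eq hq,
      fderiv_pf h.sm h.sm' hq] at h1
    simp only [fderiv_fun_const, Pi.zero_apply, zero_apply, map_zero] at h1
    simp only [inner_zz]
    exact eq_neg_of_add_eq_zero_left h1.symm
  have h2 := comm_const isOpen_GO hX (d2_sm isOpen_GO B.sm w) hp (a, 0)
  have d1 := (sm_dif isOpen_GO (zz_sm isOpen_GO B.sm) hp).hasFDerivAt
  have d2' : HasFDerivAt (fun q : PE n => fderiv ℝ Y' q.2 w) _ p :=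
    ((sm_dif isOpen_compl_singleton (hD.clm_apply (contDiffOn_const (c := w)))
    hp.2.1).hasFDerivAt).comp p (hasFDerivAt_snd (𝕜 := ℝ))
  have e2 : EqOn (fun q => fderiv ℝ (d2 w B.F) q (a, 0)) (fun q => ⟪MM B.F q a, w⟫) (GO n) :=
    fun q hq => (inner_MM isOpen_GO B.sm hq a w).symm
  have d3 := (sm_dif isOpen_GO ((MM_sm isOpen_GO B.sm).clm_apply (contDiffOn_const (c := a)))
    hp).hasFDerivAt.inner ℝ (hasFDerivAt_const w p)
  rw [fderiv_congr_open isOpen_GO e1 hp, (d1.inner ℝ d2').fun_neg.fderiv, dX_congr isOpen_GO e2 hp,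
    fderiv_pf h.sm h.sm' hp, map_zero, ← inner_MM isOpen_GO B.sm hp, dX, d3.fderiv] at h2
  rw [inner_sub_left, inner_neg_left, ContinuousLinearMap.adjoint_inner_left]
  simp only [neg_apply, ContinuousLinearMap.comp_apply, ContinuousLinearMap.prod_apply,
    fderivInnerCLM_apply, ContinuousLinearMap.coe_snd', map_zero, inner_zero_right, zero_add,
    zero_apply] at h2
  have e3 : fderiv ℝ (zz B.F) p (a, 0) = MM B.F p a := rfl
  rw [e3] at h2
  linarith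

/-- the two divergences add up to zero -/
lemma Kil.div_add (h : B.Kil Y Y') {p : PE n} (hp : p ∈ GO n) :
    ((B.ρ p.1)⁻¹ * fderiv ℝ B.ρ p.1 (Y p.1) +
      LinearMap.trace ℝ (Euc n) (fderiv ℝ Y p.1 : Euc n →ₗ[ℝ] Euc n)) +
    ((B.ρ p.2)⁻¹ * fderiv ℝ B.ρ p.2 (Y' p.2) +
      LinearMap.trace ℝ (Euc n) (fderiv ℝ Y' p.2 : Euc n →ₗ[ℝ] Euc n)) = 0 := by
  set D : PE n → ℝ := fun q => (Matrix.of fun i j : Fin n => MM B.F q (ee j) i).det with hD
  have hc : ∀ j, ContDiffOn ℝ ∞ (fun q => MM B.F q (ee j)) (GO n) := fun j =>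
    (MM_sm isOpen_GO B.sm).clm_apply contDiffOn_const
  have hDs : DifferentiableAt ℝ D p := by
    simp only [hD, Matrix.det_apply', Matrix.of_apply]
    refine DifferentiableAt.fun_sum fun σ _ => DifferentiableAt.const_mul ?_ _
    exact (HasFDerivAt.finsetProd fun i _ => (EuclideanSpace.proj (σ i) : Euc n →L[ℝ] ℝ).hasFDerivAt.comp
      p (sm_dif isOpen_GO (hc i) hp).hasFDerivAt).differentiableAt
  have hpos : ∀ q ∈ GO n, |D q| = B.F q ^ ((n : ℝ) - B.h) * B.ρ q.1 * B.ρ q.2 := fun q hq => by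
    rw [hD]; simp only [det_cols]; exact B.det_eq hq
  have hne : D p ≠ 0 := abs_pos.1 (by
    rw [hpos p hp]
    exact mul_pos (mul_pos (Real.rpow_pos_of_pos (B.pos p hp) _) (B.ρpos _ hp.1)) (B.ρpos _ hp.2.1))
  set A : Euc n →L[ℝ] Euc n := -(MM B.F p ∘L (fderiv ℝ Y p.1 ∘L B.Mi p)) -
    ContinuousLinearMap.adjoint (fderiv ℝ Y' p.2) with hA
  have h1 : fderiv ℝ D p (pf Y Y' p) =
      LinearMap.trace ℝ (Euc n) (A : Euc n →ₗ[ℝ] Euc n) * D p := by
    rw [hD, fderiv_det fun j => sm_dif isOpen_GO (hc j) hp, ← sum_det_update]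
    refine Finset.sum_congr rfl fun k _ => ?_
    rw [h.fderiv_MM B hp, hA]
    simp only [sub_apply, neg_apply, ContinuousLinearMap.comp_apply, B.Mi_MM hp]
  have h2 : LinearMap.trace ℝ (Euc n) (A : Euc n →ₗ[ℝ] Euc n) =
      -LinearMap.trace ℝ (Euc n) (fderiv ℝ Y p.1 : Euc n →ₗ[ℝ] Euc n) -
        LinearMap.trace ℝ (Euc n) (fderiv ℝ Y' p.2 : Euc n →ₗ[ℝ] Euc n) := by
    rw [hA, ContinuousLinearMap.toLinearMap_sub, ContinuousLinearMap.toLinearMap_neg, map_sub, map_neg,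
      trace_adj, ContinuousLinearMap.toLinearMap_comp, LinearMap.trace_comp_comm']
    congr 3
    ext1 v
    simp [B.Mi_MM hp]
  have e : EqOn (fun q => Real.log (D q)) (fun q => ((n : ℝ) - B.h) * Real.log (B.F q) +
      Real.log (B.ρ q.1) + Real.log (B.ρ q.2)) (GO n) := fun q hq => by
    have a1 := Real.rpow_pos_of_pos (B.pos q hq) ((n : ℝ) - B.h)
    have a2 := B.ρpos _ hq.1
    simp only
    rw [← Real.log_abs, hpos q hq, Real.log_mul (mul_pos a1 a2).ne' (B.ρpos _ hq.2.1).ne',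
      Real.log_mul a1.ne' a2.ne', Real.log_rpow (B.pos q hq)]
  have d0 := ((sm_dif isOpen_GO B.sm hp).hasFDerivAt.log (B.pos p hp).ne').const_mul ((n : ℝ) - B.h)
  have d1 : HasFDerivAt (fun q : PE n => Real.log (B.ρ q.1)) _ p :=
    ((sm_dif isOpen_compl_singleton B.ρsm hp.1).hasFDerivAt.comp p
      (hasFDerivAt_fst (𝕜 := ℝ))).log (B.ρpos _ hp.1).ne'
  have d2' : HasFDerivAt (fun q : PE n => Real.log (B.ρ q.2)) _ p :=
    ((sm_dif isOpen_compl_singleton B.ρsm hp.2.1).hasFDerivAt.comp p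
      (hasFDerivAt_snd (𝕜 := ℝ))).log (B.ρpos _ hp.2.1).ne'
  have h3 := DFunLike.congr_fun (fderiv_congr_open isOpen_GO e hp) (pf Y Y' p)
  have h4 : fderiv ℝ B.F p (pf Y Y' p) = 0 := h.eq p hp
  rw [(hDs.hasFDerivAt.log hne).fderiv, ((d0.fun_add d1).fun_add d2').fderiv] at h3
  simp only [add_apply, smul_apply, smul_eq_mul, h1, h4, mul_zero, zero_add,
    ContinuousLinearMap.comp_apply, ContinuousLinearMap.coe_fst', ContinuousLinearMap.coe_snd',
    Function.comp_apply] at h3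
  rw [mul_comm _ (D p), inv_mul_cancel_left₀ hne, h2] at h3
  simp only [pf] at h3
  linarith

/-- constant divergence -/
theorem Kil.div (h : B.Kil Y Y') : ∃ κ : ℝ, ∀ ξ, ξ ≠ 0 → fderiv ℝ B.ρ ξ (Y ξ) +
    B.ρ ξ * LinearMap.trace ℝ (Euc n) (fderiv ℝ Y ξ : Euc n →ₗ[ℝ] Euc n) = κ * B.ρ ξ := by
  have hn := B.hn
  let a : Euc n := ee ⟨0, by omega⟩
  have ha : a ≠ 0 := by simp [a]
  refine ⟨(B.ρ a)⁻¹ * fderiv ℝ B.ρ a (Y a) +
    LinearMap.trace ℝ (Euc n) (fderiv ℝ Y a : Euc n →ₗ[ℝ] Euc n), fun ξ hξ => ?_⟩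
  obtain ⟨η, -, h1, h2⟩ := exists_mem_sl hn isOpen_univ univ_nonempty ha hξ
  have e1 := h.div_add B (p := (a, η)) (GO_symm h1)
  have e2 := h.div_add B (p := (ξ, η)) (GO_symm h2)
  have e3 := add_right_cancel (e1.trans e2.symm)
  simp only at e3
  rw [e3]
  have := (B.ρpos ξ hξ).ne'
  field_simp

end Cone

end Crest.Agent.N221.K
end
end

-- ▼ part N221/K/Fam
section

/-! Row 221, block K: step P4 and the output (leaf K-Fam). -/

set_option autoImplicit false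
set_option linter.unusedSectionVars false
set_option linter.unusedVariables false

open Set Filter Topology
open scoped ContDiff RealInnerProductSpace
open Crest.GeometryTopology.Submanifold

noncomputable section

namespace Crest.Agent.N221.K

variable {n : ℕ}

namespace Fam

/-- determinant of the columns -/
def Dt : MultilinearMap ℝ (fun _ : Fin n => Euc n) ℝ :=
  (Matrix.detRowAlternating (n := Fin n) (R := ℝ)).toMultilinearMap.compLinearMap
    fun _ => (WithLp.linearEquiv 2 ℝ (Fin n → ℝ)).toLinearMap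

lemma Dt_eq (c : Fin n → Euc n) : (Matrix.of fun i j : Fin n => c j i).det = Dt c :=
  (Matrix.det_transpose _).symm

lemma cons_apply {k : ℕ} (Z : Euc n → Euc n) (Y : Fin k → Euc n → Euc n) (x : Euc n) :
    (fun j => (Fin.cons Z Y : Fin (k + 1) → Euc n → Euc n) j x) =
      Fin.cons (Z x) fun j => Y j x :=
  funext fun j => Fin.cases rfl (fun _ => rfl) j

lemma cont {Y : Euc n → Euc n} (h : ContDiffOn ℝ ∞ Y {0}ᶜ) {x : Euc n} (hx : x ≠ 0) :
    DifferentiableAt ℝ Y x :=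
  (h.contDiffAt (isOpen_compl_singleton.mem_nhds hx)).differentiableAt (by simp)

/-- `k` Killing fields independent at a point -/
def Rk (B : Cone n) (k : ℕ) (ξ : Euc n) : Prop := ∃ Y : Fin k → Euc n → Euc n,
  (∀ j, B.Kf (Y j)) ∧ LinearIndependent ℝ fun j => Y j ξ

lemma Rk.unit {B : Cone n} {k : ℕ} {ξ : Euc n} (h : Rk B k ξ) (hξ : ξ ≠ 0) :
    ∃ ξ', ‖ξ'‖ = 1 ∧ Rk B k ξ' := by
  obtain ⟨Y, hY, hl⟩ := h
  have ht := inv_pos.2 (norm_pos_iff.2 hξ)
  refine ⟨‖ξ‖⁻¹ • ξ, norm_smul_inv_norm hξ, Y, hY, ?_⟩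
  have e : (fun j => Y j (‖ξ‖⁻¹ • ξ)) =
      (fun _ : Fin k => Units.mk0 _ ht.ne') • fun j => Y j ξ :=
    funext fun j => (hY j).choose_spec.hom _ ht ξ
  rw [e]
  exact hl.units_smul _

lemma Rk.succ {B : Cone n} (hP : B.PerS) {k : ℕ} (hk : k < n) {ξ : Euc n} (h : Rk B k ξ)
    (hξ : ‖ξ‖ = 1) : ∃ ξ', ξ' ≠ 0 ∧ Rk B (k + 1) ξ' := by
  obtain ⟨Y, hY, hl⟩ := h
  have hc : ∀ x, x ≠ 0 → ∀ j, ContinuousAt (Y j) x := fun x hx j =>
    (cont (hY j).choose_spec.sm hx).continuousAt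
  have h0 : ξ ≠ 0 := norm_ne_zero_iff.1 (by rw [hξ]; exact one_ne_zero)
  obtain ⟨ε, hε, hU⟩ := Metric.eventually_nhds_iff.1
    ((continuousAt_pi.2 (hc ξ h0)).eventually hl.eventually)
  obtain ⟨P, R, hd, hp⟩ := B.dense ξ hξ ε hε
  have hP0 : P ≠ 0 := hp.1.2.1
  have hl := hU (y := P) (by rwa [dist_eq_norm])
  obtain ⟨Z, Z', hZ, z0, -, hs, -⟩ := hP P R hp
  have ext : ∀ (V : Euc n → Euc n) (x : Euc n), B.Kf V →
      LinearIndependent ℝ (Fin.cons (V x) fun j => Y j x : Fin (k + 1) → Euc n) →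
      Rk B (k + 1) x := fun V x hV h =>
    ⟨Fin.cons V Y, fun j => Fin.cases hV hY j, by rwa [cons_apply]⟩
  by_cases hPs : P ∈ Submodule.span ℝ (range fun j => Y j P)
  swap
  · exact ⟨P, hP0, ext (fun x => x) P ⟨_, B.kil_euler⟩ (linearIndependent_finCons.2 ⟨hl, hPs⟩)⟩
  obtain ⟨v, hv⟩ := exists_linearIndependent_cons_of_lt_finrank hl (by simpa using hk)
  obtain ⟨v', s, rfl⟩ := hs v
  have l0 : LinearIndependent ℝ (Fin.cons (fderiv ℝ Z P v') fun j => Y j P : Fin (k + 1) → Euc n) :=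
    linearIndependent_finCons.2 ⟨hl, fun h => (linearIndependent_finCons.1 hv).2
      (Submodule.add_mem _ h (Submodule.smul_mem _ _ hPs))⟩
  have d0 : HasDerivAt (fun t : ℝ => P + t • v') v' 0 := by
    simpa using ((hasDerivAt_id (0 : ℝ)).smul_const v').const_add P
  have t0 : Tendsto (fun t : ℝ => P + t • v') (𝓝[≠] 0) (𝓝 P) := by
    simpa using d0.continuousAt.tendsto.mono_left nhdsWithin_le_nhds
  have d1 := hasDerivAt_iff_tendsto_slope_zero.1
    ((cont hZ.sm hP0).hasFDerivAt.comp_hasDerivAt_of_eq 0 d0 (by simp))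
  simp only [Function.comp, zero_add, zero_smul, add_zero, z0, sub_zero] at d1
  have t1 : Tendsto (fun t : ℝ => (Fin.cons (t⁻¹ • Z (P + t • v')) fun j => Y j (P + t • v') :
      Fin (k + 1) → Euc n)) (𝓝[≠] 0) (𝓝 (Fin.cons (fderiv ℝ Z P v') fun j => Y j P)) :=
    tendsto_pi_nhds.2 fun j => Fin.cases d1 (fun j => (hc P hP0 j).tendsto.comp t0) j
  obtain ⟨t, h1, h2⟩ := ((t1.eventually l0.eventually).and (t0.eventually_ne hP0)).exists
  rw [linearIndependent_finCons] at h1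
  exact ⟨_, h2, ext Z _ ⟨_, hZ⟩ (linearIndependent_finCons.2
    ⟨h1.1, fun h => h1.2 (Submodule.smul_mem _ _ h)⟩)⟩

lemma rk {B : Cone n} (hP : B.PerS) : ∀ k, k ≤ n → ∃ ξ, ‖ξ‖ = 1 ∧ Rk B k ξ
  | 0, _ => ⟨ee ⟨0, by have := B.hn; omega⟩, by simp, Fin.elim0, fun j => j.elim0,
      linearIndependent_empty_type⟩
  | k + 1, hk => by
    obtain ⟨ξ, h1, h2⟩ := rk hP k (by omega)
    obtain ⟨ξ', h3, h4⟩ := h2.succ hP hk h1
    exact h4.unit h3

lemma uu_eq (B : Cone n) (Y : Fin n → Euc n → Euc n) (ξ : Euc n) :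
    B.uu Y ξ = B.ρ ξ * Dt fun j => Y j ξ := by rw [Cone.uu, Dt_eq fun j => Y j ξ]

lemma key (B : Cone n) {ι : Type} [Fintype ι] {Y : ι → Euc n → Euc n}
    (hs : ∀ Z, B.Kf Z → ∃ c : ι → ℝ, ∀ ξ, Z ξ = ∑ i, c i • Y i ξ) {Z : Fin n → Euc n → Euc n}
    (hZ : ∀ j, B.Kf (Z j)) :
    ∃ c : (Fin n → ι) → ℝ, ∀ ξ, B.uu Z ξ = ∑ w, c w * B.uu (fun j => Y (w j)) ξ := by
  choose c hc using fun j => hs _ (hZ j)
  refine ⟨fun w => ∏ j, c j (w j), fun ξ => ?_⟩
  simp only [uu_eq, hc, MultilinearMap.map_sum, MultilinearMap.map_smul_univ, Finset.mul_sum,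
    smul_eq_mul]
  exact Finset.sum_congr rfl fun w _ => by ring

lemma det_sm {Y : Fin n → Euc n → Euc n} (hY : ∀ j, ContDiffOn ℝ ∞ (Y j) {0}ᶜ) :
    ContDiffOn ℝ ∞ (fun ξ => (Matrix.of fun i j : Fin n => Y j ξ i).det) {0}ᶜ := by
  simp only [Matrix.det_apply', Matrix.of_apply]
  exact ContDiffOn.sum fun σ _ => contDiffOn_const.mul
    (contDiffOn_prod fun j _ => contDiffOn_euclidean.1 (hY j) _)

lemma uu_der (B : Cone n) {Y : Fin n → Euc n → Euc n} (hY : ∀ j, B.Kf (Y j)) {Z : Euc n → Euc n}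
    (hZ : B.Kf Z) : ∃ κ : ℝ, ∀ ξ, ξ ≠ 0 → fderiv ℝ (B.uu Y) ξ (Z ξ) = κ * B.uu Y ξ +
      ∑ k, B.uu (Function.update Y k (VectorField.lieBracket ℝ Z (Y k))) ξ := by
  obtain ⟨κ, hκ⟩ := Cone.Kil.div B hZ.choose_spec
  refine ⟨κ, fun ξ hξ => ?_⟩
  have hn := isOpen_compl_singleton.mem_nhds hξ
  have d1 := (B.ρsm.contDiffAt hn).differentiableAt (by simp)
  have d2 := ((det_sm fun j => (hY j).choose_spec.sm).contDiffAt hn).differentiableAt (by simp)
  have e0 : B.uu Y = fun ξ => B.ρ ξ * (Matrix.of fun i j : Fin n => Y j ξ i).det := rfl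
  have e1 : ∀ k, fderiv ℝ (Y k) ξ (Z ξ) =
      VectorField.lieBracket ℝ Z (Y k) ξ + fderiv ℝ Z ξ (Y k ξ) := fun k => by
    rw [VectorField.lieBracket_eq]; simp
  have e2 := sum_det_update (fderiv ℝ Z ξ) fun j => Y j ξ
  have e3 : ∀ k V, (fun j => Function.update Y k V j ξ) =
      Function.update (fun j => Y j ξ) k (V ξ) := fun k V =>
    funext fun j => Function.apply_update (fun _ (W : Euc n → Euc n) => W ξ) Y k V j
  conv_lhs => rw [e0, fderiv_fun_mul d1 d2]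
  simp only [add_apply, smul_apply, smul_eq_mul,
    fderiv_det fun j => cont (hY j).choose_spec.sm hξ]
  simp only [Dt_eq fun j => Y j ξ, Dt_eq (Function.update _ _ _)] at e2 ⊢
  simp only [uu_eq, e1, e3, MultilinearMap.map_update_add, Finset.sum_add_distrib, e2,
    ← Finset.mul_sum]
  linear_combination (Dt fun j => Y j ξ) * hκ ξ hξ

end Fam

open Fam

namespace Cone

variable (B : Cone n)

/-- **P4** -/
theorem exists_uu (hP : B.PerS) : ∃ (Y : Fin n → Euc n → Euc n) (ξ : Euc n),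
    (∀ j, B.Kf (Y j)) ∧ ‖ξ‖ = 1 ∧ B.uu Y ξ ≠ 0 := by
  obtain ⟨ξ, h1, Y, hY, hl⟩ := rk hP n le_rfl
  refine ⟨Y, ξ, hY, h1, mul_ne_zero (B.ρpos ξ (norm_ne_zero_iff.1 (by simp [h1]))).ne' ?_⟩
  exact ((Matrix.isUnit_iff_isUnit_det _).1 (Matrix.linearIndependent_cols_iff_isUnit.1
    (hl.map' (WithLp.linearEquiv 2 ℝ (Fin n → ℝ)).toLinearMap (LinearEquiv.ker _)))).ne_zero

theorem outS (hP : B.PerS) : B.OutS := by
  obtain ⟨ι, _, Y, hY, hs⟩ := B.kil_fin
  refine ⟨ι, Fin n → ι, inferInstance, inferInstance, Y, fun w => B.uu fun j => Y (w j), hY, hs,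
    fun w => B.ρsm.mul (det_sm fun j => (hY _).choose_spec.sm), fun w t ht ξ hξ => ?_, ?_,
    fun g hg w => ?_, fun Z hZ w => ?_⟩
  · have e : (fun j => Y (w j) (t • ξ)) = fun j => t • Y (w j) ξ :=
      funext fun j => (hY _).choose_spec.hom t ht ξ
    dsimp only
    rw [uu_eq, uu_eq, e, MultilinearMap.map_smul_univ, B.ρhom t ht ξ hξ, Real.rpow_sub ht,
      Real.rpow_natCast]
    simp only [Finset.prod_const, Finset.card_univ, Fintype.card_fin, smul_eq_mul]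
    field_simp
  · obtain ⟨Z, ξ, hZ, h1, h2⟩ := B.exists_uu hP
    obtain ⟨c, hc⟩ := key B hs hZ
    rw [hc] at h2
    obtain ⟨w, -, hw⟩ := Finset.exists_ne_zero_of_sum_ne_zero h2
    exact ⟨w, ξ, h1, right_ne_zero_of_mul hw⟩
  · obtain ⟨σ, hσ⟩ := hg.rho
    obtain ⟨c, hc⟩ := key B hs (Z := fun j ξ => (fderiv ℝ g ξ).inverse (Y (w j) (g ξ)))
      fun j => ⟨_, Kil.pull B (hY _).choose_spec hg⟩
    refine ⟨fun w' => σ * c w', fun ξ hξ => ?_⟩
    have e := det_comp (fderiv ℝ g ξ) fun j => (fderiv ℝ g ξ).inverse (Y (w j) (g ξ))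
    simp only [(hg.inv₁ hξ).self_apply_inverse] at e
    simp only [mul_assoc, ← Finset.mul_sum, ← hc]
    rw [uu, uu, e, ← mul_assoc, hσ ξ hξ, mul_assoc]
  · obtain ⟨κ, hκ⟩ := uu_der B (Y := fun j => Y (w j)) (fun j => hY _) hZ
    obtain ⟨c, hc⟩ := key B hs (Z := fun j => Y (w j)) fun j => hY _
    choose c' hc' using fun k => key B hs
      (Z := Function.update (fun j => Y (w j)) k (VectorField.lieBracket ℝ Z (Y (w k)))) fun j => by
        rcases eq_or_ne j k with rfl | h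
        · rw [Function.update_self]
          exact ⟨_, Kil.bracket B hZ.choose_spec (hY _).choose_spec⟩
        · rw [Function.update_of_ne h]; exact hY _
    refine ⟨fun w' => κ * c w' + ∑ k, c' k w', fun ξ hξ => ?_⟩
    rw [hκ ξ hξ, hc ξ]
    simp only [hc', add_mul, Finset.sum_add_distrib, Finset.sum_mul, Finset.mul_sum, mul_assoc]
    rw [Finset.sum_comm]

end Cone

end Crest.Agent.N221.K
end
end

-- ▼ part N221/K/Glue
section

/-! Row 221, block K: step P3, global extension (leaf K-Glue). -/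

set_option autoImplicit false
set_option linter.unusedSectionVars false
set_option linter.unusedVariables false

open Set Filter Topology
open scoped ContDiff RealInnerProductSpace
open Crest.GeometryTopology.Submanifold

noncomputable section

namespace Crest.Agent.N221.K

variable {n : ℕ} {O : Set (Euc n)} {Y Y' : Euc n → Euc n}

namespace Cone

variable (B : Cone n) (hO : IsOpen O) (h0 : O ⊆ {0}ᶜ) (hY : ContDiffOn ℝ ∞ Y' O)
include hO h0 hY

namespace Gl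

/-- `ext` agrees over `η` and `η'` -/
def R (B : Cone n) (Y' : Euc n → Euc n) (η η' : Euc n) : Prop :=
  ∀ ξ ∈ sl η ∩ sl η', B.ext Y' (ξ, η) = B.ext Y' (ξ, η')

lemma slice {η : Euc n} (hη : η ∈ O) : ContDiffOn ℝ ∞ (fun ξ => B.ext Y' (ξ, η)) (sl η) :=
  (B.ext_sm hO h0 hY).comp (contDiffOn_id.prodMk contDiffOn_const) fun _ hξ => ⟨hξ, hη⟩

lemma of_dense {η η' : Euc n} (hη : η ∈ O) (hη' : η' ∈ O) {D : Set (Euc n)} (hD : Dense D)
    (h : ∀ ξ ∈ sl η ∩ sl η' ∩ D, B.ext Y' (ξ, η) = B.ext Y' (ξ, η')) : R B Y' η η' :=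
  EqOn.of_subset_closure (s := sl η ∩ sl η' ∩ D) h
    ((slice B hO h0 hY hη).continuousOn.mono inter_subset_left)
    ((slice B hO h0 hY hη').continuousOn.mono inter_subset_right) inter_subset_left
    (hD.open_subset_closure_inter ((isOpen_sl η).inter (isOpen_sl η')))

lemma loc (hD : ∀ p ∈ Om O, ∀ u u', B.DD Y' u u' p = 0) {η η' : Euc n} (h : segment ℝ η η' ⊆ O) :
    R B Y' η η' := by
  refine of_dense B hO h0 hY (h (left_mem_segment ℝ η η')) (h (right_mem_segment ℝ η η'))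
    (dense_plane B.hn η η') fun ξ hξ => ?_
  have key : ∀ z ∈ segment ℝ η η', HasFDerivWithinAt (fun z => B.ext Y' (ξ, z))
      (0 : Euc n →L[ℝ] Euc n) (segment ℝ η η') z := fun z hz => by
    have hp : (ξ, z) ∈ Om O := by
      refine ⟨(mem_sl_iff (h0 (h hz))).2 ?_, h hz⟩
      obtain ⟨a, b, -, -, -, rfl⟩ := hz
      rintro ⟨r, -, e⟩
      exact hξ.2 (r * a) (r * b) (by rw [e, smul_add, smul_smul, smul_smul])
    have h1 := (((B.ext_sm hO h0 hY).contDiffAt ((isOpen_Om hO).mem_nhds hp)).differentiableAt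
      (by simp)).hasFDerivAt.comp z (hasFDerivAt_prodMk_right ξ z)
    refine (h1.congr_fderiv (ContinuousLinearMap.ext fun u => ?_)).hasFDerivWithinAt
    have h2 : MM B.F (ξ, z) (fderiv ℝ (B.ext Y') (ξ, z) (0, u)) = 0 :=
      inner_self_eq_zero.1 (hD _ hp u _)
    simpa [h2] using (B.Mi_MM hp.1 (fderiv ℝ (B.ext Y') (ξ, z) (0, u))).symm
  have := (convex_segment η η').norm_image_sub_le_of_norm_hasFDerivWithin_le (C := 0) key
    (fun _ _ => norm_zero.le) (right_mem_segment ℝ η η') (left_mem_segment ℝ η η')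
  simpa [sub_eq_zero] using this

lemma all (hc : IsPreconnected O) (hD : ∀ p ∈ Om O, ∀ u u', B.DD Y' u u' p = 0) {η η' : Euc n}
    (hη : η ∈ O) (hη' : η' ∈ O) : R B Y' η η' := by
  refine hc.induction₂ (R B Y') (fun x hx => ?_) (fun x y z hx hy hz h1 h2 => ?_)
    (fun x y _ _ h ξ hξ => (h ξ ⟨hξ.2, hξ.1⟩).symm) hη hη'
  · obtain ⟨ε, hε, hb⟩ := Metric.isOpen_iff.1 hO x hx
    exact mem_nhdsWithin_of_mem_nhds (mem_of_superset (Metric.ball_mem_nhds x hε) fun y hy =>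
      loc B hO h0 hY hD (((convex_ball x ε).segment_subset (Metric.mem_ball_self hε) hy).trans hb))
  · refine of_dense B hO h0 hY hx hz (dense_plane B.hn y y) fun ξ hξ => ?_
    have := (mem_sl_of_plane (h0 hy) (h0 hy) hξ.2).1
    exact (h1 ξ ⟨hξ.1.1, this⟩).trans (h2 ξ ⟨this, hξ.1.2⟩)

/-- Euler's identity for `psi` in the second variable -/
lemma euler_psi {ξ η : Euc n} (hp : (ξ, η) ∈ Om O) (hE : fderiv ℝ Y' η η = Y' η) :
    fderiv ℝ (B.psi Y') (ξ, η) (0, η) = B.psi Y' (ξ, η) := by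
  have h1 := (((zz_sm Cov.isOpen_GO B.sm).contDiffAt (Cov.isOpen_GO.mem_nhds hp.1)).differentiableAt
    (by simp)).hasFDerivAt
  have h2 : HasFDerivAt (fun q : PE n => Y' q.2) _ (ξ, η) :=
    ((hY.contDiffAt (hO.mem_nhds hp.2)).differentiableAt (by simp)).hasFDerivAt.comp
      (ξ, η) hasFDerivAt_snd
  have h3 := B.QQ_self hp.1 (Y' η)
  rw [B.QQ_eq hp.1] at h3
  rw [funext (B.psi_eq Y'), (h1.inner ℝ h2).fderiv]
  simp [hE, h3]

end Gl

/-- vanishing defect: `ext Y' (ξ, η)` does not depend on `η` -/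
theorem glue (hc : IsPreconnected O) (hne : O.Nonempty)
    (hE : ∀ η ∈ O, fderiv ℝ Y' η η = Y' η) (hD : ∀ p ∈ Om O, ∀ u u', B.DD Y' u u' p = 0) :
    ∃ Y, ContDiffOn ℝ ∞ Y {0}ᶜ ∧ Hom1 Y ∧ (∀ p ∈ Om O, Y p.1 = B.ext Y' p) ∧
      ∀ p ∈ Om O, B.del Y Y' p = 0 := by
  classical
  obtain ⟨Y, hz, h1⟩ : ∃ Y : Euc n → Euc n, Y 0 = 0 ∧ ∀ p ∈ Om O, Y p.1 = B.ext Y' p := by
    refine ⟨fun ξ => if h : ∃ η ∈ O, ξ ∈ sl η then B.ext Y' (ξ, h.choose) else 0,
      dif_neg fun ⟨η, _, h⟩ => sl_sub η h rfl, fun p hp => ?_⟩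
    have h : ∃ η ∈ O, p.1 ∈ sl η := ⟨p.2, hp.2, hp.1⟩
    simp only [dif_pos h]
    exact Gl.all B hO h0 hY hc hD h.choose_spec.1 hp.2 _ ⟨h.choose_spec.2, hp.1⟩
  have h2 : ∀ ξ : Euc n, ξ ≠ 0 → ∃ η, (ξ, η) ∈ Om O := fun ξ hξ =>
    (exists_mem_sl B.hn hO hne hξ hξ).imp fun η h => ⟨Cov.GO_symm h.2.1, h.1⟩
  refine ⟨Y, fun ξ hξ => ?_, fun t ht ξ => ?_, h1, fun p hp => ?_⟩
  · obtain ⟨η, hη⟩ := h2 ξ hξ
    have := (isOpen_sl η).mem_nhds hη.1
    exact (((Gl.slice B hO h0 hY hη.2).contDiffAt this).congr_of_eventuallyEq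
      (mem_of_superset this fun x hx => h1 (x, η) ⟨hx, hη.2⟩)).contDiffWithinAt
  · by_cases hξ : ξ = 0
    · simp [hξ, hz]
    obtain ⟨η, hη⟩ := h2 ξ hξ
    have h3 := GO_smul ht one_pos hη.1
    rw [one_smul] at h3
    rw [h1 (t • ξ, η) ⟨h3, hη.2⟩, h1 (ξ, η) hη, B.ext_smul hO h0 hY ht hη]
  · obtain ⟨ξ, η⟩ := p
    have h3 : B.del Y Y' (ξ, η) = fderiv ℝ B.F (ξ, η) (Y ξ, 0) + B.psi Y' (ξ, η) := by
      rw [del, psi, ← map_add]; simp
    rw [h3, ← B.inner_MM_self hp.1, h1 (ξ, η) hp, ext, map_neg, B.MM_Mi hp.1, inner_neg_left,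
      inner_zz, Gl.euler_psi B hO h0 hY hp (hE η hp.2), neg_add_cancel]

theorem global (hQ : B.PolQ) (hne : O.Nonempty) (hs : ContDiffOn ℝ ∞ Y {0}ᶜ) (hh : Hom1 Y)
    (e : ∀ p ∈ Om O, B.del Y Y' p = 0) : ∃ Y'', B.Kil Y Y'' ∧ EqOn Y'' Y' O := by
  have o1 : IsOpen ({0}ᶜ : Set (Euc n)) := isOpen_compl_singleton
  have oV : IsOpen (GO n ∩ Prod.fst ⁻¹' O) := Cov.isOpen_GO.inter (hO.preimage continuous_fst)
  have dY : ∀ η ∈ O, DifferentiableAt ℝ Y' η := fun η hη =>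
    (hY.contDiffAt (hO.mem_nhds hη)).differentiableAt (by simp)
  have h1 : ∀ p ∈ GO n ∩ Prod.fst ⁻¹' O, B.ext Y p = Y' p.1 := fun p hp => by
    have a1 : B.del Y' Y =ᶠ[𝓝 p] fun _ => 0 := mem_of_superset (oV.mem_nhds hp) fun q hq =>
      (B.del_swap (Cov.GO_symm hq.1)).trans (e (q.2, q.1) ⟨Cov.GO_symm hq.1, hq.2⟩)
    have a2 := B.zz_del o1 subset_rfl hs (Om_compl.ge hp.1) (dY _ hp.2)
    have a3 := B.Mi_MM hp.1 (Y' p.1 - B.ext Y p)
    rw [← a2, zz, a1.fderiv_eq] at a3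
    simpa [eq_comm (a := (0 : Euc n)), sub_eq_zero, eq_comm (a := Y' p.1)] using a3
  have h2 : ∀ p ∈ GO n ∩ Prod.fst ⁻¹' O, ∀ u u', B.DD Y u u' p = 0 := fun p hp u u' => by
    have a1 : B.ext Y =ᶠ[𝓝 p] Y' ∘ Prod.fst := mem_of_superset (oV.mem_nhds hp) h1
    rw [DD, a1.fderiv_eq, ((dY _ hp.2).hasFDerivAt.comp p hasFDerivAt_fst).fderiv]
    simp
  obtain ⟨k, hk⟩ := B.DD_pol o1 subset_rfl hs hQ
  obtain ⟨Y'', s1, s2, s3, s4⟩ := B.glue o1 subset_rfl hs (isPreconnected_ne B.hn) (hne.mono h0)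
    (fun η hη => hh.euler ((hs.contDiffAt (o1.mem_nhds hη)).differentiableAt (by simp)))
    fun p hp u u' => by
      obtain ⟨η, a1, a2, -⟩ := exists_mem_sl B.hn hO hne hp.2 hp.2
      exact B.ident_open ((hk u u').2 _ hp.2).2 ((hk u u').2 _ hp.2).1 a2
        (mem_of_superset (((isOpen_sl p.2).inter hO).mem_nhds ⟨a2, a1⟩) fun x hx =>
          h2 (x, p.2) hx u u') _ hp.1
  refine ⟨Y'', Kil.swap B ⟨s1, hs, s2, hh, fun p hp => s4 p (Om_compl.ge hp)⟩, fun η hη => ?_⟩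
  obtain ⟨ξ, -, a1, -⟩ := exists_mem_sl B.hn hO hne (h0 hη) (h0 hη)
  exact (s3 (η, ξ) (Om_compl.ge (Cov.GO_symm a1))).trans (h1 (η, ξ) ⟨Cov.GO_symm a1, hη⟩)

end Cone

end Crest.Agent.N221.K
end
end

-- ▼ part N221/K/Flat
section

/-! Row 221, block K: flat functions and the jet theorem (leaf K-Flat). -/

set_option autoImplicit false
set_option linter.unusedSectionVars false
set_option linter.unusedVariables false

open Set Filter Topology
open scoped ContDiff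

noncomputable section

namespace Crest.Agent.N221.K

variable {V W : Type} [NormedAddCommGroup V] [NormedSpace ℝ V] [FiniteDimensional ℝ V]
  [NormedAddCommGroup W] [NormedSpace ℝ W] {Ω : Set V} {p₀ : V} {f g φ : V → ℝ} {X : V → V}

lemma Flat.sm (h : Flat Ω p₀ f) : ContDiffOn ℝ ∞ f Ω := h 0

lemma Flat.zero (h : Flat Ω p₀ f) : f p₀ = 0 := (h 1).2.1

namespace FlP

lemma sm {k : ℕ} (h : FlatK Ω p₀ k f) : ContDiffOn ℝ ∞ f Ω := by
  cases k with
  | zero => exact h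
  | succ k => exact h.1

lemma pred (k : ℕ) : ∀ {f : V → ℝ}, FlatK Ω p₀ (k + 1) f → FlatK Ω p₀ k f := by
  induction k with
  | zero => exact fun h => h.1
  | succ k ih => exact fun h => ⟨h.1, h.2.1, fun v => ih (h.2.2 v)⟩

lemma zero (k : ℕ) : FlatK Ω p₀ k fun _ => 0 := by
  induction k with
  | zero => exact contDiffOn_const
  | succ k ih =>
    refine ⟨contDiffOn_const, rfl, fun v => ?_⟩
    have : dX (fun _ => v) (fun _ : V => (0 : ℝ)) = fun _ => 0 := by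
      funext p; simp [dX]
    rwa [this]

lemma expand {ι : Type} [Fintype ι] (b : Module.Basis ι ℝ V) (L : V →L[ℝ] ℝ) (v : V) :
    L v = ∑ i, b.repr v i * L (b i) := by
  conv_lhs => rw [← b.sum_repr v]
  simp only [map_sum, map_smul, smul_eq_mul]

lemma repr_sm {ι : Type} (b : Module.Basis ι ℝ V) (i : ι) (hX : ContDiffOn ℝ ∞ X Ω) :
    ContDiffOn ℝ ∞ (fun p => b.repr (X p) i) Ω :=
  (LinearMap.toContinuousLinearMap (b.coord i)).contDiff.comp_contDiffOn hX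

lemma diff {U : Type} [NormedAddCommGroup U] [NormedSpace ℝ U] {y : V → U} (hΩ : IsOpen Ω)
    (hy : ContDiffOn ℝ ∞ y Ω) {p : V} (hp : p ∈ Ω) : DifferentiableAt ℝ y p :=
  (hy.contDiffAt (hΩ.mem_nhds hp)).differentiableAt (by simp)

lemma inv_sm {y : V → V} (hΩ : IsOpen Ω) (hy : ContDiffOn ℝ ∞ y Ω)
    (hi : ∀ p ∈ Ω, (fderiv ℝ y p).IsInvertible) :
    ContDiffOn ℝ ∞ (fun p => (fderiv ℝ y p).inverse) Ω := fun p hp => by
  have := FiniteDimensional.complete ℝ V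
  exact (hi p hp).contDiffAt_map_inverse.comp_contDiffWithinAt p
    (hy.fderiv_of_isOpen (m := ∞) hΩ (by simp) p hp)

/-- growth of the product of the norms -/
lemma nprod_gr {ι : Type} (T : ℕ → V → V) (b : ι → V) (s : ι → ℝ) (ε : ℝ)
    (h : ∀ i, ∃ C : ℝ, ∀ j : ℕ, ‖T j (b i)‖ ≤ C * Real.exp ((s i + ε) * j)) (is : List ι) :
    ∃ C : ℝ, ∀ j : ℕ, nprod ((is.map b).map (T j)) ≤
      C * Real.exp (((is.map s).sum + is.length * ε) * j) := by
  induction is with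
  | nil => exact ⟨1, fun j => by simp [nprod]⟩
  | cons i is ih =>
    obtain ⟨C, hC⟩ := ih
    obtain ⟨D, hD⟩ := h i
    refine ⟨D * C, fun j => ?_⟩
    rw [List.map_cons, List.map_cons, nprod_cons]
    refine (mul_le_mul (hD j) (hC j) (nprod_nonneg _) ((norm_nonneg _).trans (hD j))).trans_eq ?_
    rw [mul_mul_mul_comm, ← Real.exp_add, List.map_cons, List.sum_cons, List.length_cons]
    push_cast
    congr 2
    ring

/-- an invariant multilinear form vanishes on contracted vectors -/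
lemma van {ι : Type} (I : List V → ℝ) (T : ℕ → V → V) (b : ι → V) (s : ι → ℝ) (is : List ι)
    (hI : ∀ j ws, I ws = I (ws.map (T j)))
    (hb : ∃ C : ℝ, 0 ≤ C ∧ ∀ ws : List V, ws.length = is.length → |I ws| ≤ C * nprod ws)
    (h : ∀ ε : ℝ, 0 < ε → ∀ i, ∃ C : ℝ, ∀ j : ℕ, ‖T j (b i)‖ ≤ C * Real.exp ((s i + ε) * j))
    (hs : (is.map s).sum < 0) : I (is.map b) = 0 := by
  obtain ⟨C, hC0, hC⟩ := hb
  have hl : (0 : ℝ) < is.length + 1 := by positivity
  obtain ⟨D, hD⟩ := nprod_gr T b s _ (h (-(is.map s).sum / (is.length + 1))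
    (div_pos (neg_pos.2 hs) hl)) is
  have hc : (is.map s).sum + is.length * (-(is.map s).sum / (is.length + 1)) < 0 := by
    have : (is.map s).sum + is.length * (-(is.map s).sum / (is.length + 1)) =
        (is.map s).sum / (is.length + 1) := by
      field_simp
      ring
    rw [this]
    exact div_neg_of_neg_of_pos hs hl
  generalize (is.map s).sum + is.length * (-(is.map s).sum / (is.length + 1)) = c at hD hc
  have ht : Tendsto (fun j : ℕ => C * (D * Real.exp (c * j))) atTop (𝓝 (C * (D * 0))) :=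
    ((Real.tendsto_exp_atBot.comp
      (tendsto_natCast_atTop_atTop.const_mul_atTop_of_neg hc)).const_mul D).const_mul C
  rw [mul_zero, mul_zero] at ht
  refine abs_nonpos_iff.1 (ge_of_tendsto' ht fun j => ?_)
  rw [hI j]
  exact (hC _ (by simp)).trans (mul_le_mul_of_nonneg_left (hD j) hC0)

lemma iter (I : List V → ℝ) (Λ : V → V) (h : ∀ ws, I ws = I (ws.map Λ)) (j : ℕ) (ws : List V) :
    I ws = I (ws.map Λ^[j]) := by
  induction j with
  | zero => simp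
  | succ j ih => rw [ih, h, List.map_map, Function.iterate_succ']

variable (hΩ : IsOpen Ω) (hp : p₀ ∈ Ω)
include hΩ hp

lemma congr (k : ℕ) : ∀ {f g : V → ℝ}, FlatK Ω p₀ k f → EqOn f g Ω → FlatK Ω p₀ k g := by
  induction k with
  | zero => exact fun h e => ContDiffOn.congr h fun x hx => (e hx).symm
  | succ k ih =>
    exact fun h e => ⟨h.1.congr fun x hx => (e hx).symm, (e hp).symm.trans h.2.1,
      fun v => ih (h.2.2 v) (dX_congr hΩ e)⟩

lemma add (k : ℕ) : ∀ {f g : V → ℝ}, FlatK Ω p₀ k f → FlatK Ω p₀ k g →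
    FlatK Ω p₀ k fun q => f q + g q := by
  induction k with
  | zero => exact fun h h' => ContDiffOn.add h h'
  | succ k ih =>
    refine fun h h' => ⟨h.1.add h'.1, by simp only [h.2.1, h'.2.1, add_zero], fun v =>
      congr hΩ hp k (ih (h.2.2 v) (h'.2.2 v)) fun q hq => ?_⟩
    simp only [dX]
    rw [fderiv_fun_add (diff hΩ h.1 hq) (diff hΩ h'.1 hq)]
    rfl

lemma mul (k : ℕ) : ∀ {φ f : V → ℝ}, ContDiffOn ℝ ∞ φ Ω → FlatK Ω p₀ k f →
    FlatK Ω p₀ k fun q => φ q * f q := by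
  induction k with
  | zero => exact fun h h' => ContDiffOn.mul h h'
  | succ k ih =>
    refine fun h h' => ⟨h.mul h'.1, by simp only [h'.2.1, mul_zero], fun v =>
      congr hΩ hp k (add hΩ hp k (ih h (h'.2.2 v))
        (ih (dX_sm hΩ (X := fun _ => v) contDiffOn_const h) (pred k h'))) fun q hq => ?_⟩
    simp only [dX]
    rw [fderiv_fun_mul (diff hΩ h hq) (diff hΩ h'.1 hq)]
    simp [mul_comm]

lemma sum (k : ℕ) {ι : Type} (s : Finset ι) {F : ι → V → ℝ} (h : ∀ i ∈ s, FlatK Ω p₀ k (F i)) :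
    FlatK Ω p₀ k fun q => ∑ i ∈ s, F i q := by
  classical
  induction s using Finset.induction_on with
  | empty => simpa using zero k
  | insert a s ha ih =>
    simp only [Finset.sum_insert ha]
    exact add hΩ hp k (h a (Finset.mem_insert_self a s))
      (ih fun i hi => h i (Finset.mem_insert_of_mem hi))

lemma bound (k : ℕ) : ∀ {f : V → ℝ}, FlatK Ω p₀ k f →
    ∃ C : ℝ, ∀ᶠ p in 𝓝 p₀, |f p| ≤ C * ‖p - p₀‖ ^ k := by
  induction k with
  | zero =>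
    intro f h
    have hc := (diff hΩ (sm h) hp).continuousAt.abs
    refine ⟨|f p₀| + 1, (hc.eventually (gt_mem_nhds (lt_add_one _))).mono fun p h => ?_⟩
    rw [pow_zero, mul_one]
    exact h.le
  | succ k ih =>
    intro f h
    let b := Module.finBasis ℝ V
    obtain ⟨K, hK0, hK⟩ := b.exists_opNorm_le (F := ℝ)
    choose C hC using fun i => ih (h.2.2 (b i))
    have h1 := (eventually_all.2 hC).and (hΩ.mem_nhds hp)
    obtain ⟨ε, hε, h2⟩ := Metric.eventually_nhds_iff_ball.1 h1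
    have hM : 0 ≤ ∑ i, |C i| := Finset.sum_nonneg fun i _ => abs_nonneg _
    refine ⟨K * ∑ i, |C i|, ?_⟩
    filter_upwards [Metric.ball_mem_nhds p₀ hε] with p hpb
    have hs : Metric.closedBall p₀ ‖p - p₀‖ ⊆ Metric.ball p₀ ε :=
      Metric.closedBall_subset_ball (by rwa [mem_ball_iff_norm] at hpb)
    have h3 := (convex_closedBall p₀ ‖p - p₀‖).norm_image_sub_le_of_norm_fderiv_le (𝕜 := ℝ)
      (f := f) (C := K * ((∑ i, |C i|) * ‖p - p₀‖ ^ k))
      (fun q hq => diff hΩ h.1 (h2 q (hs hq)).2)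
      (fun q hq => hK (by positivity) fun i => ((h2 q (hs hq)).1 i).trans (mul_le_mul
        ((le_abs_self _).trans (Finset.single_le_sum (f := fun i => |C i|)
          (fun i _ => abs_nonneg _) (Finset.mem_univ i)))
        (pow_le_pow_left₀ (norm_nonneg _) (mem_closedBall_iff_norm.1 hq) k) (by positivity) hM))
      (Metric.mem_closedBall_self (norm_nonneg _)) (mem_closedBall_iff_norm.2 le_rfl)
    rw [h.2.1, sub_zero, Real.norm_eq_abs] at h3
    refine h3.trans_eq ?_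
    ring

lemma frame {ι : Type} [Fintype ι] (b : Module.Basis ι ℝ V) {y : V → V}
    (hy : ContDiffOn ℝ ∞ y Ω) (hi : ∀ p ∈ Ω, (fderiv ℝ y p).IsInvertible) (k : ℕ) :
    ∀ {f : V → ℝ}, ContDiffOn ℝ ∞ f Ω →
      (∀ is : List ι, itr (fun p => (fderiv ℝ y p).inverse) (is.map b) f p₀ = 0) →
      FlatK Ω p₀ k f := by
  induction k with
  | zero => exact fun hf _ => hf
  | succ k ih =>
    intro f hf h
    refine ⟨hf, h [], fun v => congr hΩ hp k (sum hΩ hp k Finset.univ fun i _ =>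
      mul hΩ hp k (repr_sm (X := fun p => fderiv ℝ y p v) b i
        ((hy.fderiv_of_isOpen (m := ∞) hΩ (by simp)).clm_apply contDiffOn_const))
        (ih (dN_sm hΩ (inv_sm hΩ hy hi) hf) fun is => h (i :: is))) fun q hq => ?_⟩
    have e := expand b (fderiv ℝ f q ∘L (fderiv ℝ y q).inverse) (fderiv ℝ y q v)
    rw [ContinuousLinearMap.comp_apply, (hi q hq).inverse_apply_eq.2 rfl] at e
    exact e.symm

omit hp in
/-- commutation with the linear field -/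
lemma comm {y : V → V} (hy : ContDiffOn ℝ ∞ y Ω) (hi : ∀ p ∈ Ω, (fderiv ℝ y p).IsInvertible)
    (𝔸 : V →L[ℝ] V) (hg : ContDiffOn ℝ ∞ g Ω) (w : V) {p : V} (hp : p ∈ Ω) :
    dN (fun p => (fderiv ℝ y p).inverse) w
        (dX (fun p => (fderiv ℝ y p).inverse (𝔸 (y p))) g) p =
      dX (fun p => (fderiv ℝ y p).inverse (𝔸 (y p))) (dN (fun p => (fderiv ℝ y p).inverse) w g) p +
        dN (fun p => (fderiv ℝ y p).inverse) (𝔸 w) g p := by
  have := FiniteDimensional.complete ℝ V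
  have hN := inv_sm hΩ hy hi
  have h1 := dX_comm hΩ (X := fun p => (fderiv ℝ y p).inverse w)
    (Y := fun p => (fderiv ℝ y p).inverse (𝔸 (y p))) (hN.clm_apply contDiffOn_const)
    (hN.clm_apply (𝔸.contDiff.comp_contDiffOn hy)) hg hp
  have h2 := VectorField.pullback_lieBracket (𝕜 := ℝ) (n := ∞) (by
      rw [minSmoothness_of_isRCLikeNormedField]; exact WithTop.coe_le_coe.2 le_top)
    (V := fun _ => w) (W := 𝔸) (hy.contDiffAt (hΩ.mem_nhds hp)) (differentiableAt_const w)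
    𝔸.differentiableAt
  have h3 : VectorField.lieBracket ℝ (fun p => (fderiv ℝ y p).inverse w)
      (fun p => (fderiv ℝ y p).inverse (𝔸 (y p))) p = (fderiv ℝ y p).inverse (𝔸 w) := by
    refine h2.symm.trans ?_
    simp [VectorField.pullback, VectorField.lieBracket]
  rw [h3] at h1
  exact sub_eq_iff_eq_add'.1 h1

omit hp in
lemma itr_comm {ι : Type} (b : ι → V) {y : V → V} (hy : ContDiffOn ℝ ∞ y Ω)
    (hi : ∀ p ∈ Ω, (fderiv ℝ y p).IsInvertible) (r : ι → ℝ) (𝔸 : V →L[ℝ] V)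
    (hb : ∀ i, 𝔸 (b i) = r i • b i) {p : V} (hp : p ∈ Ω) (is : List ι) :
    ∀ {g : V → ℝ}, ContDiffOn ℝ ∞ g Ω →
      itr (fun p => (fderiv ℝ y p).inverse) (is.map b)
          (dX (fun p => (fderiv ℝ y p).inverse (𝔸 (y p))) g) p =
        dX (fun p => (fderiv ℝ y p).inverse (𝔸 (y p)))
            (itr (fun p => (fderiv ℝ y p).inverse) (is.map b) g) p +
          (is.map r).sum * itr (fun p => (fderiv ℝ y p).inverse) (is.map b) g p := by
  have hN := inv_sm hΩ hy hi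
  induction is with
  | nil => intro g _; simp
  | cons i is ih =>
    intro g hg
    have h1 := dN_sm hΩ hN (w := b i) hg
    have h2 := dX_sm hΩ (X := fun p => (fderiv ℝ y p).inverse (𝔸 (y p)))
      (hN.clm_apply (𝔸.contDiff.comp_contDiffOn hy)) h1
    have e : EqOn (dN (fun p => (fderiv ℝ y p).inverse) (b i)
        (dX (fun p => (fderiv ℝ y p).inverse (𝔸 (y p))) g))
        (fun q => dX (fun p => (fderiv ℝ y p).inverse (𝔸 (y p)))
          (dN (fun p => (fderiv ℝ y p).inverse) (b i) g) q +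
          r i * dN (fun p => (fderiv ℝ y p).inverse) (b i) g q) Ω := fun q hq => by
      rw [comm hΩ hy hi 𝔸 hg (b i) hq, hb]
      simp only [dN, map_smul, smul_eq_mul]
    simp only [List.map_cons, itr_cons, List.sum_cons]
    rw [itr_congr hΩ _ e hp, itr_add hΩ hN _ h2 (contDiffOn_const.mul h1) hp,
      itr_cmul hΩ hN _ _ h1 hp, ih h1]
    ring

end FlP

variable (hΩ : IsOpen Ω) (hp : p₀ ∈ Ω)
include hΩ hp

lemma Flat.congr (h : Flat Ω p₀ f) (e : EqOn f g Ω) : Flat Ω p₀ g :=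
  fun k => FlP.congr hΩ hp k (h k) e

lemma Flat.add (h : Flat Ω p₀ f) (h' : Flat Ω p₀ g) : Flat Ω p₀ (fun q => f q + g q) :=
  fun k => FlP.add hΩ hp k (h k) (h' k)

lemma Flat.mul (hφ : ContDiffOn ℝ ∞ φ Ω) (h : Flat Ω p₀ f) : Flat Ω p₀ (fun q => φ q * f q) :=
  fun k => FlP.mul hΩ hp k hφ (h k)

lemma Flat.sum {ι : Type} (s : Finset ι) {F : ι → V → ℝ} (h : ∀ i ∈ s, Flat Ω p₀ (F i)) :
    Flat Ω p₀ (fun q => ∑ i ∈ s, F i q) :=
  fun k => FlP.sum hΩ hp k s fun i hi => h i hi k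

lemma Flat.derX (hX : ContDiffOn ℝ ∞ X Ω) (h : Flat Ω p₀ f) : Flat Ω p₀ (dX X f) :=
  fun k => FlP.congr hΩ hp k (FlP.sum hΩ hp k Finset.univ fun i _ =>
    FlP.mul hΩ hp k (FlP.repr_sm (Module.finBasis ℝ V) i hX)
      ((h (k + 1)).2.2 (Module.finBasis ℝ V i)))
    fun q _ => (FlP.expand (Module.finBasis ℝ V) (fderiv ℝ f q) (X q)).symm

lemma Flat.derN {N : V → W →L[ℝ] V} (hN : ContDiffOn ℝ ∞ N Ω) (w : W) (h : Flat Ω p₀ f) :
    Flat Ω p₀ (dN N w f) :=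
  Flat.derX hΩ hp (X := fun p => N p w) (hN.clm_apply contDiffOn_const) h

/-- Taylor: induction on `k` for all `FlatK k f`, mean value inequality on a ball -/
lemma Flat.bound (h : Flat Ω p₀ f) (k : ℕ) :
    ∃ C : ℝ, ∀ᶠ p in 𝓝 p₀, |f p| ≤ C * ‖p - p₀‖ ^ k :=
  FlP.bound hΩ hp k (h k)

/-- flatness can be tested in the frame dual to `dy` -/
lemma flat_of_frame {ι : Type} [Fintype ι] (b : Module.Basis ι ℝ V) {y : V → V}
    (hy : ContDiffOn ℝ ∞ y Ω) (hi : ∀ p ∈ Ω, (fderiv ℝ y p).IsInvertible)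
    (hf : ContDiffOn ℝ ∞ f Ω)
    (h : ∀ is : List ι, itr (fun p => (fderiv ℝ y p).inverse) (is.map b) f p₀ = 0) :
    Flat Ω p₀ f :=
  fun k => FlP.frame hΩ hp b hy hi k hf h

/-- **jet theorem**: `f` is invariant under `G`, which is the linear map `Λ` in the coordinates
`y`; then the derivative of `f` along the linear field `𝔸` ("`log |Λ|`") is flat at the fixed
point. -/
theorem flat_jet {ι : Type} [Fintype ι] (b : Module.Basis ι ℝ V) {y G : V → V}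
    (hy : ContDiffOn ℝ ∞ y Ω) (hi : ∀ p ∈ Ω, (fderiv ℝ y p).IsInvertible)
    (hG : ContDiffOn ℝ ∞ G Ω) (hm : MapsTo G Ω Ω) (h0 : G p₀ = p₀) (Λ : V ≃L[ℝ] V)
    (hΛ : ∀ p ∈ Ω, y (G p) = Λ (y p)) (hf : ContDiffOn ℝ ∞ f Ω) (hfG : ∀ p ∈ Ω, f (G p) = f p)
    (r : ι → ℝ) (𝔸 : V →L[ℝ] V) (hb : ∀ i, Gr Λ (r i) (b i) ∧ 𝔸 (b i) = r i • b i)
    (hA : 𝔸 (y p₀) = 0) :
    Flat Ω p₀ (fun p => fderiv ℝ f p ((fderiv ℝ y p).inverse (𝔸 (y p)))) := by
  have hN := FlP.inv_sm hΩ hy hi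
  have e : ∀ p ∈ Ω, ∀ w, fderiv ℝ G p ((fderiv ℝ y p).inverse w) =
      (fderiv ℝ y (G p)).inverse (Λ w) := fun p hp w => by
    have h1 := (FlP.diff hΩ hy (hm hp)).hasFDerivAt.comp p (FlP.diff hΩ hG hp).hasFDerivAt
    have h2 := ((Λ : V →L[ℝ] V).hasFDerivAt.comp p
      (FlP.diff hΩ hy hp).hasFDerivAt).congr_of_eventuallyEq (f₁ := y ∘ G)
      (eventually_of_mem (hΩ.mem_nhds hp) hΛ)
    have h3 := DFunLike.congr_fun (h1.unique h2) ((fderiv ℝ y p).inverse w)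
    simp only [ContinuousLinearMap.comp_apply, (hi p hp).self_apply_inverse] at h3
    exact ((hi _ (hm hp)).inverse_apply_eq.2 h3.symm).symm
  set I : List V → ℝ := fun ws => itr (fun p => (fderiv ℝ y p).inverse) ws f p₀ with hI
  have i1 : ∀ ws, I ws = I (ws.map Λ) := fun ws => by
    have h1 := itr_nat hΩ hN hΩ hN hG hm Λ e hf ws hp
    rw [h0, itr_congr hΩ ws (g := f) hfG hp] at h1
    exact h1
  have i2 : ∀ ws, I ws = I (ws.map Λ.symm) := fun ws => by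
    rw [i1 (ws.map Λ.symm), List.map_map, Λ.self_comp_symm, List.map_id]
  have i3 : ∀ k : ℕ, ∃ C : ℝ, 0 ≤ C ∧ ∀ ws : List V, ws.length = k → |I ws| ≤ C * nprod ws := by
    intro k
    obtain ⟨C, hC, h1⟩ := itr_bound hΩ hN (𝒞 := {g | ContDiffOn ℝ ∞ g Ω})
      (fun g hg => ⟨hg, fun w => dN_sm hΩ hN hg⟩) (L := pure p₀) (by simpa using hp)
      (wt := fun _ => 1) (fun _ => zero_le_one) (fun g _ => ⟨|g p₀|, by simp⟩) k hf
    exact ⟨C, hC, by simpa using h1⟩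
  refine flat_of_frame hΩ hp b hy hi
    (dX_sm hΩ (hN.clm_apply (𝔸.contDiff.comp_contDiffOn hy)) hf) fun is => ?_
  refine (FlP.itr_comm hΩ b hy hi r 𝔸 (fun i => (hb i).2) hp is hf).trans ?_
  rw [dX, hA, map_zero, map_zero, zero_add]
  rcases lt_trichotomy (is.map r).sum 0 with h | h | h
  · exact mul_eq_zero_of_right _ (FlP.van I (fun j => Λ^[j]) b r is (FlP.iter I Λ i1) (i3 _)
      (fun ε hε i => ((hb i).1 ε hε).imp fun C hC j => (hC j).1) h)
  · rw [h, zero_mul]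
  · refine mul_eq_zero_of_right _ (FlP.van I (fun j => Λ.symm^[j]) b (fun i => -r i) is
      (FlP.iter I Λ.symm i2) (i3 _) (fun ε hε i => ((hb i).1 ε hε).imp fun C hC j => (hC j).2) ?_)
    have := List.sum_neg (is.map r)
    rw [List.map_map] at this
    exact this.symm.trans_lt (neg_neg_of_pos h)

end Crest.Agent.N221.K
end
end

-- ▼ part N221/K/Per0
section

/-! Row 221, block K: step P2, the local fields and flatness of the defect (helper11). -/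

set_option autoImplicit false
set_option linter.unusedSectionVars false
set_option linter.unusedVariables false

open Set Filter Topology
open scoped ContDiff RealInnerProductSpace
open Crest.GeometryTopology.Submanifold

noncomputable section

namespace Crest.Agent.N221.K

variable {n : ℕ} {P R ξ η : Euc n} {G₁ G₂ : Euc n → Euc n} {A A' : Euc n →L[ℝ] Euc n} {t : ℝ}

/-- orbits near an attracting fixed point which is linear in the coordinates `z` -/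
lemma orbit_near {E : Type} [NormedAddCommGroup E] [NormedSpace ℝ E] {H z : E → E} {P : E}
    {M : E →L[ℝ] E} (hM : M.IsInvertible) (hz : HasFDerivAt z M P) (hH : ContinuousAt H P)
    (hP : H P = P) {L : E → E} {U : Set E} (hU : U ∈ 𝓝 P)
    (e : ∀ η ∈ U, z (H η) - z P = L (z η - z P)) {C θ : ℝ} (h0 : 0 ≤ θ) (h1 : θ < 1) :
    ∀ᶠ η in 𝓝 P, (∀ j : ℕ, ‖L^[j] (z η - z P)‖ ≤ C * θ ^ j * ‖z η - z P‖) →
      ∀ j : ℕ, H^[j] η ∈ U ∧ ‖H^[j] η - P‖ ≤ θ ^ j := by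
  obtain ⟨m, rfl⟩ := hM
  obtain ⟨c, hc0, hc⟩ := (hz.isTheta_sub m.toHomeomorph.isInducing).symm.isBigO.exists_pos
  have h2 : U ∩ {η | ‖η - P‖ ≤ c * ‖z η - z P‖} ∈ 𝓝 P := inter_mem hU hc.bound
  have h3 := inter_mem h2 (hH.preimage_mem_nhds
    (t := U ∩ {η | ‖η - P‖ ≤ c * ‖z η - z P‖}) (by rwa [hP]))
  obtain ⟨δ, hδ, hb⟩ := Metric.mem_nhds_iff.1 h3
  have h4 : ∀ᶠ η in 𝓝 P, c * |C| * ‖z η - z P‖ < min δ 1 := by
    have : ContinuousAt (fun η => c * |C| * ‖z η - z P‖) P :=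
      continuousAt_const.mul (hz.continuousAt.sub continuousAt_const).norm
    exact this.eventually_lt continuousAt_const (by simp [hδ])
  filter_upwards [h4, h2] with η h5 h6 h7
  have key : ∀ j : ℕ, H^[j] η ∈ U ∩ {η | ‖η - P‖ ≤ c * ‖z η - z P‖} →
      z (H^[j] η) - z P = L^[j] (z η - z P) → ‖H^[j] η - P‖ ≤ θ ^ j * (c * |C| * ‖z η - z P‖) := by
    intro j h8 h9
    have h10 : ‖H^[j] η - P‖ ≤ c * ‖z (H^[j] η) - z P‖ := h8.2
    rw [h9] at h10
    have h11 : C * θ ^ j * ‖z η - z P‖ ≤ |C| * θ ^ j * ‖z η - z P‖ := by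
      gcongr; exact le_abs_self C
    calc _ ≤ c * (|C| * θ ^ j * ‖z η - z P‖) :=
          h10.trans (mul_le_mul_of_nonneg_left ((h7 j).trans h11) hc0.le)
      _ = _ := by ring
  have hp : ∀ j : ℕ, θ ^ j ≤ 1 := fun j => pow_le_one₀ h0 h1.le
  have hn : 0 ≤ c * |C| * ‖z η - z P‖ := by positivity
  have ind : ∀ j : ℕ, H^[j] η ∈ U ∩ {η | ‖η - P‖ ≤ c * ‖z η - z P‖} ∧
      z (H^[j] η) - z P = L^[j] (z η - z P) := by
    intro j
    induction j with
    | zero => exact ⟨h6, rfl⟩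
    | succ j ih =>
      have h8 : H^[j] η ∈ Metric.ball P δ := by
        rw [mem_ball_iff_norm]
        exact ((key j ih.1 ih.2).trans (mul_le_of_le_one_left hn (hp j))).trans_lt
          (h5.trans_le (min_le_left _ _))
      rw [Function.iterate_succ_apply', Function.iterate_succ_apply']
      exact ⟨(hb h8).2, by rw [e _ ih.1.1, ih.2]⟩
  refine fun j => ⟨(ind j).1.1, (key j (ind j).1 (ind j).2).trans ?_⟩
  exact mul_le_of_le_one_right (pow_nonneg h0 j) (h5.le.trans (min_le_right _ _))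

lemma prj_add_smul (hP : P ≠ 0) (e : Euc n) (c : ℝ) : prj P (e + c • P) = prj P e := by
  have : ‖P‖ ^ 2 ≠ 0 := by positivity
  simp only [prj, inner_add_left, real_inner_smul_left, real_inner_self_eq_norm_sq, add_div,
    mul_div_assoc, div_self this, mul_one, add_smul]
  abel

lemma prj_iter (hP : P ≠ 0) {T : Euc n →L[ℝ] Euc n} (hT : T P = P) {θ : ℝ} (h0 : 0 ≤ θ)
    (h : ∀ u, ⟪u, P⟫ = 0 → ∃ r : ℝ, ‖T u - r • P‖ ≤ θ * ‖u‖) (v : Euc n) (j : ℕ) :
    ‖prj P ((⇑T)^[j] v)‖ ≤ θ ^ j * ‖v‖ := by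
  induction j with
  | zero => simpa using norm_prj_le P v
  | succ j ih =>
    rw [Function.iterate_succ_apply']
    set x := (⇑T)^[j] v
    obtain ⟨r, hr⟩ := h (prj P x) (prj_mem hP x)
    have e : T x = (T (prj P x) - r • P) + (r + ⟪x, P⟫ / ‖P‖ ^ 2) • P := by
      simp only [prj, map_sub, map_smul, hT, add_smul]; abel
    rw [e, prj_add_smul hP]
    calc _ ≤ θ * (θ ^ j * ‖v‖) :=
          (norm_prj_le _ _).trans (hr.trans (mul_le_mul_of_nonneg_left ih h0))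
      _ = _ := by ring

/-- the domain of the local pair -/
def Om0 (P R : Euc n) : Set (PE n) := {p | p ∈ GO n ∧ p.1 ∈ sl P ∧ p.2 ∈ sl R}

lemma isOpen_Om0 (P R : Euc n) : IsOpen (Om0 P R) :=
  Cov.isOpen_GO.inter (((isOpen_sl P).preimage continuous_fst).inter
    ((isOpen_sl R).preimage continuous_snd))

namespace Cone

variable (B : Cone n)

/-- the linear field `A` in the coordinates `zz F (·, P)` -/
def fld (P : Euc n) (A : Euc n →L[ℝ] Euc n) (ξ : Euc n) : Euc n := B.Mi (ξ, P) (A (zz B.F (ξ, P)))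

lemma zsl_sm (P : Euc n) : ContDiffOn ℝ ∞ (fun ξ => zz B.F (ξ, P)) (sl P) :=
  (zz_sm Cov.isOpen_GO B.sm).comp (contDiff_prodMk_left P).contDiffOn fun _ h => h

lemma fld_sm (P : Euc n) (A : Euc n →L[ℝ] Euc n) : ContDiffOn ℝ ∞ (B.fld P A) (sl P) :=
  (B.Ns_sm P).clm_apply (A.contDiff.comp_contDiffOn (B.zsl_sm P))

lemma fld_smul (ht : 0 < t) (h : ξ ∈ sl P) : B.fld P A (t • ξ) = t • B.fld P A ξ := by
  have h1 := B.Mi_smul ht one_pos h
  have h2 := B.zz_smul ht one_pos h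
  rw [one_smul] at h1 h2
  simp only [fld, h1, h2, map_smul]

lemma fld_euler (h : ξ ∈ sl P) : fderiv ℝ (B.fld P A) ξ ξ = B.fld P A ξ := by
  have hd : DifferentiableAt ℝ (B.fld P A) ((1 : ℝ) • ξ) := by
    rw [one_smul]
    exact ((B.fld_sm P A).contDiffAt ((isOpen_sl P).mem_nhds h)).differentiableAt (by simp)
  have h1 := hd.hasFDerivAt.comp_hasDerivAt (1 : ℝ) ((hasDerivAt_id (1 : ℝ)).smul_const ξ)
  have h2 := (hasDerivAt_id (1 : ℝ)).smul_const (B.fld P A ξ)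
  have h3 : (B.fld P A ∘ fun y : ℝ => id y • ξ) =ᶠ[𝓝 1] fun y : ℝ => id y • B.fld P A ξ := by
    filter_upwards [lt_mem_nhds (zero_lt_one' ℝ)] with y hy using B.fld_smul hy h
  simpa using (h1.congr_of_eventuallyEq h3.symm).unique h2

lemma fderiv_fld (h : ξ ∈ sl P) (h0 : A (zz B.F (ξ, P)) = 0) :
    fderiv ℝ (B.fld P A) ξ = B.Mi (ξ, P) ∘L A ∘L MM B.F (ξ, P) := by
  have h1 := ((B.Ns_sm P).contDiffAt ((isOpen_sl P).mem_nhds h)).differentiableAt (by simp)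
  have h2 := A.hasFDerivAt.comp ξ (B.hasFDerivAt_zz h)
  have h3 := h1.hasFDerivAt.clm_apply h2
  refine (HasFDerivAt.fderiv h3).trans ?_
  ext1 v
  simp [h0, Ns]

/-- the action of a pair fixing `P` is linear in the coordinates `zz F (·, P)` -/
lemma lin (hG : Iso B.F G₁ G₂) (h0 : P ≠ 0) (hP : G₂ P = P) : ∃ L : Euc n ≃L[ℝ] Euc n,
    (∀ w, L w = (adj G₂ P).inverse w) ∧ (∀ ξ ∈ sl P, zz B.F (G₁ ξ, P) = L (zz B.F (ξ, P))) ∧
    ∀ ξ ∈ sl P, ∀ w, fderiv ℝ G₁ ξ (B.Mi (ξ, P) w) = B.Mi (G₁ ξ, P) (L w) := by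
  obtain ⟨e, he⟩ := hG.adj_inv h0
  have h1 : ∀ w, e.symm w = (adj G₂ P).inverse w := fun w => by rw [← he]; simp
  refine ⟨e.symm, h1, fun ξ h => ?_, fun ξ h w => ?_⟩
  · have := hG.zz_nat h
    rw [hP, ← he] at this
    rw [← this]; simp
  · rw [h1, hG.Mi_nat h, hP]

lemma fld_nat {L : Euc n ≃L[ℝ] Euc n} (h1 : ∀ ξ ∈ sl P, zz B.F (G₁ ξ, P) = L (zz B.F (ξ, P)))
    (h2 : ∀ ξ ∈ sl P, ∀ w, fderiv ℝ G₁ ξ (B.Mi (ξ, P) w) = B.Mi (G₁ ξ, P) (L w))
    (hA : ∀ v, A (L v) = L (A v)) (h : ξ ∈ sl P) :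
    B.fld P A (G₁ ξ) = fderiv ℝ G₁ ξ (B.fld P A ξ) := by
  rw [fld, fld, h1 ξ h, hA, h2 ξ h]

/-- the jet of `dF (Y, Y')` vanishes at the fixed pair -/
lemma flat_del (hG : Iso B.F G₁ G₂) (h : (R, P) ∈ GO n) (hR : G₁ R = R) (hP : G₂ P = P)
    {L L' : Euc n ≃L[ℝ] Euc n} (h1 : ∀ ξ ∈ sl P, zz B.F (G₁ ξ, P) = L (zz B.F (ξ, P)))
    (h2 : ∀ η ∈ sl R, zz B.F (G₂ η, R) = L' (zz B.F (η, R))) {ι ι' : Type} [Fintype ι]
    [Fintype ι'] {b : Module.Basis ι ℝ (Euc n)} {b' : Module.Basis ι' ℝ (Euc n)} {r : ι → ℝ}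
    {r' : ι' → ℝ} (hb : ∀ i, Gr L (r i) (b i) ∧ A (b i) = r i • b i)
    (hb' : ∀ i, Gr L' (r' i) (b' i) ∧ A' (b' i) = r' i • b' i)
    (hA : A (zz B.F (R, P)) = 0) (hA' : A' (zz B.F (P, R)) = 0) :
    Flat (Om0 P R) (R, P) (B.del (B.fld P A) (B.fld R A')) := by
  have hp : (R, P) ∈ Om0 P R := ⟨h, h, Cov.GO_symm h⟩
  let y : PE n → PE n := Prod.map (fun ξ => zz B.F (ξ, P)) fun η => zz B.F (η, R)
  have hd : ∀ p ∈ Om0 P R, fderiv ℝ y p = (MM B.F (p.1, P)).prodMap (MM B.F (p.2, R)) :=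
    fun p hp => (HasFDerivAt.prodMap p (B.hasFDerivAt_zz hp.2.1) (B.hasFDerivAt_zz hp.2.2)).fderiv
  have hi : ∀ p ∈ Om0 P R, (fderiv ℝ y p).IsInvertible := fun p hp => by
    obtain ⟨m₁, e₁⟩ := B.MM_inv (p := (p.1, P)) hp.2.1
    obtain ⟨m₂, e₂⟩ := B.MM_inv (p := (p.2, R)) hp.2.2
    rw [hd p hp, ← e₁, ← e₂]
    exact ⟨m₁.prodCongr m₂, rfl⟩
  have hy : ContDiffOn ℝ ∞ y (Om0 P R) :=
    ((B.zsl_sm P).comp contDiffOn_fst fun _ h => h.2.1).prodMk
      ((B.zsl_sm R).comp contDiffOn_snd fun _ h => h.2.2)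
  have hGs : ContDiffOn ℝ ∞ (Prod.map G₁ G₂) (Om0 P R) :=
    (hG.sm₁.comp contDiffOn_fst fun _ h => h.1.1).prodMk
      (hG.sm₂.comp contDiffOn_snd fun _ h => h.1.2.1)
  have hm : MapsTo (Prod.map G₁ G₂) (Om0 P R) (Om0 P R) := fun p hp =>
    ⟨hG.maps _ _ hp.1, hP ▸ hG.maps_sl P hp.2.1, hR ▸ hG.swap.maps_sl R hp.2.2⟩
  have key := flat_jet (isOpen_Om0 P R) hp (b.prod b') hy hi hGs hm (by simp [hR, hP])
    (L.prodCongr L') (fun p hp => Prod.ext (h1 _ hp.2.1) (h2 _ hp.2.2))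
    (B.sm.mono fun _ h => h.1) (fun p hp => hG.inv _ _ hp.1) (Sum.elim r r') (A.prodMap A')
    (by
      rintro (i | i)
      · have e : (b.prod b') (Sum.inl i) = (b i, 0) := by simp [Module.Basis.prod_apply]
        rw [e]
        exact ⟨(hb i).1.inl L', by simp [(hb i).2]⟩
      · have e : (b.prod b') (Sum.inr i) = (0, b' i) := by simp [Module.Basis.prod_apply]
        rw [e]
        exact ⟨Gr.inr L (hb' i).1, by simp [(hb' i).2]⟩)
    (by simp [y, hA, hA'])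
  refine key.congr (isOpen_Om0 P R) hp fun p hp => ?_
  have : (fderiv ℝ y p).inverse ((A.prodMap A') (y p)) = (B.fld P A p.1, B.fld R A' p.2) := by
    rw [(hi p hp).inverse_apply_eq, hd p hp]
    exact Prod.ext (B.MM_Mi (p := (p.1, P)) hp.2.1 _).symm (B.MM_Mi (p := (p.2, R)) hp.2.2 _).symm
  simp only [this, del]

lemma ext_eq {Y Y' : Euc n → Euc n} (hY : ContDiffOn ℝ ∞ Y (sl P)) (hY' : ContDiffOn ℝ ∞ Y' (sl R))
    {p : PE n} (hp : p ∈ Om0 P R) : B.ext Y' p = Y p.1 - B.Mi p (zz (B.del Y Y') p) := by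
  rw [B.zz_del (isOpen_sl R) (sl_sub R) hY' ⟨hp.1, hp.2.2⟩
    ((hY.contDiffAt ((isOpen_sl P).mem_nhds hp.2.1)).differentiableAt (by simp)), B.Mi_MM hp.1]
  abel

lemma flat_DD {Y Y' : Euc n → Euc n} (h : (R, P) ∈ GO n) (hY : ContDiffOn ℝ ∞ Y (sl P))
    (hY' : ContDiffOn ℝ ∞ Y' (sl R)) (hf : Flat (Om0 P R) (R, P) (B.del Y Y')) (u u' : Euc n) :
    Flat (Om0 P R) (R, P) (B.DD Y' u u') := by
  have hp : (R, P) ∈ Om0 P R := ⟨h, h, Cov.GO_symm h⟩
  have ho := isOpen_Om0 P R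
  have hMi : ContDiffOn ℝ ∞ B.Mi (Om0 P R) := B.Mi_sm.mono fun _ h => h.1
  have hMM : ContDiffOn ℝ ∞ (MM B.F) (Om0 P R) := (MM_sm Cov.isOpen_GO B.sm).mono fun _ h => h.1
  let V : PE n → Euc n := fun q => B.Mi q (zz (B.del Y Y') q)
  have hV : ContDiffOn ℝ ∞ V (Om0 P R) := hMi.clm_apply (zz_sm ho hf.sm)
  have h1 : ∀ i, Flat (Om0 P R) (R, P) fun q => V q i := fun i => by
    refine (Flat.sum ho hp Finset.univ fun j _ => Flat.mul ho hp
      (φ := fun q => B.Mi q (ee j) i) ?_ (hf.derX ho hp (X := fun _ => (0, ee j))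
        contDiffOn_const)).congr ho hp fun q hq => ?_
    · exact (EuclideanSpace.proj (𝕜 := ℝ) i).contDiff.comp_contDiffOn
        (hMi.clm_apply contDiffOn_const)
    · have e : zz (B.del Y Y') q = ∑ j, zz (B.del Y Y') q j • ee j := by
        simpa using ((EuclideanSpace.basisFun (Fin n) ℝ).sum_repr _).symm
      show _ = B.Mi q (zz (B.del Y Y') q) i
      rw [e, map_sum]
      simp [zz_apply, d2, dX, mul_comm]
  refine (Flat.sum ho hp Finset.univ fun i _ => Flat.mul ho hp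
    (φ := fun q => -⟪MM B.F q (ee i), u'⟫) ?_ ((h1 i).derX ho hp (X := fun _ => (0, u))
      contDiffOn_const)).congr ho hp fun q hq => ?_
  · exact ((hMM.clm_apply contDiffOn_const).inner ℝ contDiffOn_const).neg
  · have hVd := (hV.contDiffAt (ho.mem_nhds hq)).differentiableAt (by simp)
    have hYd := (hY.contDiffAt ((isOpen_sl P).mem_nhds hq.2.1)).differentiableAt (by simp)
    have e1 : B.ext Y' =ᶠ[𝓝 q] fun p => Y p.1 - V p := by
      filter_upwards [ho.mem_nhds hq] with p hp using B.ext_eq hY hY' hp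
    have e2 : fderiv ℝ (B.ext Y') q (0, u) = -fderiv ℝ V q (0, u) := by
      rw [e1.fderiv_eq, show fderiv ℝ (fun p : PE n => Y p.1 - V p) q = _ from
        ((hYd.hasFDerivAt.comp q hasFDerivAt_fst).sub hVd.hasFDerivAt).fderiv]
      simp
    have e3 : ∀ i, dX (fun _ => ((0 : Euc n), u)) (fun q => V q i) q = fderiv ℝ V q (0, u) i :=
      fun i => by
        have := ((EuclideanSpace.proj (𝕜 := ℝ) i).hasFDerivAt.comp q hVd.hasFDerivAt).fderiv
        exact congrArg (fun T : PE n →L[ℝ] ℝ => T (0, u)) this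
    have e4 : fderiv ℝ V q (0, u) = ∑ j, fderiv ℝ V q (0, u) j • ee j := by
      simpa using ((EuclideanSpace.basisFun (Fin n) ℝ).sum_repr _).symm
    show ∑ i, _ = ⟪MM B.F q (fderiv ℝ (B.ext Y') q (0, u)), u'⟫
    rw [e2, map_neg, inner_neg_left, e4, map_sum, sum_inner, ← Finset.sum_neg_distrib]
    refine Finset.sum_congr rfl fun i _ => ?_
    rw [e3, map_smul, real_inner_smul_left]
    ring

end Cone

end Crest.Agent.N221.K
end
end

-- ▼ part N221/K/Per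
section

/-! Row 221, block K: step P2, Killing pairs at periodic pairs (helper11). -/

set_option autoImplicit false
set_option linter.unusedSectionVars false
set_option linter.unusedVariables false

open Set Filter Topology
open scoped ContDiff RealInnerProductSpace
open Crest.GeometryTopology.Submanifold

noncomputable section

namespace Crest.Agent.N221.K

variable {n : ℕ} {P R ξ η : Euc n} {G₁ G₂ Y' : Euc n → Euc n} {k : ℕ} {c K θ : ℝ}

namespace Cone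

variable (B : Cone n)

/-- bound for the jets of the defect at `(R, η)` -/
def Bd (Y' : Euc n → Euc n) (R : Euc n) (k : ℕ) (η : Euc n) (c : ℝ) : Prop :=
  ∀ ws : List (Euc n), ws.length = k → ∀ u u',
    |itr (B.Ns η) ws (fun ξ => B.DD Y' u u' (ξ, η)) R| ≤ c * nprod ws * (‖u‖ * ‖u'‖)

lemma DD_sl (hY : ContDiffOn ℝ ∞ Y' (sl R)) (hη : η ∈ sl R) (u u' : Euc n) :
    ContDiffOn ℝ ∞ (fun ξ => B.DD Y' u u' (ξ, η)) (sl η) :=
  (slice_sm (B.DD_sm (isOpen_sl R) (sl_sub R) hY u u') η).mono fun _ h => ⟨h, hη⟩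

lemma bd_step (hG : Iso B.F G₁ G₂) (hR : G₁ R = R) (hY : ContDiffOn ℝ ∞ Y' (sl R))
    (e : ∀ η ∈ sl R, Y' (G₂ η) = fderiv ℝ G₂ η (Y' η)) (hη : η ∈ sl R) (hc : 0 ≤ c)
    (h1 : ‖fderiv ℝ G₂ η‖ ≤ K) (h2 : ‖(adj G₂ η).inverse‖ ≤ K) (h : B.Bd Y' R k (G₂ η) c) :
    B.Bd Y' R k η (c * K ^ (k + 2)) := by
  intro ws hk u u'
  have hK : 0 ≤ K := (norm_nonneg _).trans h1
  have hm : MapsTo G₂ (sl R) (sl R) := by
    have := hG.swap.maps_sl R
    rwa [hR] at this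
  have hp : (R, η) ∈ GO n := Cov.GO_symm hη
  have e1 : EqOn (fun ξ => B.DD Y' u u' (ξ, η)) (fun ξ => (fun ξ' =>
      B.DD Y' (fderiv ℝ G₂ η u) (fderiv ℝ G₂ η u') (ξ', G₂ η)) (G₁ ξ)) (sl η) := fun ξ hξ =>
    (B.DD_nat (isOpen_sl R) (sl_sub R) hY hG hm e ⟨hξ, hη⟩ u u').symm
  rw [itr_congr (isOpen_sl η) ws e1 hp, hG.itr_nat hp (B.DD_sl hY (hm hη) _ _), hR]
  refine (h _ (by simpa using hk) _ _).trans ?_
  have h3 := nprod_map_le ws (adj G₂ η).inverse hK fun w _ =>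
    ((adj G₂ η).inverse.le_opNorm w).trans (mul_le_mul_of_nonneg_right h2 (norm_nonneg _))
  have h4 : ∀ u, ‖fderiv ℝ G₂ η u‖ ≤ K * ‖u‖ := fun u =>
    ((fderiv ℝ G₂ η).le_opNorm u).trans (mul_le_mul_of_nonneg_right h1 (norm_nonneg _))
  have h5 := nprod_nonneg ws
  rw [hk] at h3
  calc _ ≤ c * (K ^ k * nprod ws) * (K * ‖u‖ * (K * ‖u'‖)) := by
        gcongr
        · exact h4 u
        · exact h4 u'
    _ = _ := by ring

lemma bd_flat (h : (R, P) ∈ GO n) (hf : ∀ u u', Flat (Om0 P R) (R, P) (B.DD Y' u u')) (k m : ℕ) :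
    ∃ C : ℝ, 0 ≤ C ∧ ∀ᶠ η in 𝓝 P, B.Bd Y' R k η (C * ‖η - P‖ ^ m) := by
  have hp : (R, P) ∈ Om0 P R := ⟨h, h, Cov.GO_symm h⟩
  have ho := isOpen_Om0 P R
  have hN : ContDiffOn ℝ ∞ B.Nj (Om0 P R) := B.Nj_sm.mono fun _ h => h.1
  have key : ∀ ij : Fin n × Fin n, ∃ C : ℝ, 0 ≤ C ∧ ∀ᶠ p in 𝓝 (R, P), ∀ ws : List (Euc n),
      ws.length = k → |itr B.Nj ws (B.DD Y' (ee ij.1) (ee ij.2)) p| ≤
        C * ‖p - (R, P)‖ ^ m * nprod ws := fun ij =>
    itr_bound ho hN (𝒞 := {f | Flat (Om0 P R) (R, P) f})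
      (fun f hf => ⟨Flat.sm hf, fun w => Flat.derN ho hp hN w hf⟩)
      (le_principal_iff.2 (ho.mem_nhds hp)) (wt := fun p => ‖p - (R, P)‖ ^ m)
      (fun p => by positivity) (fun f hf => Flat.bound ho hp hf m) k (hf _ _)
  choose C h0 hC using key
  refine ⟨∑ ij, C ij, Finset.sum_nonneg fun ij _ => h0 ij, ?_⟩
  have ht : Tendsto (fun η : Euc n => (R, η)) (𝓝 P) (𝓝 (R, P)) :=
    (Continuous.prodMk_right R).continuousAt
  filter_upwards [ht.eventually (eventually_all.2 hC), ht.eventually (ho.mem_nhds hp)]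
    with η h1 h2 ws hk u u'
  have e1 : B.DD Y' u u' = fun q => ∑ ij : Fin n × Fin n,
      u ij.1 * u' ij.2 * B.DD Y' (ee ij.1) (ee ij.2) q := funext fun q => B.DD_sum Y' u u' q
  have e2 : ‖(R, η) - (R, P)‖ = ‖η - P‖ := by simp
  rw [B.itr_slice ho (fun _ h => h.1) (hf u u').sm h2, e1,
    itr_sum ho hN Finset.univ ws _ (fun ij _ => (hf _ _).sm) h2]
  refine (Finset.abs_sum_le_sum_abs _ _).trans ?_
  rw [Finset.sum_mul, Finset.sum_mul, Finset.sum_mul]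
  refine Finset.sum_le_sum fun ij _ => ?_
  have h3 := h1 ij ws hk
  rw [e2] at h3
  rw [abs_mul, abs_mul, mul_comm]
  have h4 : ∀ (v : Euc n) i, |v i| ≤ ‖v‖ := fun v i => by
    simpa using PiLp.norm_apply_le v i
  have h5 := nprod_nonneg ws
  have h6 := h0 ij
  gcongr
  · exact h4 _ _
  · exact h4 _ _

/-- the jets of the defect vanish along orbits converging to `P` -/
lemma jets_zero (hG : Iso B.F G₁ G₂) (h : (R, P) ∈ GO n) (hR : G₁ R = R)
    (hY : ContDiffOn ℝ ∞ Y' (sl R)) (e : ∀ η ∈ sl R, Y' (G₂ η) = fderiv ℝ G₂ η (Y' η))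
    (hf : ∀ u u', Flat (Om0 P R) (R, P) (B.DD Y' u u')) (h0 : 0 ≤ θ) (h1 : θ < 1)
    (ho : ∀ j : ℕ, (G₂^[j] η ∈ sl R ∧ ‖fderiv ℝ G₂ (G₂^[j] η)‖ ≤ K ∧
      ‖(adj G₂ (G₂^[j] η)).inverse‖ ≤ K) ∧ ‖G₂^[j] η - P‖ ≤ θ ^ j)
    (ws : List (Euc n)) (u u' : Euc n) :
    itr (B.Ns η) ws (fun ξ => B.DD Y' u u' (ξ, η)) R = 0 := by
  set k := ws.length
  have hK : 0 ≤ K := (norm_nonneg _).trans (ho 0).1.2.1
  have hθ := tendsto_pow_atTop_nhds_zero_of_lt_one h0 h1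
  obtain ⟨m, hm⟩ := ((hθ.mul_const (K ^ (k + 2))).eventually
    (gt_mem_nhds (by simp : 0 * K ^ (k + 2) < 1))).exists
  obtain ⟨C, hC0, hC⟩ := B.bd_flat h hf k m
  have ht : Tendsto (fun j : ℕ => G₂^[j] η) atTop (𝓝 P) :=
    tendsto_iff_norm_sub_tendsto_zero.2 (squeeze_zero (fun _ => norm_nonneg _) (fun j => (ho j).2) hθ)
  have back : ∀ (j i : ℕ) (c : ℝ), 0 ≤ c → B.Bd Y' R k (G₂^[j + i] η) c →
      B.Bd Y' R k (G₂^[i] η) (c * (K ^ (k + 2)) ^ j) := by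
    intro j
    induction j with
    | zero => intro i c _ hb; simpa using hb
    | succ j ih =>
      intro i c hc hb
      rw [show j + 1 + i = j + (i + 1) by ring] at hb
      have h2 := ih (i + 1) c hc hb
      rw [Function.iterate_succ_apply'] at h2
      have h3 := B.bd_step hG hR hY e (ho i).1.1 (by positivity) (ho i).1.2.1 (ho i).1.2.2 h2
      rwa [mul_assoc, ← pow_succ] at h3
  have lim := ((tendsto_pow_atTop_nhds_zero_of_lt_one (by positivity) hm).const_mul C).mul_const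
    (nprod ws * (‖u‖ * ‖u'‖))
  rw [mul_zero, zero_mul] at lim
  refine abs_nonpos_iff.1 (ge_of_tendsto lim ?_)
  filter_upwards [ht.eventually hC] with j hj
  have h2 := back j 0 _ (by positivity) hj ws rfl u u'
  refine h2.trans ?_
  have h3 := nprod_nonneg ws
  have h4 : ‖G₂^[j] η - P‖ ^ m ≤ (θ ^ m) ^ j := by
    rw [← pow_mul, mul_comm, pow_mul]
    exact pow_le_pow_left₀ (norm_nonneg _) (ho j).2 m
  calc _ ≤ C * (θ ^ m) ^ j * (K ^ (k + 2)) ^ j * nprod ws * (‖u‖ * ‖u'‖) := by gcongr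
    _ = _ := by rw [mul_pow]; ring

/-- contraction modulo the fixed vector in the coordinates `zz F (·, R)` -/
lemma contr (hG : Iso B.F G₁ G₂) (h : (P, R) ∈ GO n) (hP : G₂ P = P) (h0 : 0 ≤ θ)
    (hc : ∀ u, ⟪u, P⟫ = 0 → ∃ r : ℝ, ‖fderiv ℝ G₂ P u - r • P‖ ≤ θ * ‖u‖)
    {L : Euc n ≃L[ℝ] Euc n}
    (hL : ∀ w, fderiv ℝ G₂ P (B.Mi (P, R) w) = B.Mi (P, R) (L w)) (j : ℕ) (v : Euc n) :
    ∃ s : ℝ, ‖(⇑L)^[j] v - s • zz B.F (P, R)‖ ≤
      ‖MM B.F (P, R)‖ * ‖B.Mi (P, R)‖ * θ ^ j * ‖v‖ := by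
  have h1 : B.Mi (P, R) ((⇑L)^[j] v) = (⇑(fderiv ℝ G₂ P))^[j] (B.Mi (P, R) v) := by
    induction j with
    | zero => rfl
    | succ j ih => rw [Function.iterate_succ_apply', Function.iterate_succ_apply', ← hL, ih]
  have h2 := prj_iter h.1 ((hG.euler₂ h.1).trans hP) h0 hc (B.Mi (P, R) v) j
  rw [← h1] at h2
  refine ⟨⟪B.Mi (P, R) ((⇑L)^[j] v), P⟫ / ‖P‖ ^ 2, ?_⟩
  have h3 := (MM B.F (P, R)).le_opNorm (prj P (B.Mi (P, R) ((⇑L)^[j] v)))
  rw [prj, map_sub, map_smul, B.MM_Mi h, B.MM_self h] at h3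
  have h4 := (B.Mi (P, R)).le_opNorm v
  calc _ ≤ ‖MM B.F (P, R)‖ * (θ ^ j * (‖B.Mi (P, R)‖ * ‖v‖)) :=
        h3.trans (mul_le_mul_of_nonneg_left (h2.trans (by gcongr)) (norm_nonneg _))
    _ = _ := by ring

lemma decay {L : Euc n → Euc n} {y : Euc n} {C : ℝ} (hy : 0 < ⟪y, R⟫)
    (hL : ∀ w ∈ perp R, L w ∈ perp R)
    (h : ∀ (j : ℕ) v, ∃ s : ℝ, ‖L^[j] v - s • y‖ ≤ C * θ ^ j * ‖v‖) {w : Euc n} (hw : w ∈ perp R)
    (j : ℕ) : ‖L^[j] w‖ ≤ C * (1 + ‖R‖ * ‖y‖ / ⟪y, R⟫) * θ ^ j * ‖w‖ := by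
  obtain ⟨s, hs⟩ := h j w
  have h1 : ⟪L^[j] w, R⟫ = 0 := (MapsTo.iterate hL j) hw
  have h2 := abs_real_inner_le_norm (L^[j] w - s • y) R
  rw [inner_sub_left, h1, real_inner_smul_left, zero_sub, abs_neg, abs_mul, abs_of_pos hy] at h2
  have h3 : |s| ≤ C * θ ^ j * ‖w‖ * ‖R‖ / ⟪y, R⟫ :=
    (le_div_iff₀ hy).2 (h2.trans (mul_le_mul_of_nonneg_right hs (norm_nonneg _)))
  calc ‖L^[j] w‖ = ‖(L^[j] w - s • y) + s • y‖ := by simp
    _ ≤ C * θ ^ j * ‖w‖ + C * θ ^ j * ‖w‖ * ‖R‖ / ⟪y, R⟫ * ‖y‖ := by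
        refine (norm_add_le _ _).trans (add_le_add hs ?_)
        rw [norm_smul]
        exact mul_le_mul_of_nonneg_right h3 (norm_nonneg _)
    _ = _ := by ring

theorem perS (hQ : B.PolQ) : B.PerS := by
  rintro P R ⟨h, G₁, G₂, θ, hG, hR, hP, h0, h1, hc⟩
  have h' : (P, R) ∈ GO n := Cov.GO_symm h
  obtain ⟨L, -, hL2, hL3⟩ := B.lin (P := P) hG h'.1 hP
  obtain ⟨L', hL1', hL2', hL3'⟩ := B.lin (P := R) hG.swap h.1 hR
  obtain ⟨A, b, r, hb, -, hA2, -⟩ := exists_log L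
  obtain ⟨A', b', r', hb', hA1', hA2', hA3'⟩ := exists_log L'
  have f1 : L (zz B.F (R, P)) = zz B.F (R, P) := by rw [← hL2 R h, hR]
  have f2 : L' (zz B.F (P, R)) = zz B.F (P, R) := by rw [← hL2' P h', hP]
  have hcon := B.contr hG h' hP h0 hc (L := L') fun w => by rw [hL3' P h', hP]
  obtain ⟨hsp, htr⟩ := hA3' _ _ θ f2 h0 h1 hcon
  have hY := B.fld_sm P A
  have hY' := B.fld_sm R A'
  have hfl := B.flat_del hG h hR hP hL2 hL2' hb hb' (hA2 _ f1) (hA2' _ f2)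
  have hDD := B.flat_DD h hY hY' hfl
  have hinv : ∀ η ∈ sl R, B.fld R A' (G₂ η) = fderiv ℝ G₂ η (B.fld R A' η) := fun η hη =>
    B.fld_nat hL2' hL3' hA1' hη
  have hR0 : sl R ∈ 𝓝 P := (isOpen_sl R).mem_nhds h'
  have hP0 : ({0}ᶜ : Set (Euc n)) ∈ 𝓝 P := isOpen_compl_singleton.mem_nhds h'.1
  -- a neighbourhood with bounded differentials
  obtain ⟨K, hK⟩ : ∃ K : ℝ, ∀ᶠ η in 𝓝 P, η ∈ sl R ∧ ‖fderiv ℝ G₂ η‖ ≤ K ∧
      ‖(adj G₂ η).inverse‖ ≤ K := by
    have c1 : ContinuousAt (fun η => ‖fderiv ℝ G₂ η‖) P :=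
      ((hG.sm₂.contDiffAt hP0).fderiv_right (m := 0) (by simp)).continuousAt.norm
    have c2 : ContinuousAt (fun η => ‖(adj G₂ η).inverse‖) P :=
      (hG.adj_sm.contDiffAt hP0).continuousAt.norm
    refine ⟨‖fderiv ℝ G₂ P‖ + ‖(adj G₂ P).inverse‖ + 1, ?_⟩
    filter_upwards [hR0, c1.eventually (gt_mem_nhds (lt_add_one _)),
      c2.eventually (gt_mem_nhds (lt_add_one _))] with η a1 a2 a3
    exact ⟨a1, by linarith [norm_nonneg (adj G₂ P).inverse], by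
      linarith [norm_nonneg (fderiv ℝ G₂ P)]⟩
  have hyR : ∀ η ∈ sl R, ⟪zz B.F (η, R), R⟫ = B.F (η, R) := fun η hη => by
    rw [inner_zz, B.euler₂ hη]
  have horb := orbit_near (H := G₂) (z := fun η => zz B.F (η, R)) (B.MM_inv h')
    (B.hasFDerivAt_zz h') (hG.sm₂.contDiffAt hP0).continuousAt hP (L := L') hK
    (fun η hη => by rw [hL2' η hη.1, map_sub, f2])
    (C := ‖MM B.F (P, R)‖ * ‖B.Mi (P, R)‖ *
      (1 + ‖R‖ * ‖zz B.F (P, R)‖ / ⟪zz B.F (P, R), R⟫)) h0 h1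
  obtain ⟨k, hk⟩ := B.DD_pol (isOpen_sl R) (sl_sub R) hY' hQ
  have hz1 : ∀ᶠ η in 𝓝 P, B.F (η, R) = B.F (P, R) →
      ∀ u u', ∀ ξ ∈ sl η, B.DD (B.fld R A') u u' (ξ, η) = 0 := by
    filter_upwards [horb, hR0] with η a1 a2 a3 u u'
    have a4 : zz B.F (η, R) - zz B.F (P, R) ∈ perp R := by
      show ⟪_, R⟫ = 0
      rw [inner_sub_left, hyR η a2, hyR P h', a3, sub_self]
    have a5 := a1 fun j => decay ((hyR P h').symm ▸ B.pos _ h') (fun w hw => by
      have := hG.swap.adj_perp h.1 hw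
      rwa [hR, ← hL1'] at this) hcon a4 j
    exact B.ident_jet ((hk u u').2 η a2).2 ((hk u u').2 η a2).1 (ξ₀ := R) (Cov.GO_symm a2)
      fun ws _ => B.jets_zero hG h hR hY' hinv hDD h0 h1 a5 ws u u'
  have hz2 : ∀ᶠ η in 𝓝 P, η ∈ sl R ∧
      ∀ u u', ∀ ξ ∈ sl η, B.DD (B.fld R A') u u' (ξ, η) = 0 := by
    have c1 : ContinuousAt (fun η => B.F (η, R)) P :=
      ((slice_sm B.sm R).contDiffAt hR0).continuousAt
    have c2 : Tendsto (fun η => (B.F (P, R) / B.F (η, R)) • η) (𝓝 P) (𝓝 P) := by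
      have : ContinuousAt (fun η => (B.F (P, R) / B.F (η, R)) • η) P :=
        ((continuousAt_const (y := B.F (P, R))).div c1 (B.pos _ h').ne').smul continuousAt_id
      simpa [ContinuousAt, div_self (B.pos _ h').ne'] using this
    filter_upwards [c2.eventually hz1, hR0] with η a1 a2
    refine ⟨a2, fun u u' ξ hξ => ?_⟩
    have ht : 0 < B.F (P, R) / B.F (η, R) := div_pos (B.pos _ h') (B.pos _ a2)
    have a3 := a1 (by rw [B.hom _ ht _ _ a2, div_mul_cancel₀ _ (B.pos _ a2).ne'])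
    set t := B.F (P, R) / B.F (η, R)
    rw [← B.DD_nat (isOpen_sl R) (sl_sub R) hY' (iso_scal B ht)
      (fun η hη => by simpa [sl] using GO_smul ht one_pos hη) (fun η hη => by
        rw [B.fld_smul ht hη, show fderiv ℝ (fun η : Euc n => t • η) η = _ from
          ((hasFDerivAt_id η).const_smul t).fderiv]; simp) ⟨hξ, a2⟩]
    exact a3 _ _ _ (GO_smul (inv_pos.2 ht) ht hξ)
  obtain ⟨δ, hδ, hb0⟩ := Metric.mem_nhds_iff.1 hz2
  have hs : Metric.ball P δ ⊆ sl R := fun η hη => (hb0 hη).1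
  have hne : (Metric.ball P δ).Nonempty := ⟨P, Metric.mem_ball_self hδ⟩
  obtain ⟨Y, g1, g2, g3, g4⟩ := B.glue Metric.isOpen_ball (hs.trans (sl_sub R)) (hY'.mono hs)
    (convex_ball P δ).isPreconnected hne (fun η hη => B.fld_euler (hs hη))
    fun p hp u u' => (hb0 hp.2).2 u u' p.1 hp.1
  obtain ⟨Z, hZ, hZe⟩ := B.global Metric.isOpen_ball (hs.trans (sl_sub R)) (hY'.mono hs) hQ hne
    g1 g2 g4
  have hD : fderiv ℝ Z P = B.Mi (P, R) ∘L A' ∘L MM B.F (P, R) := by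
    rw [(hZe.eventuallyEq_of_mem (Metric.ball_mem_nhds P hδ)).fderiv_eq,
      B.fderiv_fld h' (hA2' _ f2)]
  refine ⟨Z, Y, hZ.swap, ?_, ?_, fun v => ?_, ?_⟩
  · rw [hZe (Metric.mem_ball_self hδ), fld, hA2' _ f2, map_zero]
  · have hp : (R, P) ∈ Om0 P R := ⟨h, h, h'⟩
    have e : zz (B.del (B.fld P A) (B.fld R A')) (R, P) = 0 := by
      ext i
      rw [zz_apply]
      exact (hfl.derX (isOpen_Om0 P R) hp (X := fun _ => (0, ee i)) contDiffOn_const).zero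
    have := g3 (R, P) ⟨h, Metric.mem_ball_self hδ⟩
    rw [B.ext_eq hY hY' hp, e] at this
    simpa [fld, hA2 _ f1] using this
  · obtain ⟨v', s, e⟩ := hsp (MM B.F (P, R) v)
    refine ⟨B.Mi (P, R) v', s, ?_⟩
    have := congrArg (B.Mi (P, R)) e
    rw [B.Mi_MM h', map_add, map_smul, ← B.MM_self h', B.Mi_MM h'] at this
    simpa [hD, B.MM_Mi h'] using this
  · have e : (MM B.F (P, R) : Euc n →ₗ[ℝ] Euc n) ∘ₗ (B.Mi (P, R) : Euc n →ₗ[ℝ] Euc n) =
        LinearMap.id := LinearMap.ext fun w => B.MM_Mi h' w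
    have e' : (fderiv ℝ Z P : Euc n →ₗ[ℝ] Euc n) = (B.Mi (P, R) : Euc n →ₗ[ℝ] Euc n) ∘ₗ
        ((A' : Euc n →ₗ[ℝ] Euc n) ∘ₗ (MM B.F (P, R) : Euc n →ₗ[ℝ] Euc n)) := by rw [hD]; rfl
    rw [e', LinearMap.trace_comp_comm', LinearMap.comp_assoc, e, LinearMap.comp_id]
    exact htr (by have := B.hn; simp; omega)

end Cone

end Crest.Agent.N221.K
end
end

-- ▼ part N221/K/P1
section

/-! Row 221, block K: step P1 (leaf K-P1). -/

set_option autoImplicit false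
set_option linter.unusedSectionVars false
set_option linter.unusedVariables false
set_option maxHeartbeats 400000

open Set Filter Topology
open scoped ContDiff RealInnerProductSpace
open Crest.GeometryTopology.Submanifold

noncomputable section

namespace Crest.Agent.N221.K

variable {n : ℕ}

namespace P1a

/-- uniform bound on a compact part of `GO` -/
lemma bound (B : Cone n) {K : Set (PE n)} (hK : IsCompact K) (hs : K ⊆ GO n) (k : ℕ) :
    ∃ C : ℝ, 0 ≤ C ∧ ∀ p ∈ K, ∀ (v v' : Euc n) (ws : List (Euc n)), ws.length = k →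
      |itr B.Nj ws (B.QQ v v') p| ≤ C * (‖v‖ * ‖v'‖) * nprod ws := by
  have hΩ : IsOpen (GO n) := Cov.isOpen_GO
  have key : ∀ ij : Fin n × Fin n, ∃ C : ℝ, 0 ≤ C ∧ ∀ᶠ p in 𝓟 K, ∀ ws : List (Euc n),
      ws.length = k → |itr B.Nj ws (B.QQ (ee ij.1) (ee ij.2)) p| ≤ C * 1 * nprod ws := by
    intro ij
    refine itr_bound hΩ B.Nj_sm (𝒞 := {f | ContDiffOn ℝ ∞ f (GO n)}) (wt := fun _ => 1)
      (fun f hf => ⟨hf, fun w => dN_sm hΩ B.Nj_sm hf⟩) (principal_mono.2 hs)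
      (fun _ => zero_le_one) (fun f hf => ?_) k (B.QQ_sm _ _)
    obtain ⟨C, hC⟩ := hK.exists_bound_of_continuousOn
      ((ContDiffOn.continuousOn hf).mono hs)
    exact ⟨C, eventually_principal.2 fun p hp => by simpa using hC p hp⟩
  choose C hC0 hC using key
  refine ⟨∑ ij, C ij, Finset.sum_nonneg fun ij _ => hC0 ij, fun p hp v v' ws hws => ?_⟩
  have e : EqOn (B.QQ v v') (fun q => ∑ ij : Fin n × Fin n,
      (v ij.1 * v' ij.2) * B.QQ (ee ij.1) (ee ij.2) q) (GO n) := fun q hq => B.QQ_sum hq v v'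
  rw [itr_congr hΩ ws e (hs hp),
    itr_sum hΩ B.Nj_sm _ ws _ (fun ij _ => B.QQ_sm _ _) (hs hp), Finset.sum_mul, Finset.sum_mul]
  refine (Finset.abs_sum_le_sum_abs _ _).trans (Finset.sum_le_sum fun ij _ => ?_)
  have h1 : |v ij.1| ≤ ‖v‖ := by simpa using PiLp.norm_apply_le v ij.1
  have h2 : |v' ij.2| ≤ ‖v'‖ := by simpa using PiLp.norm_apply_le v' ij.2
  have h3 := eventually_principal.1 (hC ij) p hp ws hws
  rw [abs_mul, abs_mul]
  refine (mul_le_mul (mul_le_mul h1 h2 (abs_nonneg _) (norm_nonneg _)) h3 (abs_nonneg _)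
    (by positivity)).trans (le_of_eq ?_)
  ring

/-- transport along a pair of maps preserving `F` -/
lemma trans {B : Cone n} {G₁ G₂ : Euc n → Euc n} (h : Iso B.F G₁ G₂) {ξ η : Euc n} (hη : η ≠ 0)
    (hξ : ξ ∈ sl η) (u u' : Euc n) (r r' : ℝ) (ws : List (Euc n)) (hl : 2 ≤ ws.length) :
    itr (B.Ns η) ws (fun ξ => B.QQ u u' (ξ, η)) ξ =
      itr B.Nj (ws.map (adj G₂ η).inverse)
        (B.QQ (fderiv ℝ G₂ η u - r • G₂ η) (fderiv ℝ G₂ η u' - r' • G₂ η)) (G₁ ξ, G₂ η) := by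
  have hΩ : IsOpen (GO n) := Cov.isOpen_GO
  obtain ⟨c, hc⟩ := h.QQ_nat hη u u'
  set v := fderiv ℝ G₂ η u - r • G₂ η with hv
  set v' := fderiv ℝ G₂ η u' - r' • G₂ η with hv'
  have hg : ContDiffOn ℝ ∞ (fun ζ => B.QQ v v' (ζ, G₂ η)) (sl (G₂ η)) :=
    slice_sm (B.QQ_sm v v') (G₂ η)
  have e : EqOn (fun ξ => B.QQ u u' (ξ, η))
      (fun ξ => B.QQ v v' (G₁ ξ, G₂ η) + ⟪zz B.F (ξ, η), c⟫) (sl η) := fun ζ hζ => by
    show B.QQ u u' (ζ, η) = B.QQ v v' (G₁ ζ, G₂ η) + ⟪zz B.F (ζ, η), c⟫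
    rw [hc ζ hζ, hv, hv', B.QQ_sub (h.maps ζ η hζ)]
  have h1 : ContDiffOn ℝ ∞ (fun ξ => B.QQ v v' (G₁ ξ, G₂ η)) (sl η) :=
    hg.comp (h.sm₁.mono (sl_sub η)) (h.maps_sl η)
  have h2 : ContDiffOn ℝ ∞ (fun ξ => ⟪zz B.F (ξ, η), c⟫) (sl η) :=
    (B.pol_zz η c).sm (isOpen_sl η)
  rw [itr_congr (isOpen_sl η) ws e hξ, itr_add (isOpen_sl η) (B.Ns_sm η) ws h1 h2 hξ,
    B.itr_zz hξ c ws hl, add_zero, h.itr_nat hξ hg ws,
    B.itr_slice hΩ subset_rfl (B.QQ_sm v v') (h.maps ξ η hξ)]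

lemma zero_of_le {x D : ℝ} (h : ∀ T : ℝ, ∃ t, T ≤ t ∧ |x| ≤ D * Real.exp (-t)) : x = 0 := by
  have h0 : Tendsto (fun t : ℝ => D * Real.exp (-t)) atTop (𝓝 (D * 0)) :=
    Real.tendsto_exp_neg_atTop_nhds_zero.const_mul D
  rw [mul_zero] at h0
  by_contra hx
  obtain ⟨T, hT⟩ := eventually_atTop.1 (h0.eventually (gt_mem_nhds (abs_pos.2 hx)))
  obtain ⟨t, ht, e⟩ := h T
  exact absurd (hT t ht) (not_lt.2 e)

end P1a

/-- **P1** -/
theorem Cone.polQ (B : Cone n) : B.PolQ := by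
  obtain ⟨a, b, ha, H⟩ := B.rate'
  obtain ⟨m, hm⟩ := exists_nat_ge ((2 * b + 1) / a)
  have hk : 2 * b + 1 ≤ ((m + 2 : ℕ) : ℝ) * a := by
    rw [div_le_iff₀ ha] at hm
    push_cast
    nlinarith
  refine ⟨m + 2, fun η hη u u' => (polN_iff (isOpen_sl η) (B.Ns_sm η)).2
    ⟨slice_sm (B.QQ_sm u u') η, fun ws hl hws ξ hξ => ?_⟩⟩
  obtain ⟨K, C, hK, hs, hC, H⟩ := H ξ η hξ
  obtain ⟨D, hD, hb⟩ := P1a.bound B hK hs (m + 2)
  have e : EqOn (fun ξ => B.QQ u u' (ξ, η)) (fun ξ => B.QQ (prj η u) (prj η u') (ξ, η)) (sl η) :=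
    fun ζ hζ => (B.QQ_sub hζ u u' _ _).symm
  rw [itr_congr (isOpen_sl η) ws e hξ]
  refine P1a.zero_of_le
    (D := D * (C * ‖prj η u‖ * (C * ‖prj η u'‖)) * (C ^ (m + 2) * nprod ws)) fun T => ?_
  obtain ⟨t, ht, G₁, G₂, hI, hp, hE⟩ := H (max T 0)
  have ht0 : 0 ≤ t := (le_max_right _ _).trans ht
  refine ⟨t, (le_max_left _ _).trans ht, ?_⟩
  obtain ⟨r, hr⟩ := (hE _ (prj_mem hη u)).2
  obtain ⟨r', hr'⟩ := (hE _ (prj_mem hη u')).2
  have hα : 0 < Real.exp (a * t) / C := by positivity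
  have hn := nprod_map_le ws (adj G₂ η).inverse (inv_pos.2 hα).le
    fun w hw => hI.adj_le hη hα hE (hws w hw)
  rw [P1a.trans hI hη hξ _ _ r r' ws (by omega)]
  refine (hb _ hp _ _ _ (by simpa using hl)).trans ?_
  have hnn := nprod_nonneg ws
  refine (mul_le_mul (mul_le_mul_of_nonneg_left
    (mul_le_mul hr hr' (norm_nonneg _) (by positivity)) hD) hn (nprod_nonneg _)
    (by positivity)).trans ?_
  have h1 : Real.exp (b * t) * Real.exp (b * t) * (Real.exp (a * t))⁻¹ ^ (m + 2) ≤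
      Real.exp (-t) := by
    rw [← Real.exp_neg, ← Real.exp_nat_mul, ← Real.exp_add, ← Real.exp_add]
    refine Real.exp_le_exp.2 ?_
    nlinarith
  rw [hl, inv_div, div_eq_mul_inv, mul_pow]
  refine le_trans (le_of_eq ?_) (mul_le_mul_of_nonneg_left h1 (by positivity))
  ring

end Crest.Agent.N221.K
end
end

-- ▼ part N221/Z/Defs
section

/-! Row 221, Szabo's lemma (helper71): statements.  Pure Mathlib. -/

set_option autoImplicit false

open Set
open scoped RealInnerProductSpace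

namespace Crest.Agent.N221.Z

/-- Borsuk–Ulam on `S^a × S^b`: `p` functions of type (even, odd), `q` functions of type
(odd, odd), `p + q = a + b`, `q.choose a` odd. -/
def BUS : Prop := ∀ (a b p q : ℕ), p + q = a + b → Odd (q.choose a) →
  ∀ (F : (Fin (a + 1) → ℝ) → (Fin (b + 1) → ℝ) → (Fin p → ℝ))
    (G : (Fin (a + 1) → ℝ) → (Fin (b + 1) → ℝ) → (Fin q → ℝ)),
    ContinuousOn (fun z : (Fin (a + 1) → ℝ) × (Fin (b + 1) → ℝ) => F z.1 z.2)
      {z | z.1 ≠ 0 ∧ z.2 ≠ 0} →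
    ContinuousOn (fun z : (Fin (a + 1) → ℝ) × (Fin (b + 1) → ℝ) => G z.1 z.2)
      {z | z.1 ≠ 0 ∧ z.2 ≠ 0} →
    (∀ s v, s ≠ 0 → v ≠ 0 → F (-s) v = F s v) → (∀ s v, s ≠ 0 → v ≠ 0 → F s (-v) = -F s v) →
    (∀ s v, s ≠ 0 → v ≠ 0 → G (-s) v = -G s v) → (∀ s v, s ≠ 0 → v ≠ 0 → G s (-v) = -G s v) →
    ∃ s v, s ≠ 0 ∧ v ≠ 0 ∧ F s v = 0 ∧ G s v = 0

/-- an even continuous tangent field on a sphere has a zero -/
def EvenS : Prop := ∀ (V : Type) [NormedAddCommGroup V] [InnerProductSpace ℝ V]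
  [FiniteDimensional ℝ V] [Nontrivial V] (w : V → V), ContinuousOn w (Metric.sphere 0 1) →
  (∀ v, ‖v‖ = 1 → w (-v) = w v) → (∀ v, ‖v‖ = 1 → ⟪w v, v⟫ = 0) → ∃ v, ‖v‖ = 1 ∧ w v = 0

/-- a continuous field of projections `Q v` on the unit sphere of a subspace `T`, with values in
`T ∩ v^⊥` and `⟪Q v x, Q (-v) y⟫`-type orthogonality in the weak form `Q v x + Q (-v) y = 0 →
Q v x = 0`, vanishes -/
def ProjS : Prop := ∀ (V : Type) [NormedAddCommGroup V] [InnerProductSpace ℝ V]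
  [FiniteDimensional ℝ V] (T : Submodule ℝ V) (Q : V → V →L[ℝ] V),
  ContinuousOn Q {v | v ∈ T ∧ ‖v‖ = 1} →
  (∀ v ∈ T, ‖v‖ = 1 → ∀ x, Q v (Q v x) = Q v x ∧ Q v x ∈ T ∧ ⟪Q v x, v⟫ = 0) →
  (∀ v ∈ T, ‖v‖ = 1 → ∀ x y, Q v x + Q (-v) y = 0 → Q v x = 0) →
  2 ≤ Module.finrank ℝ T → ∀ v ∈ T, ‖v‖ = 1 → Q v = 0

/-- **Szabo's lemma** -/
def SzS : Prop := ∀ (V : Type) [NormedAddCommGroup V] [InnerProductSpace ℝ V]
  [FiniteDimensional ℝ V] (T : Submodule ℝ V) (A : V → V →L[ℝ] V),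
  ContinuousOn A {v | v ∈ T ∧ ‖v‖ = 1} → 2 ≤ Module.finrank ℝ T →
  (∀ v ∈ T, ‖v‖ = 1 → (∀ x y, ⟪A v x, y⟫ = ⟪x, A v y⟫) ∧ (∀ x, A v x ∈ T) ∧ A v v = 0 ∧
    A (-v) = -A v) →
  (∀ k : ℕ, ∃ c : ℝ, ∀ v ∈ T, ‖v‖ = 1 →
    LinearMap.trace ℝ V ((A v ^ k : V →L[ℝ] V) : V →ₗ[ℝ] V) = c) →
  ∀ v ∈ T, ‖v‖ = 1 → A v = 0

end Crest.Agent.N221.Z
end

-- ▼ part N221/Z/BU
section

/-! Row 221, Szabo's lemma: Borsuk–Ulam on a product of spheres with a binomial condition; even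
tangent fields on spheres vanish somewhere (helper19). -/

set_option autoImplicit false

open scoped RealInnerProductSpace

namespace Crest.Agent.N221.Z

open Crest.Agent.R137.BU

lemma BU.val {E₁ E₂ : Type} [AddCommGroup E₁] [Module ℝ E₁] [AddCommGroup E₂] [Module ℝ E₂]
    (e₁ : ℕ → E₁) (e₂ : ℕ → E₂) (K : ℕ) (hK : 0 < K) (a b : ℕ) (D : E₁ × E₂ → Prop)
    (hD : ∀ i j, i ≤ a → j ≤ b → Supp (fun l => l.length = i + j + 1 ∧ ∀ x ∈ l, D x)
      (HH e₁ e₂ K i j))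
    (gs fs : List (E₁ × E₂ → ZMod 2))
    (h1 : ∀ s ∈ fs, ∀ x, D x → s (T1 x) = s x) (h2 : ∀ s ∈ fs, ∀ x, D x → s (T2 x) = s x + 1)
    (h3 : ∀ s ∈ gs, ∀ x, D x → s (T1 x) = s x + 1)
    (h4 : ∀ s ∈ gs, ∀ x, D x → s (T2 x) = s x + 1) :
    ∀ i j, i ≤ a → j ≤ b → HH e₁ e₂ K i j (phi (gs ++ fs)) =
      if i + j = gs.length + fs.length then (gs.length.choose i : ZMod 2) else 0 := by
  induction gs with
  | nil =>
    intro i j hi hj
    rw [List.nil_append, HH_val_F e₁ e₂ K hK a b D hD fs h1 h2 i j hi hj]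
    cases i <;> simp
  | cons s gs ih =>
    intro i j hi hj
    have ih' := ih (fun s hs => h3 s (List.mem_cons_of_mem _ hs))
      (fun s hs => h4 s (List.mem_cons_of_mem _ hs))
    rw [List.cons_append, HH_val_step e₁ e₂ K hK a b D hD s (gs ++ fs) 1 1 (h3 s (by simp))
      (h4 s (by simp)) ?_ ?_ i j hi hj, List.length_cons]
    · rcases i with _ | i <;> rcases j with _ | j <;> simp only [dec, one_mul]
      · rw [if_neg (by omega), add_zero]
      · rw [ih' 0 j hi (by omega), zero_add, Nat.choose_zero_right, Nat.choose_zero_right]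
        exact if_congr (by omega) rfl rfl
      · rw [ih' i 0 (by omega) hj, add_zero]
        by_cases h : i + 0 = gs.length + fs.length
        · rw [if_pos h, if_pos (by omega), Nat.choose_succ_succ,
            Nat.choose_eq_zero_of_lt (show gs.length < i.succ by omega), add_zero]
        · rw [if_neg h, if_neg (by omega)]
      · rw [ih' i (j + 1) (by omega) hj, ih' (i + 1) j hi (by omega)]
        by_cases h : i + (j + 1) = gs.length + fs.length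
        · rw [if_pos h, if_pos (by omega), if_pos (by omega), Nat.choose_succ_succ, Nat.cast_add]
        · rw [if_neg h, if_neg (by omega), if_neg (by omega), add_zero]
    · intro s hs
      rcases List.mem_append.1 hs with hs | hs
      · exact ⟨1, h3 s (List.mem_cons_of_mem _ hs)⟩
      · exact ⟨0, by simpa using h1 s hs⟩
    · intro s hs
      rcases List.mem_append.1 hs with hs | hs
      · exact ⟨1, h4 s (List.mem_cons_of_mem _ hs)⟩
      · exact ⟨1, h2 s hs⟩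

theorem buS : BUS := by
  intro a b p q hpq hodd F G hF hG hF1 hF2 hG1 hG2
  classical
  set X := (Fin (a + 1) → ℝ) × (Fin (b + 1) → ℝ)
  -- the compact domain
  set C : Set X := S1 a ×ˢ S1 b with hC
  have hCc : IsCompact C := (S1_compact a).prod (S1_compact b)
  have hC0 : ∀ p ∈ C, p.1 ≠ 0 ∧ p.2 ≠ 0 := fun p hp => ⟨S1_ne_zero hp.1, S1_ne_zero hp.2⟩
  -- all functions
  set fam : Fin q ⊕ Fin p → X → ℝ := fun i z =>
    Sum.elim (fun i => G z.1 z.2 i) (fun i => F z.1 z.2 i) i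
    with hfam
  have hcont : ∀ i, ContinuousOn (fam i) C := by
    intro i
    cases i with
    | inl i =>
      exact (continuousOn_pi.1 (hG.mono hC0)) i
    | inr i => exact (continuousOn_pi.1 (hF.mono hC0)) i
  set M : X → ℝ := fun p => ∑ i, |fam i p| with hM
  have hMc : ContinuousOn M C := by
    apply continuousOn_finsetSum
    intro i _
    exact (hcont i).abs
  have hCne : C.Nonempty := by
    refine ⟨(ev a 0, ev b 0), ?_, ?_⟩
    · exact (QQ_zero a).1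
    · exact (QQ_zero b).1
  obtain ⟨z, hz, hzmin⟩ := hCc.exists_isMinOn hCne hMc
  by_cases hz0 : M z = 0
  · refine ⟨z.1, z.2, (hC0 z hz).1, (hC0 z hz).2, ?_, ?_⟩
    · funext i
      have := (Finset.sum_eq_zero_iff_of_nonneg (fun i _ => abs_nonneg (fam i z))).1 hz0 (Sum.inr i)
        (Finset.mem_univ _)
      simpa [hfam] using this
    · funext i
      have := (Finset.sum_eq_zero_iff_of_nonneg (fun i _ => abs_nonneg (fam i z))).1 hz0 (Sum.inl i)
        (Finset.mem_univ _)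
      simpa [hfam] using this
  exfalso
  have hzpos : 0 < M z := lt_of_le_of_ne (Finset.sum_nonneg (fun _ _ => abs_nonneg _)) (Ne.symm hz0)
  -- uniform continuity
  set N : ℝ := 2 * (a + b) + 1 with hN
  have hNpos : 0 < N := by positivity
  have hη : 0 < M z / N := by positivity
  have huc : ∀ i, ∃ δ > 0, ∀ p ∈ C, ∀ q ∈ C, dist p q < δ → |fam i p - fam i q| < M z / N := by
    intro i
    have := hCc.uniformContinuousOn_of_continuous (hcont i)
    rw [Metric.uniformContinuousOn_iff] at this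
    obtain ⟨δ, hδ, h⟩ := this _ hη
    exact ⟨δ, hδ, fun p hp q hq hpq => by simpa [Real.dist_eq] using h p hp q hq hpq⟩
  choose δ hδ hδ' using huc
  obtain ⟨δ₀, hδ₀, hδ₀'⟩ : ∃ δ₀ > 0, ∀ i, δ₀ ≤ δ i := by
    by_cases hne : Nonempty (Fin q ⊕ Fin p)
    · obtain ⟨i, hi⟩ := Finite.exists_min δ
      exact ⟨δ i, hδ i, hi⟩
    · exact ⟨1, one_pos, fun i => absurd ⟨i⟩ hne⟩
  obtain ⟨K, hK⟩ := exists_nat_gt (2 * (a + b : ℝ) / δ₀)
  have hKpos : 0 < K := by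
    rcases Nat.eq_zero_or_pos K with h | h
    · subst h
      have : (0:ℝ) ≤ 2 * (a + b : ℝ) / δ₀ := by positivity
      simp at hK; linarith
    · exact h
  have hKpos' : (0:ℝ) < K := by exact_mod_cast hKpos
  have hmesh : 2 * (a + b : ℝ) / K < δ₀ := by
    rw [div_lt_iff₀ hKpos']
    rw [div_lt_iff₀ hδ₀] at hK
    linarith
  -- the support
  set D : X → Prop := fun p => p.1 ≠ 0 ∧ p.2 ≠ 0 with hD
  have hsupp : ∀ i j, i ≤ a → j ≤ b → Supp (fun l => l.length = i + j + 1 ∧ (∀ x ∈ l, x ∈ C) ∧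
      ∀ x ∈ l, ∀ y ∈ l, dist x y < δ₀) (HH (ev a) (ev b) K i j) := by
    intro i j hi hj
    refine (hem_supp a K hKpos i hi).pr (hem_supp b K hKpos j hj) ?_
    intro l l' m hl hl' hm hp
    refine ⟨by have := hl.1; have := hl'.1; omega, ?_, ?_⟩
    · intro x hx
      exact ⟨(hl.2.1 _ (hp x hx).1).1, (hl'.2.1 _ (hp x hx).2).1⟩
    · intro x hx y hy
      rw [Prod.dist_eq]
      have h1 := hl.2.2 _ (hp x hx).1 _ (hp y hy).1
      have h2 := hl'.2.2 _ (hp x hx).2 _ (hp y hy).2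
      refine lt_of_le_of_lt (max_le (h1.trans ?_) (h2.trans ?_)) hmesh
      · have : (i : ℝ) ≤ a := by exact_mod_cast hi
        gcongr
        have : (0:ℝ) ≤ b := by positivity
        linarith
      · have : (j : ℝ) ≤ b := by exact_mod_cast hj
        gcongr
        have : (0:ℝ) ≤ a := by positivity
        linarith
  have hDsupp : ∀ i j, i ≤ a → j ≤ b → Supp (fun l => l.length = i + j + 1 ∧ ∀ x ∈ l, D x)
      (HH (ev a) (ev b) K i j) := by
    intro i j hi hj f g hfg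
    exact hsupp i j hi hj f g (fun l hl => hfg l ⟨hl.1, fun x hx => hC0 x (hl.2.1 x hx)⟩)
  -- sign functions
  set κG : X → Prop := fun p => ¬ (kap p.1 ↔ kap p.2) with hκG
  set κF : X → Prop := fun p => kap p.2 with hκF
  set gs : List (X → ZMod 2) := List.ofFn (fun i : Fin q => sg (fam (Sum.inl i)) κG) with hgs
  set fs : List (X → ZMod 2) := List.ofFn (fun i : Fin p => sg (fam (Sum.inr i)) κF) with hfs
  have hval := BU.val (ev a) (ev b) K hKpos a b D hDsupp gs fs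
    (by
      intro s hs x hx
      obtain ⟨i, rfl⟩ := (List.mem_ofFn' _ _).1 hs
      refine sg_same ?_ Iff.rfl
      show F (-x.1) x.2 i = F x.1 x.2 i
      rw [hF1 _ _ hx.1 hx.2])
    (by
      intro s hs x hx
      obtain ⟨i, rfl⟩ := (List.mem_ofFn' _ _).1 hs
      refine sg_flip ?_ (kap_neg hx.2)
      show F x.1 (-x.2) i = -F x.1 x.2 i
      rw [hF2 _ _ hx.1 hx.2]; rfl)
    (by
      intro s hs x hx
      obtain ⟨i, rfl⟩ := (List.mem_ofFn' _ _).1 hs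
      refine sg_flip ?_ ?_
      · show G (-x.1) x.2 i = -G x.1 x.2 i
        rw [hG1 _ _ hx.1 hx.2]; rfl
      · show ¬ (kap (-x.1) ↔ kap x.2) ↔ ¬ ¬ (kap x.1 ↔ kap x.2)
        rw [kap_neg hx.1]
        tauto)
    (by
      intro s hs x hx
      obtain ⟨i, rfl⟩ := (List.mem_ofFn' _ _).1 hs
      refine sg_flip ?_ ?_
      · show G x.1 (-x.2) i = -G x.1 x.2 i
        rw [hG2 _ _ hx.1 hx.2]; rfl
      · show ¬ (kap x.1 ↔ kap (-x.2)) ↔ ¬ ¬ (kap x.1 ↔ kap x.2)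
        rw [kap_neg hx.2]
        tauto)
    a b le_rfl le_rfl
  rw [if_pos (by simp only [hgs, hfs, List.length_ofFn]; omega), hgs, List.length_ofFn,
    ZMod.natCast_eq_one_iff_odd.2 hodd, ← hgs] at hval
  -- extract a small simplex
  obtain ⟨l, hl, hphi⟩ : ∃ l : List X, (l.length = a + b + 1 ∧ (∀ x ∈ l, x ∈ C) ∧
      ∀ x ∈ l, ∀ y ∈ l, dist x y < δ₀) ∧ phi (gs ++ fs) l ≠ 0 := by
    by_contra hcon
    push Not at hcon
    have := hsupp a b le_rfl le_rfl (phi (gs ++ fs)) 0 (fun l hl => hcon l hl)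
    rw [hval, map_zero] at this
    exact absurd this (by decide)
  have hlne : l ≠ [] := by
    intro h; rw [h] at hl; simp at hl
  obtain ⟨x₀, hx₀⟩ := List.exists_mem_of_ne_nil l hlne
  have hsmall : ∀ i, |fam i x₀| < 2 * (M z / N) := by
    intro i
    have hmem : ∃ κ, sg (fam i) κ ∈ gs ++ fs := by
      cases i with
      | inl i => exact ⟨κG, List.mem_append_left _ ((List.mem_ofFn' _ _).2 ⟨i, rfl⟩)⟩
      | inr i => exact ⟨κF, List.mem_append_right _ ((List.mem_ofFn' _ _).2 ⟨i, rfl⟩)⟩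
    obtain ⟨κ, hκ⟩ := hmem
    obtain ⟨x, hx, y, hy, hxy⟩ := exists_change _ _ hphi _ hκ
    have h1 := sg_ne hxy
    have h2 := hδ' i x (hl.2.1 x hx) y (hl.2.1 y hy) (lt_of_lt_of_le (hl.2.2 x hx y hy) (hδ₀' i))
    have h3 := hδ' i x₀ (hl.2.1 x₀ hx₀) x (hl.2.1 x hx)
      (lt_of_lt_of_le (hl.2.2 x₀ hx₀ x hx) (hδ₀' i))
    have h4 : |fam i x₀| ≤ |fam i x₀ - fam i x| + |fam i x| := by
      calc |fam i x₀| = |(fam i x₀ - fam i x) + fam i x| := by ring_nf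
        _ ≤ _ := abs_add_le _ _
    linarith
  have hMle : M x₀ ≤ (a + b : ℝ) * (2 * (M z / N)) := by
    calc M x₀ = ∑ i : Fin q ⊕ Fin p, |fam i x₀| := rfl
      _ ≤ ∑ _i : Fin q ⊕ Fin p, 2 * (M z / N) := Finset.sum_le_sum (fun i _ => (hsmall i).le)
      _ = _ := by
        have hc : (q + p : ℝ) = a + b := by exact_mod_cast (by omega : q + p = a + b)
        simp [Finset.card_univ, Fintype.card_sum, hc]
  have hge : M z ≤ M x₀ := hzmin (hl.2.1 x₀ hx₀)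
  have hlt : (a + b : ℝ) * (2 * (M z / N)) < M z := by
    have : (a + b : ℝ) * (2 * (M z / N)) = M z * ((2 * (a + b)) / N) := by ring
    rw [this]
    have h1 : (2 * ((a : ℝ) + b)) / N < 1 := by
      rw [div_lt_one hNpos]; linarith
    nlinarith
  linarith

namespace BU

/-- coordinate free form -/
lemma bu' (h : BUS) {V W E₁ E₂ : Type*}
    [NormedAddCommGroup V] [NormedSpace ℝ V] [FiniteDimensional ℝ V]
    [NormedAddCommGroup W] [NormedSpace ℝ W] [FiniteDimensional ℝ W]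
    [NormedAddCommGroup E₁] [NormedSpace ℝ E₁] [FiniteDimensional ℝ E₁]
    [NormedAddCommGroup E₂] [NormedSpace ℝ E₂] [FiniteDimensional ℝ E₂] {a b p q : ℕ}
    (ha : Module.finrank ℝ V = a + 1) (hb : Module.finrank ℝ W = b + 1)
    (hp : Module.finrank ℝ E₁ = p) (hq : Module.finrank ℝ E₂ = q) (hpq : p + q = a + b)
    (hodd : Odd (q.choose a)) (F : V → W → E₁) (G : V → W → E₂)
    (hF : ContinuousOn (fun z : V × W => F z.1 z.2) {z | z.1 ≠ 0 ∧ z.2 ≠ 0})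
    (hG : ContinuousOn (fun z : V × W => G z.1 z.2) {z | z.1 ≠ 0 ∧ z.2 ≠ 0})
    (hF1 : ∀ s v, s ≠ 0 → v ≠ 0 → F (-s) v = F s v)
    (hF2 : ∀ s v, s ≠ 0 → v ≠ 0 → F s (-v) = -F s v)
    (hG1 : ∀ s v, s ≠ 0 → v ≠ 0 → G (-s) v = -G s v)
    (hG2 : ∀ s v, s ≠ 0 → v ≠ 0 → G s (-v) = -G s v) :
    ∃ s v, s ≠ 0 ∧ v ≠ 0 ∧ F s v = 0 ∧ G s v = 0 := by
  let ιV : (Fin (a + 1) → ℝ) ≃L[ℝ] V := ContinuousLinearEquiv.ofFinrankEq (by simp [ha])
  let ιW : (Fin (b + 1) → ℝ) ≃L[ℝ] W := ContinuousLinearEquiv.ofFinrankEq (by simp [hb])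
  let φ₁ : E₁ ≃L[ℝ] (Fin p → ℝ) := ContinuousLinearEquiv.ofFinrankEq (by simp [hp])
  let φ₂ : E₂ ≃L[ℝ] (Fin q → ℝ) := ContinuousLinearEquiv.ofFinrankEq (by simp [hq])
  have hV0 : ∀ s, s ≠ 0 → ιV s ≠ 0 := fun s hs => ιV.map_ne_zero_iff.2 hs
  have hW0 : ∀ s, s ≠ 0 → ιW s ≠ 0 := fun s hs => ιW.map_ne_zero_iff.2 hs
  have hmaps : Set.MapsTo (fun z : (Fin (a + 1) → ℝ) × (Fin (b + 1) → ℝ) => (ιV z.1, ιW z.2))
      {z | z.1 ≠ 0 ∧ z.2 ≠ 0} {z | z.1 ≠ 0 ∧ z.2 ≠ 0} := fun z hz => ⟨hV0 _ hz.1, hW0 _ hz.2⟩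
  have hc : ContinuousOn (fun z : (Fin (a + 1) → ℝ) × (Fin (b + 1) → ℝ) => (ιV z.1, ιW z.2))
      {z | z.1 ≠ 0 ∧ z.2 ≠ 0} := by fun_prop
  obtain ⟨s, v, hs, hv, h1, h2⟩ := h a b p q hpq hodd
    (fun s v => φ₁ (F (ιV s) (ιW v))) (fun s v => φ₂ (G (ιV s) (ιW v)))
    (φ₁.continuous.comp_continuousOn (hF.comp hc hmaps))
    (φ₂.continuous.comp_continuousOn (hG.comp hc hmaps))
    (fun s v hs hv => by simp only [map_neg]; rw [hF1 _ _ (hV0 s hs) (hW0 v hv)])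
    (fun s v hs hv => by simp only [map_neg]; rw [hF2 _ _ (hV0 s hs) (hW0 v hv), map_neg])
    (fun s v hs hv => by simp only [map_neg]; rw [hG1 _ _ (hV0 s hs) (hW0 v hv), map_neg])
    (fun s v hs hv => by simp only [map_neg]; rw [hG2 _ _ (hV0 s hs) (hW0 v hv), map_neg])
  exact ⟨ιV s, ιW v, hV0 s hs, hW0 v hv, by simpa using h1, by simpa using h2⟩

/-- Clifford modules -/
lemma clifford (n : ℕ) : ∃ (A : Type) (_ : NormedAddCommGroup A) (_ : NormedSpace ℝ A)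
    (_ : FiniteDimensional ℝ A) (μ : (Fin n → ℝ) → A →ₗ[ℝ] A), Module.finrank ℝ A = 2 ^ n ∧
      Continuous (fun z : (Fin n → ℝ) × A => μ z.1 z.2) ∧ (∀ v u, μ (-v) u = -μ v u) ∧
      ∀ v u, μ v (μ v u) = (∑ i, v i ^ 2) • u := by
  induction n with
  | zero => exact ⟨ℝ, inferInstance, inferInstance, inferInstance, 0, by simp, continuous_const,
      by simp, by simp⟩
  | succ n ih =>
    obtain ⟨A, _, _, _, μ, h1, h2, h3, h4⟩ := ih
    let ν : (Fin (n + 1) → ℝ) → A × A →ₗ[ℝ] A × A := fun v =>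
      ((μ (Fin.tail v)).coprod (v 0 • LinearMap.id)).prod
        ((v 0 • LinearMap.id : A →ₗ[ℝ] A).coprod (-μ (Fin.tail v)))
    have e : ∀ v u, ν v u = (μ (Fin.tail v) u.1 + v 0 • u.2, v 0 • u.1 + -μ (Fin.tail v) u.2) :=
      fun _ _ => rfl
    refine ⟨A × A, inferInstance, inferInstance, inferInstance, ν, ?_, ?_, fun v u => ?_,
      fun v u => ?_⟩
    · rw [Module.finrank_prod, h1]; ring
    · have ht : Continuous fun v : Fin (n + 1) → ℝ => Fin.tail v := by unfold Fin.tail; fun_prop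
      have c1 : Continuous fun z : (Fin (n + 1) → ℝ) × A × A => μ (Fin.tail z.1) z.2.1 :=
        h2.comp ((ht.comp continuous_fst).prodMk (by fun_prop))
      have c2 : Continuous fun z : (Fin (n + 1) → ℝ) × A × A => μ (Fin.tail z.1) z.2.2 :=
        h2.comp ((ht.comp continuous_fst).prodMk (by fun_prop))
      simp only [e]
      fun_prop
    · have : Fin.tail (-v) = -Fin.tail v := rfl
      simp only [e, this, h3, Pi.neg_apply, neg_smul, Prod.neg_mk, neg_add]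
    · have : ∑ i, v i ^ 2 = v 0 ^ 2 + ∑ i, Fin.tail v i ^ 2 := Fin.sum_univ_succ _
      rw [e, e, this]
      simp only [map_add, map_neg, map_smul, h4]
      refine Prod.ext ?_ ?_ <;> simp only [Prod.smul_fst, Prod.smul_snd] <;> module

lemma odd_choose {r N : ℕ} (hN : N + 1 = 2 ^ r) : ∀ m, m ≤ N → Odd (N.choose m)
  | 0, _ => by simp
  | m + 1, h => by
    have h1 := odd_choose hN m (by omega)
    have h2 := Nat.prime_two.dvd_choose_pow (n := r) (k := m + 1) (by omega) (by omega)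
    rw [← hN, Nat.choose_succ_succ'] at h2
    rw [Nat.odd_iff] at h1 ⊢
    omega

end BU

theorem evenS (h : BUS) : EvenS := by
  intro V _ _ _ _ w hw h1 h2
  by_contra hne
  have hw0 : ∀ v, ‖v‖ = 1 → w v ≠ 0 := fun v hv e => hne ⟨v, hv, e⟩
  obtain ⟨m, hm⟩ : ∃ m, Module.finrank ℝ V = m + 1 :=
    ⟨_, (Nat.succ_pred_eq_of_pos Module.finrank_pos).symm⟩
  obtain ⟨A, _, _, _, μ, a1, a2, a3, a4⟩ := BU.clifford (m + 1)
  obtain ⟨q, hq⟩ : ∃ q, q + 1 = 2 ^ (m + 1) := ⟨_, Nat.succ_pred_eq_of_pos (by positivity)⟩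
  have hmq : m ≤ q := by have := Nat.lt_two_pow_self (n := m + 1); omega
  let φ : V ≃L[ℝ] (Fin (m + 1) → ℝ) := ContinuousLinearEquiv.ofFinrankEq (by simp [hm])
  let ψ : A ≃L[ℝ] ℝ × (Fin q → ℝ) := ContinuousLinearEquiv.ofFinrankEq (by simp [a1]; omega)
  have hc : Continuous fun z : V × ℝ × A => ψ (μ (φ z.1) z.2.2) :=
    ψ.continuous.comp (a2.comp (f := fun z : V × ℝ × A => (φ z.1, z.2.2)) (by fun_prop))
  have hu : ∀ v : V, v ≠ 0 → ‖‖v‖⁻¹ • v‖ = 1 := fun v hv => norm_smul_inv_norm hv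
  have hcw : ContinuousOn (fun z : V × ℝ × A => w (‖z.1‖⁻¹ • z.1)) {z | z.1 ≠ 0 ∧ z.2 ≠ 0} := by
    refine hw.comp (f := fun z : V × ℝ × A => ‖z.1‖⁻¹ • z.1) ?_ fun z hz => by simpa using hu _ hz.1
    exact (continuous_fst.norm.continuousOn.inv₀ fun z hz => norm_ne_zero_iff.2 hz.1).smul
      continuousOn_fst
  obtain ⟨v, ⟨s, u⟩, hv, hsu, e1, e2⟩ := BU.bu' h (W := ℝ × A) (a := m) (b := q + 1) (p := m + 1)
    (q := q) hm (by simp [a1]; omega) hm (Module.finrank_fin_fun ℝ) (by omega)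
    (BU.odd_choose hq m hmq)
    (fun v z => (ψ (μ (φ v) z.2)).1 • v + z.1 • w (‖v‖⁻¹ • v)) (fun v z => (ψ (μ (φ v) z.2)).2)
    ((hc.fst.continuousOn.smul continuousOn_fst).add
      (continuous_snd.fst.continuousOn.smul hcw)) hc.snd.continuousOn
    (fun v z hv _ => by
      rw [map_neg, a3, map_neg, norm_neg, smul_neg ‖v‖⁻¹, h1 _ (hu v hv)]; simp)
    (fun v z _ _ => by simp [add_comm]) (fun v z _ _ => by rw [map_neg, a3, map_neg]; rfl)
    (fun v z _ _ => by simp)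
  dsimp only at e1 e2
  have hn : ‖v‖ ≠ 0 := norm_ne_zero_iff.2 hv
  have e3 : ⟪w (‖v‖⁻¹ • v), v⟫ = 0 := by
    have := h2 _ (hu v hv)
    rw [real_inner_smul_right] at this
    exact (mul_eq_zero.1 this).resolve_left (inv_ne_zero hn)
  have e4 : (ψ (μ (φ v) u)).1 = 0 := by
    have := congrArg (fun x => ⟪x, v⟫) e1
    simp only [inner_add_left, real_inner_smul_left, e3, mul_zero, add_zero, inner_zero_left,
      real_inner_self_eq_norm_sq] at this
    exact (mul_eq_zero.1 this).resolve_right (pow_ne_zero _ hn)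
  rw [e4, zero_smul, zero_add] at e1
  have e5 : s = 0 := (smul_eq_zero.1 e1).resolve_right (hw0 _ (hu v hv))
  have e6 : μ (φ v) u = 0 := ψ.map_eq_zero_iff.1 (Prod.ext e4 e2)
  have e7 := a4 (φ v) u
  rw [e6, map_zero] at e7
  have e8 : ∑ i, φ v i ^ 2 ≠ 0 := fun e => hv (φ.map_eq_zero_iff.1 (funext fun i =>
    (pow_eq_zero_iff two_ne_zero).1 ((Finset.sum_eq_zero_iff_of_nonneg fun _ _ => sq_nonneg _).1 e i
      (Finset.mem_univ i))))
  exact hsu (Prod.ext e5 ((smul_eq_zero.1 e7.symm).resolve_left e8))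

end Crest.Agent.N221.Z
end

-- ▼ part N221/Z/Sz
section

/-! Row 221, Szabo's lemma: `projS`, `szS` -/

set_option autoImplicit false

open Set Polynomial
open scoped RealInnerProductSpace

namespace Crest.Agent.N221.Z

namespace Sz

variable {V : Type} [NormedAddCommGroup V] [InnerProductSpace ℝ V] [FiniteDimensional ℝ V]

omit [FiniteDimensional ℝ V] in
/-- transport of a fixed vector along a continuous family of projections -/
theorem transport {D : Set V} (hD : IsCompact D) {F : ℝ × V → V →L[ℝ] V}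
    (hF : ContinuousOn F (Icc 0 1 ×ˢ D)) (hi : ∀ s, ∀ v ∈ D, ∀ x, F (s, v) (F (s, v) x) = F (s, v) x)
    {w : V} (hw : w ≠ 0) (h0 : ∀ v ∈ D, F (0, v) w = w) :
    ∃ t : V → V, ContinuousOn t D ∧ ∀ v ∈ D, F (1, v) (t v) = t v ∧ t v ≠ 0 := by
  obtain ⟨δ, hδ, hu⟩ := Metric.uniformContinuousOn_iff.1
    ((isCompact_Icc.prod hD).uniformContinuousOn_of_continuous hF) 1 one_pos
  obtain ⟨N, hN⟩ := exists_nat_one_div_lt hδ
  have N0 : (0 : ℝ) < N + 1 := by positivity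
  have m : ∀ j : ℕ, j ≤ N + 1 → (j : ℝ) / (N + 1) ∈ Icc (0 : ℝ) 1 := fun j hj =>
    ⟨by positivity, (div_le_one N0).2 (by exact_mod_cast hj)⟩
  have key : ∀ j : ℕ, j ≤ N + 1 → ∃ t : V → V, ContinuousOn t D ∧
      ∀ v ∈ D, F (j / (N + 1), v) (t v) = t v ∧ t v ≠ 0 := by
    intro j
    induction j with
    | zero => exact fun _ => ⟨fun _ => w, continuousOn_const, fun v hv => ⟨by simpa using h0 v hv, hw⟩⟩
    | succ j ih =>
      intro hj
      obtain ⟨t, t1, t2⟩ := ih (by omega)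
      refine ⟨fun v => F ((j + 1 : ℕ) / (N + 1), v) (t v), (hF.comp (by fun_prop)
        fun v hv => ⟨m _ hj, hv⟩).clm_apply t1, fun v hv => ⟨hi _ v hv _, fun e => ?_⟩⟩
      have h1 := hu ((j + 1 : ℕ) / (N + 1), v) ⟨m _ hj, hv⟩ (j / (N + 1), v) ⟨m _ (by omega), hv⟩ (by
        rw [Prod.dist_eq, dist_self, Real.dist_eq, ← sub_div]
        simpa [abs_of_pos N0, hδ] using hN)
      rw [dist_eq_norm] at h1
      have h2 := (F ((j + 1 : ℕ) / (N + 1), v) - F (j / (N + 1), v)).le_opNorm (t v)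
      rw [_root_.sub_apply, (t2 v hv).1, show F _ (t v) = 0 from e, zero_sub, norm_neg] at h2
      nlinarith [norm_pos_iff.2 (t2 v hv).2]
  simpa [N0.ne'] using key (N + 1) le_rfl

theorem diag {B : V →L[ℝ] V} (h : ∀ x y, ⟪B x, y⟫ = ⟪x, B y⟫) :
    ∃ (b : OrthonormalBasis (Fin (Module.finrank ℝ V)) ℝ V) (μ : Fin (Module.finrank ℝ V) → ℝ),
      (∀ (g : ℝ[X]) i, aeval B g (b i) = g.eval (μ i) • b i) ∧
      ∀ g : ℝ[X], LinearMap.trace ℝ V (aeval B g : V →L[ℝ] V) = ∑ i, g.eval (μ i) := by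
  have hs : (B : V →ₗ[ℝ] V).IsSymmetric := h
  have h1 : ∀ (g : ℝ[X]) i, aeval B g (hs.eigenvectorBasis rfl i) =
      g.eval (hs.eigenvalues rfl i) • hs.eigenvectorBasis rfl i := fun g i => by
    have h2 : ∀ k : ℕ, (B ^ k) (hs.eigenvectorBasis rfl i) =
        hs.eigenvalues rfl i ^ k • hs.eigenvectorBasis rfl i := fun k => by
      induction k with
      | zero => simp
      | succ k ih =>
        have h3 : B _ = _ := hs.apply_eigenvectorBasis rfl i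
        rw [pow_succ', ContinuousLinearMap.mul_apply, ih, map_smul, h3, smul_smul, pow_succ]
        rfl
    rw [aeval_eq_sum_range, eval_eq_sum_range, Finset.sum_smul, ContinuousLinearMap.sum_apply]
    exact Finset.sum_congr rfl fun k _ => by rw [_root_.smul_apply, h2, smul_smul]
  refine ⟨_, _, h1, fun g => ?_⟩
  rw [LinearMap.trace_eq_sum_inner _ (hs.eigenvectorBasis rfl)]
  refine Finset.sum_congr rfl fun i _ => ?_
  rw [ContinuousLinearMap.coe_coe, h1, inner_smul_right, real_inner_self_eq_norm_sq,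
    (hs.eigenvectorBasis rfl).orthonormal.1 i]
  simp

end Sz

open Sz in
theorem projS (h : EvenS) : ProjS := fun V _ _ _ T Q hQ h1 h2 hT u hu hu1 => by
  by_contra hne
  obtain ⟨x0, hx0⟩ : ∃ x, Q u x ≠ 0 := by
    by_contra! e
    exact hne (ContinuousLinearMap.ext e)
  have : Nontrivial T := Module.nontrivial_of_finrank_pos (R := ℝ) (by omega)
  have cS : IsClosed {v : V | v ∈ T ∧ ‖v‖ = 1} :=
    T.closed_of_finiteDimensional.inter (isClosed_eq continuous_norm continuous_const)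
  have ci : Continuous fun v : V => ⟪v, u⟫ := by fun_prop
  set D := {v : V | v ∈ T ∧ ‖v‖ = 1} ∩ {v | -1 / 2 ≤ ⟪v, u⟫} with hD
  have cD : IsClosed D := cS.inter (isClosed_le continuous_const ci)
  have g0 : ∀ (s : ℝ), ∀ v ∈ D, ‖(1 - s) • u + s • v‖ ≠ 0 := fun s v hv e => by
    have e1 := congrArg (fun x => ⟪x, u + v⟫) (norm_eq_zero.1 e)
    have e2 : -1 / 2 ≤ ⟪v, u⟫ := hv.2
    simp only [inner_add_left, inner_add_right, real_inner_smul_left, real_inner_self_eq_norm_sq, hu1,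
      hv.1.2, inner_zero_left, real_inner_comm v u] at e1
    linarith
  have g1 : ∀ (s : ℝ), ∀ v ∈ D, ‖(1 - s) • u + s • v‖⁻¹ • ((1 - s) • u + s • v) ∈
      {v : V | v ∈ T ∧ ‖v‖ = 1} := fun s v hv =>
    ⟨T.smul_mem _ (T.add_mem (T.smul_mem _ hu) (T.smul_mem _ hv.1.1)), by
      rw [norm_smul, norm_inv, norm_norm, inv_mul_cancel₀ (g0 s v hv)]⟩
  obtain ⟨t, t1, t2⟩ := transport (D := D) ((isCompact_sphere (0 : V) 1).of_isClosed_subset cD
      fun v hv => by simpa using hv.1.2)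
    (F := fun p => Q (‖(1 - p.1) • u + p.1 • p.2‖⁻¹ • ((1 - p.1) • u + p.1 • p.2)))
    (hQ.comp ((ContinuousOn.inv₀ (by fun_prop) fun p hp => g0 _ _ hp.2).smul (by fun_prop))
      fun p hp => g1 _ _ hp.2) (fun s v hv x => (h1 _ (g1 s v hv).1 (g1 s v hv).2 x).1) hx0
    fun v _ => by simpa [hu1] using (h1 u hu hu1 x0).1
  set σ : V → V := fun v => max 0 (2 * ⟪v, u⟫ + 1) • t v with hσ
  have s0 : ∀ v, ⟪v, u⟫ ≤ -1 / 2 → σ v = 0 := fun v hv => by
    simp only [hσ]; rw [max_eq_left (by linarith), zero_smul]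
  have s1 : ContinuousOn σ {v : V | v ∈ T ∧ ‖v‖ = 1} :=
    ((((continuous_const.max (by fun_prop)).continuousOn.smul t1).union_of_isClosed
      (continuousOn_const.congr s0) cD (isClosed_le ci continuous_const))).mono fun v hv =>
        (le_total (-1 / 2) ⟪v, u⟫).imp (fun e => ⟨hv, e⟩) id
  have s2 : ∀ v ∈ T, ‖v‖ = 1 → Q v (σ v) = σ v := fun v hv hv1 => by
    rcases le_total (-1 / 2) ⟪v, u⟫ with e | e
    · have := (t2 v ⟨⟨hv, hv1⟩, e⟩).1
      simp only [sub_self, zero_smul, one_smul, zero_add, hv1, inv_one] at this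
      simp only [hσ, map_smul, this]
    · rw [s0 v e, map_zero]
  have s3 : ∀ v ∈ T, ‖v‖ = 1 → σ v + σ (-v) = 0 → ⟪v, u⟫ < 0 := fun v hv hv1 e => by
    by_contra! e1
    have e2 := h2 v hv hv1 (σ v) (σ (-v)) (by rw [s2 v hv hv1, s2 _ (T.neg_mem hv) (by simpa), e])
    rw [s2 v hv hv1] at e2
    exact smul_ne_zero (lt_max_of_lt_right (by linarith)).ne'
      (t2 v ⟨⟨hv, hv1⟩, show -1 / 2 ≤ ⟪v, u⟫ by linarith⟩).2 e2
  have s4 : ∀ v ∈ T, ‖v‖ = 1 → σ v ∈ T ∧ ⟪σ v, v⟫ = 0 := fun v hv hv1 =>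
    s2 v hv hv1 ▸ (h1 v hv hv1 (σ v)).2
  have s5 : ∀ v : T, ‖v‖ = 1 → (T.orthogonalProjectionOnto (σ v + σ (-v)) : V) = σ v + σ (-v) :=
    fun v hv => Submodule.starProjection_eq_self_iff.2 (T.add_mem (s4 v v.2 hv).1
      (s4 _ (T.neg_mem v.2) (by simpa)).1)
  obtain ⟨v, hv, e⟩ := h T (fun v => T.orthogonalProjectionOnto (σ v + σ (-v)))
    (T.orthogonalProjectionOnto.continuous.comp_continuousOn
      ((s1.comp continuous_subtype_val.continuousOn fun v hv => ⟨v.2, by simpa using hv⟩).add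
        (s1.comp continuous_subtype_val.neg.continuousOn fun v hv =>
          ⟨T.neg_mem v.2, by simpa using hv⟩)))
    (fun v _ => by simp only [Submodule.coe_neg, neg_neg, add_comm]) fun v hv => by
      have := (s4 _ (T.neg_mem v.2) (by simpa)).2
      rw [inner_neg_right, neg_eq_zero] at this
      rw [Submodule.coe_inner, s5 v hv, inner_add_left, (s4 v v.2 hv).2, this, add_zero]
  have e1 : σ v + σ (-v) = 0 := by rw [← s5 v hv, e]; rfl
  have e2 := s3 _ (T.neg_mem v.2) (by simpa) (by rw [neg_neg, add_comm, e1])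
  rw [inner_neg_left] at e2
  linarith [s3 v v.2 hv e1]

open Sz in
theorem szS (h : ProjS) : SzS := fun V _ _ _ T A hA hT h1 h2 u hu hu1 => by
  classical
  choose c hc using h2
  have tr : ∀ (g : ℝ[X]), ∀ v ∈ T, ‖v‖ = 1 → LinearMap.trace ℝ V (aeval (A v) g : V →L[ℝ] V) =
      ∑ k ∈ Finset.range (g.natDegree + 1), g.coeff k * c k := fun g v hv hv1 => by
    rw [aeval_eq_sum_range, ContinuousLinearMap.toLinearMap_sum, map_sum]
    exact Finset.sum_congr rfl fun k _ => by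
      rw [ContinuousLinearMap.toLinearMap_smul, map_smul, hc k v hv hv1, smul_eq_mul]
  obtain ⟨-, μ, -, hμ⟩ := diag (h1 u hu hu1).1
  set Λ : Finset ℝ := insert 0 (Finset.univ.image μ ∪ Finset.univ.image fun i => -μ i) with hΛ
  have L1 : ∀ l ∈ Λ, -l ∈ Λ := fun l hl => by
    simp only [hΛ, Finset.mem_insert, Finset.mem_union, Finset.mem_image, Finset.mem_univ,
      true_and] at hl ⊢
    rcases hl with rfl | ⟨i, rfl⟩ | ⟨i, rfl⟩
    exacts [.inl neg_zero, .inr (.inr ⟨i, rfl⟩), .inr (.inl ⟨i, (neg_neg _).symm⟩)]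
  have kill : ∀ v ∈ T, ‖v‖ = 1 → ∀ g : ℝ[X], (∀ l ∈ Λ, g.eval l = 0) → aeval (A v) g = 0 :=
    fun v hv hv1 g hg => by
    obtain ⟨b, ν, b1, b2⟩ := diag (h1 v hv hv1).1
    have q : ∀ r, ((∏ l ∈ Λ, (X - C l)) ^ 2 : ℝ[X]).eval r = (∏ l ∈ Λ, (r - l)) ^ 2 := fun r => by
      simp [eval_prod]
    have e := b2 ((∏ l ∈ Λ, (X - C l)) ^ 2)
    rw [tr _ v hv hv1, ← tr _ u hu hu1, hμ, Finset.sum_eq_zero fun i _ => by
      rw [q, Finset.prod_eq_zero (i := μ i) (by simp [hΛ]) (sub_self _), zero_pow two_ne_zero]] at e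
    simp only [q] at e
    refine ContinuousLinearMap.coe_injective (b.toBasis.ext fun i => ?_)
    obtain ⟨l, hl, e1⟩ := Finset.prod_eq_zero_iff.1 (pow_eq_zero_iff two_ne_zero |>.1
      ((Finset.sum_eq_zero_iff_of_nonneg fun i _ => sq_nonneg _).1 e.symm i (Finset.mem_univ i)))
    simp [b1, sub_eq_zero.1 e1, hg l hl]
  set p : ℝ[X] := Lagrange.interpolate Λ id fun l => if 0 < l then 1 else 0 with hp
  have p1 : ∀ l ∈ Λ, p.eval l = if 0 < l then 1 else 0 := fun l hl =>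
    Lagrange.eval_interpolate_at_node (v := id) _ (injOn_id _) hl
  have p2 : ∀ v ∈ T, ‖v‖ = 1 → aeval (A (-v)) p = aeval (A v) (p.comp (-X)) := fun v hv hv1 => by
    rw [aeval_comp, map_neg, aeval_X, (h1 v hv hv1).2.2.2]
  have p3 : p = X * p.divX := by
    have := X_mul_divX_add p
    rw [coeff_zero_eq_eval_zero, p1 0 (by simp [hΛ]), if_neg (lt_irrefl _), map_zero,
      add_zero] at this
    exact this.symm
  have id1 : ∀ v ∈ T, ‖v‖ = 1 → ∀ x, aeval (A v) p (aeval (A v) p x) = aeval (A v) p x :=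
    fun v hv hv1 x => by
    have := kill v hv hv1 (p * p - p) fun l hl => by
      rw [eval_sub, eval_mul, p1 l hl]; split_ifs <;> simp
    rw [map_sub, map_mul, sub_eq_zero] at this
    exact congr($this x)
  have hQ := h V T (fun v => aeval (A v) p) ((p.continuous_aeval).comp_continuousOn hA)
    (fun v hv hv1 x => ⟨id1 v hv hv1 x, by
      rw [p3, map_mul, aeval_X, ContinuousLinearMap.mul_apply, (h1 v hv hv1).1,
        (h1 v hv hv1).2.2.1, inner_zero_right]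
      exact ⟨(h1 v hv hv1).2.1 _, rfl⟩⟩) (fun v hv hv1 x y e => by
      have e1 := kill v hv hv1 (p * p.comp (-X)) fun l hl => by
        rw [eval_mul, eval_comp, eval_neg, eval_X, p1 l hl, p1 _ (L1 l hl)]
        split_ifs <;> linarith
      have e2 := congrArg (aeval (A v) p) e
      rwa [map_add, id1 v hv hv1, p2 v hv hv1, ← ContinuousLinearMap.mul_apply, ← map_mul, e1,
        map_zero, _root_.zero_apply, add_zero] at e2) hT
  have e := kill u hu hu1 (X - X * p - X * p.comp (-X)) fun l hl => by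
    rw [eval_sub, eval_sub, eval_mul, eval_mul, eval_comp, eval_neg, eval_X, p1 l hl, p1 _ (L1 l hl)]
    split_ifs <;> linarith
  rwa [map_sub, map_sub, map_mul, map_mul, ← p2 u hu hu1, show aeval (A u) p = 0 from hQ u hu hu1,
    show aeval (A (-u)) p = 0 from hQ _ (T.neg_mem hu) (by simpa), mul_zero, sub_zero, sub_zero,
    aeval_X] at e

end Crest.Agent.N221.Z
end

-- ▼ part N221/Bd/Fin
section

/-! Row 221, step P7, end: from periodic orbits to parallel curvature. -/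

set_option autoImplicit false
set_option linter.unusedSectionVars false
set_option linter.unusedVariables false

open MeasureTheory Set Filter Topology
open scoped ContDiff RealInnerProductSpace ENNReal
open Crest.GeometryTopology.Submanifold
open Crest.Agent.R241.DDefs Crest.Agent.R241.D2
open Crest.Agent.R208.J Crest.Agent.R208.L

noncomputable section

namespace Crest.Agent.N221

variable {n N : ℕ} {a : ℝ} {S : Set (Euc N)} {G : Geo n N (-(a ^ 2)) S}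

lemma const_of_periodic (H : Hyp n N a S) (hT : TrS) {F : TT N → ℝ} (hF : ContinuousOn F (US G))
    (e : ∀ q ∈ US G, (∃ l > 0, ph G l q = q) → ∀ t, F (fl G (q, t)) = F q) :
    ∃ c, ∀ q ∈ US G, F q = c := by
  have hinv : ∀ q ∈ US G, ∀ t, F (fl G (q, t)) = F q := by
    intro q hq t
    have h1 : ContinuousOn (fun q : TT N => fl G (q, t)) (US G) :=
      (continuousOn_fl G).comp (f := fun q : TT N => (q, t)) (by fun_prop)
        fun q hq => ⟨hq.1, mem_univ _⟩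
    have h2 : ContinuousOn (fun q => F (fl G (q, t)) - F q) (US G) :=
      (hF.comp h1 fun q hq => fl_US hq t).sub hF
    have h3 := h2.preimage_isClosed_of_isClosed (isClosed_US G) (isClosed_singleton (x := (0 : ℝ)))
    have h4 := closure_minimal (s := {q | q ∈ US G ∧ ∃ l > 0, ph G l q = q})
      (fun q hq => And.intro hq.1 (sub_eq_zero.2 (e q hq.1 hq.2 t))) h3
      (Cov.dense_periodic H hT hq)
    exact sub_eq_zero.1 h4.2
  rcases (US G).eq_empty_or_nonempty with he | ⟨q0, hq0⟩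
  · exact ⟨0, fun q hq => by rw [he] at hq; exact hq.elim⟩
  obtain ⟨z, hz, hbi⟩ := closure_nonempty_iff.1 ⟨q0, hT n N a S G H hq0⟩
  refine ⟨F z, fun q hq => ?_⟩
  have hcl : q ∈ closure (US G ∩ F ⁻¹' {F z}) := by
    rw [Metric.mem_closure_iff]
    intro ε hε
    obtain ⟨⟨t, -, ht⟩, -⟩ := hbi q hq ε hε 0
    exact ⟨ph G t z, ⟨fl_US hz t, hinv z hz t⟩, by rwa [dist_comm]⟩
  exact ((hF.preimage_isClosed_of_isClosed (isClosed_US G)
    isClosed_singleton).closure_subset hcl).2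

theorem par_of_trO (H : Hyp n N a S) (hT : TrS)
    (e : ∀ q ∈ US G, (∃ l > 0, ph G l q = q) → ∀ k t, trO G k (fl G (q, t)) = trO G k q) :
    Par G := by
  have hU := uExS n N a S G H
  have hr : Continuous (rev : TT N → TT N) := continuous_fst.prodMk continuous_snd.neg
  have hO : ContinuousOn (fun q => U G q - U G (rev q)) (US G) :=
    hU.cont.sub (hU.cont.comp hr.continuousOn fun q hq => rev_US hq)
  refine (toParS uExS n N a S G H).1 fun q hq => ?_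
  have hm : ∀ v ∈ G.T q.1, ‖v‖ = 1 → (q.1, v) ∈ US G := fun v hv h1 => ⟨⟨hq.1.1, hv⟩, h1⟩
  have h := Z.szS (Z.projS (Z.evenS Z.buS)) (Euc N) (G.T q.1)
    (fun v => U G (q.1, v) - U G (rev (q.1, v)))
    (hO.comp (f := fun v : Euc N => (q.1, v)) (by fun_prop) fun v hv => hm v hv.1 hv.2)
    (by rw [G.finrank_T _ hq.1.1]; have := H.hn; omega) (fun v hv h1 => ?_) (fun k => ?_)
    q.2 hq.1.2 hq.2
  · exact (sub_eq_zero.1 h).symm
  · have hz := hm v hv h1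
    refine ⟨fun x y => ?_, fun x => ?_, ?_, ?_⟩
    · rw [ContinuousLinearMap.sub_apply, ContinuousLinearMap.sub_apply, inner_sub_left,
        inner_sub_right, hU.symm _ hz, hU.symm _ (rev_US hz)]
    · exact (G.T q.1).sub_mem (mem_Vp.1 (hU.mem hz x)).1 (mem_Vp.1 (UDn.rev_mem' hU hz x)).1
    · have h2 : U G (q.1, v) v = 0 := by
        rw [← hU.comp_Pv _ hz, show Pv G (q.1, v) v = 0 from N221.H.Pv_vel hz, map_zero]
      rw [ContinuousLinearMap.sub_apply, h2, show U G (rev (q.1, v)) v = 0 from N221.H.Um_vel hU hz,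
        sub_zero]
    · simp [rev]
  · obtain ⟨c, hc⟩ := const_of_periodic H hT (F := trO G k)
      (UDn.continuous_tr.comp_continuousOn (hO.pow k)) fun q hq hp t => e q hq hp k t
    exact ⟨c, fun v hv h1 => hc _ (hm v hv h1)⟩

theorem Cov.par_of_per (C : Cov G) (H : Hyp n N a S) (hT : TrS)
    (e : ∀ g ξ η, C.Per g ξ η → ∀ k s t,
      trO G k (fl G (C.qq ξ (C.ft ξ η s), t)) = trO G k (C.qq ξ (C.ft ξ η s))) : Par G := by
  refine par_of_trO H hT fun q hq ⟨l, hl, hp⟩ k t => ?_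
  obtain ⟨y, hy, hw⟩ := C.exists_un hq
  have h1 : (C.pr y, q.2) = q := by rw [hy]
  obtain ⟨g, hg⟩ := C.exists_axis_of_periodic hw hl (by rw [h1]; exact hp)
  have h2 := e g _ _ ⟨y, q.2, l, hg, rfl, rfl⟩ k (-C.b (C.ep y q.2) y) t
  rwa [C.ft_ep H.a_pos hw, Cov.qq, C.W_ep_self H.a_pos hw, h1] at h2

end Crest.Agent.N221
end
end

-- ▼ part N221/K/In3

/-! Row 221, block K: back to the sphere; step A2 (leaf K-In3). -/

set_option autoImplicit false
set_option linter.unusedSectionVars false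
set_option linter.unusedVariables false

open MeasureTheory Set Filter Topology
open scoped ContDiff RealInnerProductSpace
open Crest.GeometryTopology.Submanifold
open Crest.Agent.R241.DDefs Crest.Agent.R241.D2
open Crest.Agent.R208.J Crest.Agent.R208.L
open Crest.Agent.N221.K

noncomputable section

namespace Crest.Agent.N221

variable {n N : ℕ} {a : ℝ} {S : Set (Euc N)} {G : Geo n N (-(a ^ 2)) S}

/-- tangential part -/
def tanY (Y : Euc n → Euc n) (ξ : Euc n) : Euc n := Y ξ - ⟪ξ, Y ξ⟫ • ξ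

/-- radial part -/
def radY (Y : Euc n → Euc n) (ξ : Euc n) : ℝ := ⟪ξ, Y ξ⟫

namespace In3

variable {Y : Euc n → Euc n} {ξ : Euc n}

lemma sm_at {F : Type} [NormedAddCommGroup F] [NormedSpace ℝ F] {f : Euc n → F}
    (hf : ContDiffOn ℝ ∞ f {0}ᶜ) (hξ : ‖ξ‖ = 1) : ContDiffAt ℝ ∞ f ξ :=
  hf.contDiffAt (isOpen_compl_singleton.mem_nhds (Cov.bas_ne0 hξ))

lemma sm_rad (hY : ContDiffOn ℝ ∞ Y {0}ᶜ) (hξ : ‖ξ‖ = 1) : ContDiffAt ℝ ∞ (radY Y) ξ :=
  contDiffAt_id.inner ℝ (sm_at hY hξ)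

lemma sm_tan (hY : ContDiffOn ℝ ∞ Y {0}ᶜ) (hξ : ‖ξ‖ = 1) : ContDiffAt ℝ ∞ (tanY Y) ξ :=
  (sm_at hY hξ).sub ((sm_rad hY hξ).smul contDiffAt_id)

lemma inner_tan (Y : Euc n → Euc n) (hξ : ‖ξ‖ = 1) : ⟪ξ, tanY Y ξ⟫ = 0 := by
  rw [tanY, inner_sub_right, real_inner_smul_right, real_inner_self_eq_norm_sq, hξ]
  ring

lemma map_tan (L : Euc n →L[ℝ] ℝ) (Y : Euc n → Euc n) (ξ : Euc n) :
    L (tanY Y ξ) = L (Y ξ) - radY Y ξ * L ξ := by
  rw [tanY, map_sub, map_smul]; rfl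

lemma euler {φ : Euc n → ℝ} {d : ℝ} (hφ : DifferentiableAt ℝ φ ξ)
    (e : ∀ t : ℝ, 0 < t → φ (t • ξ) = t ^ d * φ ξ) : fderiv ℝ φ ξ ξ = d * φ ξ := by
  have h1 : HasDerivAt (fun t : ℝ => t • ξ) ξ 1 := by simpa using (hasDerivAt_id (1 : ℝ)).smul_const ξ
  have h2 := hφ.hasFDerivAt.comp_hasDerivAt_of_eq (1 : ℝ) h1 (one_smul ℝ ξ).symm
  have h3 := (Real.hasDerivAt_rpow_const (x := 1) (p := d) (Or.inl one_ne_zero)).mul_const (φ ξ)
  have h4 := h3.congr_of_eventuallyEq (f₁ := φ ∘ fun t : ℝ => t • ξ) (by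
    filter_upwards [lt_mem_nhds (zero_lt_one (α := ℝ))] with t ht using e t ht)
  simpa using h2.unique h4

end In3

open In3

namespace Cov

variable (C : Cov G) {Y Y' g : Euc n → Euc n} {x P : Euc n} {w : Euc N} (h : SH G) (B : Cone n)
  (hB : B.F = C.Fc)
include h hB

lemma kill_of (hK : B.Kil Y Y') : C.Kill (tanY Y) (radY Y) (tanY Y') (radY Y') := by
  refine ⟨fun ξ => sm_tan hK.sm, fun ξ => sm_rad hK.sm, fun ξ => sm_tan hK.sm',
    fun ξ => sm_rad hK.sm', fun ξ => inner_tan Y, fun ξ => inner_tan Y', fun ξ η hp => ?_⟩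
  have h1 : fderiv ℝ B.F (ξ, η) (Y ξ, Y' η) = 0 := hK.eq _ (GG_sub hp)
  rw [hB, C.fderiv_Fc h hp] at h1
  have h2 := (mul_eq_zero.1 h1).resolve_left (C.Fc_pos h (GG_sub hp)).ne'
  rw [map_tan, map_tan, C.c1_self h (GG_sub hp), C.c2_self h (GG_sub hp), radY, radY]
  linarith

lemma muK_eq (hw : C.Un x w) : C.muK (tanY Y) (radY Y) x w =
    fderiv ℝ B.F (C.ep x w, C.ep x (-w)) (Y (C.ep x w), 0) / B.F (C.ep x w, C.ep x (-w)) := by
  have hp := C.ep_GG h.hyp.a_pos hw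
  rw [hB, C.fderiv_Fc h hp, mul_div_cancel_left₀ _ (C.Fc_pos h (GG_sub hp)).ne', muK, map_tan,
    C.c1_self h (GG_sub hp), radY]
  simp

/-- the quotient is `0`-homogeneous and natural under `hat g` -/
lemma muK_deck (hK : B.Kil Y Y') (hg : C.Deck g) (hw : C.Un x w) :
    C.muK (tanY Y) (radY Y) (g x) w =
      fderiv ℝ B.F (C.ep x w, C.ep x (-w))
        ((fderiv ℝ (C.hat g) (C.ep x w)).inverse (Y (C.hat g (C.ep x w))), 0) /
        B.F (C.ep x w, C.ep x (-w)) := by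
  have ha := h.hyp.a_pos
  have hp := C.ep_GG ha hw
  have hi : Iso B.F (C.hat g) (C.hat g) := hB ▸ C.iso_hat h hg
  rw [C.muK_eq h B hB ((hg.un C).2 hw), ← C.act_ep ha hg hw, ← C.act_ep ha hg (hw.neg C)]
  generalize C.ep x w = ξ at hp
  generalize C.ep x (-w) = η at hp
  have hq := GG_sub (C.act_GG ha hg hp)
  have hs := Real.exp_pos (C.be g ξ)
  have ht := Real.exp_pos (C.be g η)
  have h1 := B.fderiv_smul hs ht hq (Y (C.act g ξ)) 0
  rw [← hi.fderiv_F (GG_sub hp), ← hi.inv ξ η (GG_sub hp), map_zero,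
    (hi.inv₁ (bas_ne0 hp.1)).self_apply_inverse, C.hat_unit h hp.1, C.hat_unit h hp.2.1,
    hK.hom _ hs, B.hom _ hs _ _ (by simpa using GO_smul one_pos ht hq), B.hom₂ ht hq]
  rw [smul_zero] at h1
  rw [h1, ← mul_assoc, mul_div_mul_left _ _ (mul_pos hs ht).ne']

lemma trace_tanY (hK : B.Kil Y Y') (hP : ‖P‖ = 1) (h0 : Y P = 0) :
    LinearMap.trace ℝ (Euc n) ((fderiv ℝ (tanY Y) P ∘L piO P : Euc n →L[ℝ] Euc n) :
      Euc n →ₗ[ℝ] Euc n) = LinearMap.trace ℝ (Euc n) (fderiv ℝ Y P : Euc n →ₗ[ℝ] Euc n) := by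
  have hd := (sm_at hK.sm hP).differentiableAt (by simp)
  have h1 := hd.hasFDerivAt.sub
    (((hasFDerivAt_id P).inner ℝ hd.hasFDerivAt).smul (hasFDerivAt_id P))
  have h2 : fderiv ℝ (tanY Y) P = piO P ∘L fderiv ℝ Y P := by
    refine (HasFDerivAt.fderiv h1).trans ?_
    ext1 u
    simp [piO, h0]
  have h3 : fderiv ℝ Y P ∘L piO P = fderiv ℝ Y P := by
    ext1 u
    simp [piO, hK.hom.euler hd, h0]
  rw [h2, ContinuousLinearMap.comp_assoc, h3]
  conv_rhs => rw [← h3]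
  exact LinearMap.trace_comp_comm' _ _

/-- `T6S` for the family `Option ι` (`none ↦ Y`) -/
theorem lin_of (hT6 : T6.T6S) (hh : B.h ≠ 0) (hO : B.OutS) (hK : B.Kil Y Y') :
    ∃ Z c, C.Lin (tanY Y) (radY Y) Z c := by
  obtain ⟨ι, κ, _, _, X, φ, h1, h2, h3, h4, h5, h6, h7⟩ := hO
  have ha := h.hyp.a_pos
  have hX : ∀ o : Option ι, B.Kf (o.elim Y X) := by
    rintro (_ | i)
    exacts [⟨Y', hK⟩, h1 i]
  have hi : ∀ g, C.Deck g → Iso B.F (C.hat g) (C.hat g) := fun g hg => hB ▸ C.iso_hat h hg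
  refine hT6 n N a S G C h B.h hh (Option ι) (fun o => tanY (o.elim Y X))
    (fun o => radY (o.elim Y X)) (fun o => ?_) (fun g hg o => ?_) κ φ (fun j ξ => sm_at (h3 j)) h5
    (fun g hg j => ?_) (fun o j => ?_) none
  · obtain ⟨Z, hZ⟩ := hX o
    exact ⟨_, _, C.kill_of h B hB hZ⟩
  · obtain ⟨Z, hZ⟩ := hX o
    obtain ⟨c, hc⟩ := h2 _ ⟨_, hZ.pull B (hi g hg)⟩
    refine ⟨fun o => o.elim 0 c, fun x w hw => ?_⟩
    have e : ∀ u : Euc n, ((u, 0) : PE n) = ContinuousLinearMap.inl ℝ (Euc n) (Euc n) u :=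
      fun u => rfl
    rw [C.muK_deck h B hB hZ hg hw, hc, Fintype.sum_option]
    simp only [C.muK_eq h B hB hw, Option.elim, e, map_sum, map_smul, smul_eq_mul, Finset.sum_div,
      zero_mul, zero_add, mul_div_assoc]
  · obtain ⟨c, hc⟩ := h6 _ (hi g hg) j
    refine ⟨c, fun ξ hξ => ?_⟩
    rw [← hc ξ (bas_ne0 hξ), C.hat_unit h hξ,
      h4 j _ (Real.exp_pos _) _ (C.act_ne_zero ha hg (bas_ne0 hξ)), ← Real.exp_mul, mul_comm B.h]
  · obtain ⟨c, hc⟩ := h7 _ (hX o) j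
    refine ⟨c, fun ξ hξ => ?_⟩
    rw [← hc ξ (bas_ne0 hξ), map_tan, euler ((sm_at (h3 j) hξ).differentiableAt (by simp))
      fun t ht => h4 j t ht ξ (bas_ne0 hξ)]
    ring

end Cov

/-- **A2** -/
theorem a2S (hT6 : T6.T6S) (hH : H.HorS) (hD : H.DHorS) (hSp : H.SplitS) (hT : TrS) : A2S := by
  intro n N a S G H hc hs
  obtain ⟨C⟩ := covS n N a S G H
  have h : SH G := ⟨H, hs, hH, hD⟩
  obtain ⟨B, hB, hh⟩ := C.exists_cone h hSp hT hc
  have hP := B.perS B.polQ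
  refine C.par_of_per H hT fun g ξ η hp k s t => ?_
  obtain ⟨Y, Y', hK, h1, h2, -, h3⟩ := hP ξ η (hB ▸ C.perD h hp)
  obtain ⟨Z, c, hL⟩ := C.lin_of h B hB hT6 hh (B.outS hP) hK
  obtain ⟨y, w, l, hA, rfl, rfl⟩ := hp
  have hG : (C.ep y w, C.ep y (-w)) ∈ GG n :=
    ⟨C.norm_ep H.a_pos hA.un, C.norm_ep H.a_pos (hA.un.neg C), C.ep_ne_neg H.a_pos hA.un⟩
  refine C.p7 h (C.kill_of h B hB hK) hL hG (by simp [tanY, h1]) (by simp [tanY, h2]) ?_ k s t
  rw [C.trace_tanY h B hB hK hG.1 h1]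
  exact h3.ne

end Crest.Agent.N221
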