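import Crest.Agent.N221.Bd.Ft
import Crest.Agent.N221.K.Nat

-- ▼ part N221/Bd/Nu
section

/-! Row 221, block Bd: `|det M| = e^{h c} ν(ξ) ν(η)`. -/

set_option autoImplicit false
set_option linter.unusedSectionVars false
set_option linter.unusedVariables false

open MeasureTheory Set Filter Topology
open scoped ContDiff RealInnerProductSpace ENNReal
open Crest.GeometryTopology.Submanifold
open Crest.Agent.R241.DDefs Crest.Agent.R241.D2
open Crest.Agent.R208.J Crest.Agent.R208.L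

noncomputable section

open Crest.Agent.R241.AF

namespace Crest.Agent.N221.Cov

variable {n N : ℕ} {a : ℝ} {S : Set (Euc N)} {G : Geo n N (-(a ^ 2)) S} (C : Cov G)
variable {x y ξ η ζ ζ' : Euc n} {v : Euc N} {g : Euc n → Euc n} {s σ : ℝ}
variable {Z : Type} [NormedAddCommGroup Z] [NormedSpace ℝ Z]

namespace NuAux

lemma exists_factor {m : ℕ} (K : Euc n →L[ℝ] Euc N) (hK : Function.Injective K)
    (A : Euc m →L[ℝ] Euc N) (hA : ∀ x, ∃ y, A x = K y) :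
    ∃ D : Euc m →L[ℝ] Euc n, ∀ x, K (D x) = A x := by
  obtain ⟨L, hL⟩ := (K : Euc n →ₗ[ℝ] Euc N).exists_leftInverse_of_injective
    (LinearMap.ker_eq_bot.2 hK)
  refine ⟨LinearMap.toContinuousLinearMap (L ∘ₗ (A : Euc m →ₗ[ℝ] Euc N)), fun x => ?_⟩
  obtain ⟨y, hy⟩ := hA x
  have h1 : L (K y) = y := congrArg (fun M => M y) hL
  change K (L (A x)) = A x
  rw [hy, h1]

lemma exists_D (K : Euc n →L[ℝ] Euc N) (hK : Function.Injective K) (B : Op N)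
    (h1 : ∀ x, ∃ y, B (K x) = K y) (h2 : ∀ w, (∀ x, ⟪K x, w⟫ = 0) → B w = w) :
    ∃ D : Euc n →L[ℝ] Euc n, B ∘L K = K ∘L D ∧ D.det = B.det := by
  obtain ⟨X, hX⟩ := exists_factor K hK (B - 1) fun w => by
    obtain ⟨u, ⟨x, rfl⟩, w', hw', rfl⟩ :=
      (LinearMap.range (K : Euc n →ₗ[ℝ] Euc N)).exists_add_mem_mem_orthogonal w
    obtain ⟨y, hy⟩ := h1 x
    have h3 : B w' = w' := h2 w' fun x =>
      Submodule.inner_right_of_mem_orthogonal (LinearMap.mem_range_self _ x) hw'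
    refine ⟨y - x, ?_⟩
    change B (K x + w') - (K x + w') = K (y - x)
    rw [map_add, hy, h3, map_sub]
    abel
  refine ⟨1 + X ∘L K, ?_, ?_⟩
  · ext1 x
    change B (K x) = K (x + X (K x))
    rw [map_add, hX]
    change B (K x) = K x + (B (K x) - K x)
    abel
  · rw [← det_one_add_comm]
    congr 1
    ext1 w
    change w + K (X w) = B w
    rw [hX]
    change w + (B w - w) = B w
    abel

lemma jac_comp_right (K : Euc n →L[ℝ] Euc N) (D : Euc n →L[ℝ] Euc n) :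
    jac (K ∘L D) = jac K * |D.det| := by
  have h1 := LinearMap.normDet_comp_of_finrank_eq (D : Euc n →ₗ[ℝ] Euc n)
    (K : Euc n →ₗ[ℝ] Euc N) rfl
  rw [LinearMap.normDet_eq_abs_det] at h1
  exact h1

lemma jac_pos_of_inj (K : Euc n →L[ℝ] Euc N) (hK : Function.Injective K) : 0 < jac K := by
  refine lt_of_le_of_ne (jac_nonneg K) fun e => ?_
  exact LinearMap.normDet_eq_zero_iff_ker_ne_bot.1 e.symm (LinearMap.ker_eq_bot.2 hK)

lemma jac_iso (P : Op N) (hP : ∀ u w, ⟪P u, P w⟫ = ⟪u, w⟫) (K : Euc n →L[ℝ] Euc N) :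
    jac (P ∘L K) = jac K := by
  rw [← sq_eq_sq₀ (jac_nonneg _) (jac_nonneg _), jac_sq_gram _ (stdOrthonormalBasis ℝ (Euc n)),
    jac_sq_gram _ (stdOrthonormalBasis ℝ (Euc n))]
  congr 1
  ext i j
  exact hP _ _

lemma det_entries (T : Euc n →L[ℝ] Euc n) :
    (Matrix.of fun i j : Fin n =>
      ⟪EuclideanSpace.single i (1 : ℝ), T (EuclideanSpace.single j 1)⟫).det = T.det := by
  have h3 : T.det = LinearMap.det (T : Euc n →ₗ[ℝ] Euc n) := rfl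
  rw [h3, ← LinearMap.det_toMatrix (EuclideanSpace.basisFun (Fin n) ℝ).toBasis]
  congr 1
  ext i j
  simp [LinearMap.toMatrix_apply, EuclideanSpace.inner_single_left]

lemma exists_unit {M : ℕ} (V : Submodule ℝ (Euc M)) (hV : 0 < Module.finrank ℝ V) :
    ∃ w ∈ V, ‖w‖ = 1 := by
  have : Nontrivial V := Module.finrank_pos_iff.1 hV
  obtain ⟨w, hw⟩ := exists_norm_eq V (zero_le_one (α := ℝ))
  exact ⟨w, w.2, hw⟩

lemma comp2 {f : Euc n → Euc n → ℝ} {u : Euc n → Euc n}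
    (hf : ContDiffAt ℝ ∞ (fun p : Euc n × Euc n => f p.1 p.2) (u ξ, η)) (hu : ContDiffAt ℝ ∞ u ξ) :
    ContDiffAt ℝ ∞ (fun x => f (u x) η) ξ :=
  ContDiffAt.comp (g := fun p : Euc n × Euc n => f p.1 p.2) (f := fun x => (u x, η)) ξ hf
    (hu.prodMk contDiffAt_const)

end NuAux

open NuAux


/-- `B` preserves the range of `K` and fixes its complement -/
lemma jac_comp (K : Euc n →L[ℝ] Euc N) (hK : Function.Injective K) (B : Op N)
    (h1 : ∀ x, ∃ y, B (K x) = K y) (h2 : ∀ w, (∀ x, ⟪K x, w⟫ = 0) → B w = w) :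
    jac (B ∘L K) = |B.det| * jac K := by
  obtain ⟨D, hD, hd⟩ := exists_D K hK B h1 h2
  rw [hD, jac_comp_right, hd, mul_comm]

lemma abs_det_pair (K K' : Euc n →L[ℝ] Euc N) (hK : Function.Injective K) (B : Op N)
    (h0 : ∀ x, ∃ y, K' x = K y) (h1 : ∀ x, ∃ y, B (K x) = K y)
    (h2 : ∀ w, (∀ x, ⟪K x, w⟫ = 0) → B w = w) :
    |(Matrix.of fun i j : Fin n =>
      ⟪K (EuclideanSpace.single i 1), B (K' (EuclideanSpace.single j 1))⟫).det| =
      jac K * |B.det| * jac K' := by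
  obtain ⟨D, hD, hd⟩ := exists_D K hK B h1 h2
  obtain ⟨D', hD'⟩ := exists_factor K hK K' h0
  have e' : K' = K ∘L D' := by
    ext1 x
    exact (hD' x).symm
  have e : (Matrix.of fun i j : Fin n =>
      ⟪K (EuclideanSpace.single i 1), B (K' (EuclideanSpace.single j 1))⟫) =
      Matrix.of fun i j : Fin n => ⟪EuclideanSpace.single i (1 : ℝ),
        ((ContinuousLinearMap.adjoint K ∘L K) ∘L D ∘L D') (EuclideanSpace.single j 1)⟫ := by
    ext i j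
    have h3 : B (K (D' (EuclideanSpace.single j 1))) = K (D (D' (EuclideanSpace.single j 1))) :=
      congrArg (fun M => M (D' (EuclideanSpace.single j 1))) hD
    rw [Matrix.of_apply, Matrix.of_apply, ← hD', h3]
    exact (ContinuousLinearMap.adjoint_inner_right _ _ _).symm
  rw [e, det_entries, UDn.det_comp, UDn.det_comp, ← jac_sq, hd, e', jac_comp_right, abs_mul,
    abs_mul, abs_of_nonneg (sq_nonneg _)]
  ring

variable (h : SH G)
include h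

namespace NuAux

lemma le_tau {q : TT N} (hq : q ∈ US G) : a ≤ tau G q := by
  have hU := H.isU (G := G) h.hyp
  have ha := h.hyp.a_pos
  have hn := h.hyp.hn
  have hr := finrank_Vp hq.1 hq.2
  obtain ⟨w, hw, h1⟩ := exists_unit (Vp G q) (by omega)
  set b := stdOrthonormalBasis ℝ (Euc N)
  have h2 : ∑ i, ⟪w, b i⟫ ^ 2 = 1 := by
    rw [b.sum_sq_inner_left, h1]; norm_num
  have h8 : a = ∑ i, a * ⟪w, b i⟫ ^ 2 := by rw [← Finset.mul_sum, h2, mul_one]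
  rw [tau, LinearMap.trace_eq_sum_inner _ b]
  refine h8.le.trans ?_
  refine Finset.sum_le_sum fun i _ => ?_
  have h3 := hU.lower q hq _ (Pv_mem hq.1 hq.2 (b i))
  have h4 : ⟪U G q (Pv G q (b i)), Pv G q (b i)⟫ = ⟪b i, U G q (b i)⟫ := by
    rw [hU.comp_Pv q hq, hU.symm q hq, hU.comp_Pv q hq]
  have h5 : ⟪w, b i⟫ = ⟪w, Pv G q (b i)⟫ := by
    rw [← inner_Pv hq.1, Pv_of_mem hq.1 hw]
  have h6 : |⟪w, Pv G q (b i)⟫| ≤ ‖Pv G q (b i)‖ := by
    simpa [h1] using abs_real_inner_le_norm w (Pv G q (b i))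
  have h7 : ⟪w, b i⟫ ^ 2 ≤ ‖Pv G q (b i)‖ ^ 2 := by
    rw [h5, ← sq_abs]
    exact pow_le_pow_left₀ (abs_nonneg _) h6 2
  calc a * ⟪w, b i⟫ ^ 2 ≤ a * ‖Pv G q (b i)‖ ^ 2 := mul_le_mul_of_nonneg_left h7 ha.le
    _ ≤ ⟪b i, U G q (b i)⟫ := h4 ▸ h3

lemma le_St {q : TT N} (hq : q ∈ US G) {t : ℝ} (ht : 0 ≤ t) : a * t ≤ St G t q := by
  have h1 := intervalIntegral.integral_mono_on (μ := volume) ht
    (f := fun _ => a) (g := fun s => tau G (fl G (q, s))) (by simp)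
    ((UDn.continuous_tau (H.isU h.hyp) hq).intervalIntegrable _ _)
    (fun s _ => le_tau h (fl_US hq s))
  rw [St_def]
  simpa [mul_comm] using h1

lemma Ju_perp {q : TT N} (hq : q ∈ US G) {w : Euc N} (hw : Pv G q w = 0) (t : ℝ) :
    Ju G q t w = 0 := by
  have h1 : U G q w = 0 := by rw [← (H.isU (G := G) h.hyp).comp_Pv q hq, hw, map_zero]
  have h2 : ((Pv G q).prod (dP G q ∘L Pv G q + U G q)) w = 0 := by simp [hw, h1]
  simp only [Ju, Jac, ContinuousLinearMap.comp_apply, h2, map_zero]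

lemma det_Ei {q : TT N} (hq : q ∈ US G) : (H.Ei G q).det = Real.exp (-ldet G q) := by
  have hU := H.isU (G := G) h.hyp
  have ha := h.hyp.a_pos
  have h1 : UDn.E G q ∘L H.Ei G q = ContinuousLinearMap.id ℝ _ := by
    ext1 w
    exact H.E_Ei hU ha hq w
  have h2 := congrArg ContinuousLinearMap.det h1
  have h3 : (ContinuousLinearMap.id ℝ (Euc N)).det = 1 := LinearMap.det_id
  rw [UDn.det_comp, h3] at h2
  have h4 := UDn.det_E_pos hU ha hq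
  have h5 : ldet G q = Real.log (UDn.E G q).det := rfl
  rw [h5, Real.exp_neg, Real.exp_log h4]
  exact eq_inv_of_mul_eq_one_right h2

/-- a vector orthogonal to the range of `KT` is killed by `Pv` -/
lemma Pv_perp (hξ : ‖ξ‖ = 1) (y : Euc n) {w : Euc N} (hw : ∀ x, ⟪C.KT ξ y x, w⟫ = 0) :
    Pv G (C.qq ξ y) w = 0 := by
  have hq := C.qq_mem h (bas_ne0 hξ) y
  obtain ⟨ζ, e⟩ := C.KT_surj h hξ y (H.Pv_tan hq w)
  have h1 := hw ζ
  rw [e, ← Pv_Pv hq, inner_Pv hq.1] at h1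
  exact inner_self_eq_zero.1 h1

end NuAux

lemma cob_pos {hh : ℝ} (hc : En.Cob (US G) (ph G) (St G) hh) : 0 < hh := by
  obtain ⟨α, hα, e⟩ := hc
  have ha := h.hyp.a_pos
  have hn := h.hyp.hn
  obtain ⟨M, hM⟩ := (isCompact_US G h.hyp.cpt).exists_bound_of_continuousOn hα
  obtain ⟨p, hp⟩ := h.hyp.conn.nonempty
  obtain ⟨w, hw, h1⟩ := exists_unit (G.T p) (by rw [G.finrank_T p hp]; omega)
  have hq : (p, w) ∈ US G := ⟨⟨hp, hw⟩, h1⟩
  have hM0 : 0 ≤ M := (norm_nonneg _).trans (hM _ hq)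
  by_contra hh0
  have hh0 : hh ≤ 0 := not_lt.1 hh0
  have ht : 0 ≤ (2 * M + 1) / a := by positivity
  have h2 := le_St h hq ht
  have h3 := e _ hq ((2 * M + 1) / a)
  have h4 := abs_le.1 (hM _ hq)
  have h5 := abs_le.1 (hM _ (fl_US hq ((2 * M + 1) / a)))
  have h6 : a * ((2 * M + 1) / a) = 2 * M + 1 := by field_simp
  have h7 : hh * ((2 * M + 1) / a) ≤ 0 := mul_nonpos_of_nonpos_of_nonneg hh0 ht
  have h8 : ph G ((2 * M + 1) / a) (p, w) = fl G ((p, w), (2 * M + 1) / a) := rfl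
  rw [h8] at h3
  linarith [h4.2, h5.1]

lemma jac_pos (hξ : ‖ξ‖ = 1) (y : Euc n) : 0 < jac (C.KT ξ y) :=
  jac_pos_of_inj _ (C.KT_inj h hξ y)

lemma jac_zero (hξ : ‖ξ‖ = 1) : jac (C.KT ξ 0) = 1 :=
  jac_isometry _ fun v w =>
    (LinearMap.norm_map_iff_inner_map_map (C.KT ξ 0)).1 (C.norm_KT_zero h hξ) v w

lemma jac_act (hg : C.Deck g) (hξ : ξ ≠ 0) (y : Euc n) :
    jac (C.KT (C.act g ξ) (g y)) * |(C.DT g ξ).det| = jac (C.KT ξ y) := by
  rw [← jac_comp_right, C.KT_act h hg hξ]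

lemma jac_flow (hξ : ‖ξ‖ = 1) (y : Euc n) (t : ℝ) :
    Real.log (jac (C.KT ξ (C.gd y (C.W ξ y) t))) = Real.log (jac (C.KT ξ y)) +
      ldet G (fl G (C.qq ξ y, t)) - ldet G (C.qq ξ y) + St G t (C.qq ξ y) := by
  have hU := H.isU (G := G) h.hyp
  have ha := h.hyp.a_pos
  have h0 := bas_ne0 hξ
  have hq := C.qq_mem h h0 y
  have hgd := C.qq_gd h h0 y t
  have hfl := C.KW_flow h h0 y
  have hKW := C.KW_mem h h0 y
  have hKT : ∀ ζ, C.KT ξ y ζ = C.KW ξ y ζ + ⟪ξ, ζ⟫ • (C.qq ξ y).2 := fun ζ => rfl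
  have hP : ∀ w, (∀ x, ⟪C.KT ξ y x, w⟫ = 0) → Pv G (C.qq ξ y) w = 0 := fun w => Pv_perp C h hξ y
  have hS : ∀ w ∈ G.T (C.qq ξ y).1, ∃ ζ, C.KT ξ y ζ = w := fun w => C.KT_surj h hξ y
  generalize C.qq ξ y = q at *
  have hqt := fl_US hq t
  set B : Op N := hat G (UDn.E G) q t ∘L
    (Ju G q t + (ContinuousLinearMap.id ℝ (Euc N) - Pv G q)) ∘L H.Ei G q with hB
  have hBa : ∀ w, B w = PTi G q t (UDn.E G (fl G (q, t)) (PT G q t
      (Ju G q t (H.Ei G q w) + (H.Ei G q w - Pv G q (H.Ei G q w))))) := fun w => rfl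
  have hfix : ∀ w, Pv G q w = 0 → B w = w := fun w hw => by
    rw [hBa, (Ei_of_perp h hq hw).1, Ju_perp h hq hw, hw, zero_add, sub_zero,
      (Ei_of_perp h hqt (by rw [Pv_PT hq.1, hw, map_zero])).2, PTi_PT hq.1]
  have hK : C.KT ξ (C.gd y (C.W ξ y) t) = PT G q t ∘L B ∘L C.KT ξ y := by
    ext1 ζ
    have e1 : C.KT ξ (C.gd y (C.W ξ y) t) ζ = C.KW ξ (C.gd y (C.W ξ y) t) ζ +
      ⟪ξ, ζ⟫ • (C.qq ξ (C.gd y (C.W ξ y) t)).2 := rfl
    change _ = PT G q t (B (C.KT ξ y ζ))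
    rw [e1, hgd, hfl, hKT, map_add, map_smul, hfix _ (H.Pv_vel hq), map_add, map_smul,
      PT_velocity hq.1, hBa, PT_PTi hq.1, Pv_of_mem hq.1 (Ei_mem h hq (hKW ζ)), sub_self, add_zero]
  have hpres : ∀ x, ∃ z, B (C.KT ξ y x) = C.KT ξ y z := fun x => by
    have e1 : B (C.KT ξ y x) = PTi G q t (C.KT ξ (C.gd y (C.W ξ y) t) x) := by
      rw [hK]
      exact (PTi_PT hq.1 t _).symm
    have e2 : C.KT ξ (C.gd y (C.W ξ y) t) x ∈ G.T (fl G (q, t)).1 := by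
      rw [← hgd]
      exact C.KT_mem h h0 _ _
    obtain ⟨z, hz⟩ := hS _ (PTi_mem hq.1 t e2)
    exact ⟨z, e1.trans hz.symm⟩
  have hd : B.det = Real.exp (ldet G (fl G (q, t)) + St G t q - ldet G q) := by
    have h5 : ldet G (fl G (q, t)) = Real.log (UDn.E G (fl G (q, t))).det := rfl
    rw [hB, UDn.det_comp, UDn.det_comp, det_hat _ hq.1, det_Ju h.hyp.cpt hU hq, det_Ei h hq,
      sub_eq_add_neg, Real.exp_add, Real.exp_add, h5, Real.exp_log (UDn.det_E_pos hU ha hqt),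
      mul_assoc]
  rw [hK, jac_iso _ (inner_PT hq.1 t),
    jac_comp _ (C.KT_inj h hξ y) B hpres fun w hw => hfix w (hP w hw), hd,
    abs_of_pos (Real.exp_pos _), Real.log_mul (Real.exp_pos _).ne' (C.jac_pos h hξ y).ne',
    Real.log_exp]
  ring

lemma abs_Mdet (hp : (ξ, η) ∈ GG n) (hx : C.W η x = -C.W ξ x) :
    |C.Mdet ξ η| = jac (C.KT ξ x) * Real.exp (-ldet G (C.qq ξ x)) * jac (C.KT η x) := by
  have hξ : ‖ξ‖ = 1 := hp.1
  have hη : ‖η‖ = 1 := hp.2.1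
  have h0 := bas_ne0 hξ
  have h0' := bas_ne0 hη
  have hq := C.qq_mem h h0 x
  have hv : H.Ei G (C.qq ξ x) (C.W ξ x) = C.W ξ x := (Ei_of_perp h hq (H.Pv_vel hq)).1
  have hKT : ∀ ζ, C.KT ξ x ζ = C.KW ξ x ζ + ⟪ξ, ζ⟫ • C.W ξ x := fun ζ => rfl
  have hKT' : ∀ ζ, C.KT η x ζ = C.KW η x ζ + ⟪η, ζ⟫ • C.W η x := fun ζ => rfl
  have m1 : ∀ ζ, ⟪C.KW ξ x ζ, C.W ξ x⟫ = 0 := fun ζ => (mem_Vp.1 (C.KW_mem h h0 x ζ)).2
  have m2 : ∀ ζ, ⟪C.W ξ x, H.Ei G (C.qq ξ x) (C.KW η x ζ)⟫ = 0 := fun ζ => by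
    have h1 := C.KW_mem h h0' x ζ
    rw [C.qq_rev h hx, Vp_rev] at h1
    rw [real_inner_comm]
    exact (mem_Vp.1 (Ei_mem h hq h1)).2
  have m3 : ⟪C.W ξ x, C.W ξ x⟫ = 1 := by
    have h1 : ‖C.W ξ x‖ = 1 := hq.2
    rw [real_inner_self_eq_norm_sq, h1]; norm_num
  have key := abs_det_pair (C.KT ξ x) (C.KT η x) (C.KT_inj h hξ x) (H.Ei G (C.qq ξ x))
    (fun ζ => (C.KT_surj h hξ x (C.KT_mem h h0' x ζ)).imp fun z hz => hz.symm)
    (fun ζ => by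
      have h1 : H.Ei G (C.qq ξ x) (C.KT ξ x ζ) ∈ G.T (C.pr x) := by
        rw [hKT, map_add, map_smul, hv]
        exact (G.T _).add_mem (mem_Vp.1 (Ei_mem h hq (C.KW_mem h h0 x ζ))).1
          ((G.T _).smul_mem _ hq.1.2)
      exact (C.KT_surj h hξ x h1).imp fun z hz => hz.symm)
    (fun w hw => (Ei_of_perp h hq (Pv_perp C h hξ x hw)).1)
  rw [det_Ei h hq, abs_of_pos (Real.exp_pos _)] at key
  rw [← key, Mdet]
  congr 2
  ext i j
  rw [Matrix.of_apply, Matrix.of_apply, C.MMb_eq h (GG_sub hp) hx, hKT, hKT', hx, map_add, map_smul,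
    map_neg, hv, inner_add_left, inner_add_right, inner_add_right, real_inner_smul_left,
    real_inner_smul_left, real_inner_smul_right, real_inner_smul_right, inner_neg_right,
    inner_neg_right, m1, m2, m3]
  simp [EuclideanSpace.inner_single_right]
  ring

lemma Mdet_ne (hp : (ξ, η) ∈ GG n) : C.Mdet ξ η ≠ 0 := by
  have h1 := C.abs_Mdet h hp (C.ft_spec h.hyp.a_pos (GG_sub hp) 0).1
  have h2 := C.jac_pos h hp.1 (C.ft ξ η 0)
  have h3 := C.jac_pos h hp.2.1 (C.ft ξ η 0)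
  refine abs_pos.1 ?_
  rw [h1]
  exact mul_pos (mul_pos h2 (Real.exp_pos _)) h3

lemma NuAux.log_act (hg : C.Deck g) (hξ : ‖ξ‖ = 1) (y : Euc n) : 0 < |(C.DT g ξ).det| ∧
    Real.log (jac (C.KT (C.act g ξ) (g y))) + Real.log |(C.DT g ξ).det| =
      Real.log (jac (C.KT ξ y)) := by
  have h0 := bas_ne0 hξ
  have h1 := C.jac_act h hg h0 y
  have h2 := C.jac_pos h hξ y
  have h3 := C.jac_pos h (C.norm_act h.hyp.a_pos hg h0) (g y)
  have h4 : 0 < |(C.DT g ξ).det| := by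
    rw [← h1] at h2
    exact (mul_pos_iff_of_pos_left h3).1 h2
  exact ⟨h4, by rw [← h1, Real.log_mul h3.ne' h4.ne']⟩

/-- the visual densities in terms of the transfer function -/
lemma log_jac {hh c : ℝ} {α : TT N → ℝ} (hα : ContinuousOn α (US G))
    (e : ∀ z ∈ US G, ∀ t : ℝ, St G t z - hh * t = α z - α (ph G t z))
    (hc : ∀ q ∈ US G, ldet G q = α q + α (rev q) + c) (hξ : ‖ξ‖ = 1) (y : Euc n) :
    Real.log (jac (C.KT ξ y)) = α (rev (C.qq ξ y)) - hh * C.b ξ y - α (rev (C.qq ξ 0)) := by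
  have ha := h.hyp.a_pos
  have h0 := bas_ne0 hξ
  set F : Euc n × Euc n → ℝ := fun p =>
    Real.log (jac (C.KT p.1 p.2)) - α (rev (C.qq p.1 p.2)) + hh * C.b p.1 p.2 with hF
  have cF : ContinuousOn F {p | ‖p.1‖ = 1} := by
    have hs : {p : Euc n × Euc n | ‖p.1‖ = 1} ⊆ {p | p.1 ≠ 0} := fun p hp => bas_ne0 hp
    refine ContinuousOn.add (ContinuousOn.sub (ContinuousOn.log ?_ ?_) ?_)
      (continuousOn_const.mul ((C.continuousOn_b ha).mono hs))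
    · exact continuous_jac.comp_continuousOn fun p hp =>
        (C.contDiffAt_KT h (hs hp) p.2).continuousAt.continuousWithinAt
    · exact fun p hp => (C.jac_pos h hp p.2).ne'
    · refine hα.comp (f := fun p : Euc n × Euc n => rev (C.qq p.1 p.2)) ?_
        fun p hp => rev_US (C.qq_mem h (hs hp) p.2)
      exact (C.pr_smooth.continuous.comp continuous_snd).continuousOn.prodMk
        ((C.continuousOn_W ha).mono hs).neg
  have fF : ∀ z t, F (ξ, C.gd z (C.W ξ z) t) = F (ξ, z) := fun z t => by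
    have hq := C.qq_mem h h0 z
    have h1 := C.jac_flow h hξ z t
    have h2 := e _ hq t
    have h3 := hc _ hq
    have h4 := hc _ (fl_US hq t)
    have h5 : ph G t (C.qq ξ z) = fl G (C.qq ξ z, t) := rfl
    rw [h5] at h2
    simp only [hF]
    rw [C.qq_gd h h0, C.b_gd ha h0]
    linarith
  have dF : ∀ g, C.Deck g → ∀ z, F (C.act g ξ, g z) =
      F (ξ, z) - Real.log |(C.DT g ξ).det| - hh * C.be g ξ := fun g hg z => by
    have h1 := (log_act C h hg hξ z).2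
    simp only [hF]
    rw [C.qq_act h hg h0, C.b_act ha hg h0]
    linarith
  have main : F (ξ, y) = F (ξ, 0) := by
    obtain ⟨D, hD, hdk⟩ := C.exists_deck
    have hK : IsCompact (Metric.sphere (0 : Euc n) 1 ×ˢ Metric.closedBall (0 : Euc n) (D + 1)) :=
      (isCompact_sphere _ _).prod (isCompact_closedBall _ _)
    have hu := hK.uniformContinuousOn_of_continuous
      (cF.mono fun p hp => mem_sphere_zero_iff_norm.1 hp.1)
    refine eq_of_forall_dist_le fun ε hε => ?_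
    obtain ⟨δ, hδ, hu⟩ := Metric.uniformContinuousOn_iff.1 hu ε hε
    have ht := BdyAux.tendsto_exp ha (tendsto_id (x := (atTop : Filter ℝ)))
      (2 / a * Real.sinh (a * C.dd 0 y))
    obtain ⟨s, hs0, hs1⟩ := ((eventually_ge_atTop (0 : ℝ)).and
      (ht.eventually (gt_mem_nhds (lt_min hδ one_pos)))).exists
    have h1 := C.asy_tail ha (C.un_W ha h0 0) y hs0
    rw [C.asy_W ha h0] at h1
    have h2 : C.dd (C.gd y (C.W ξ y) s) (C.gd 0 (C.W ξ 0) (s - C.bus 0 (C.W ξ 0) y)) < min δ 1 :=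
      h1.trans_lt (by simpa only [id, mul_right_comm] using hs1)
    rw [← fF y s, ← fF 0 (s - C.bus 0 (C.W ξ 0) y)]
    generalize C.gd y (C.W ξ y) s = p at h2
    generalize C.gd 0 (C.W ξ 0) (s - C.bus 0 (C.W ξ 0) y) = p' at h2
    obtain ⟨g, hg, hgp⟩ := hdk p
    rw [← hg.dd_eq] at h2
    have h3 := C.norm_sub_le_dd ha.le (g p) (g p')
    have h4 := C.norm_le_of_dd ha.le (g p) (g p')
    have h5 := lt_min_iff.1 h2
    have hm := mem_sphere_zero_iff_norm.2 (C.norm_act ha hg h0)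
    have h6 := hu (C.act g ξ, g p) ⟨hm, mem_closedBall_zero_iff.2 (by linarith)⟩
      (C.act g ξ, g p') ⟨hm, mem_closedBall_zero_iff.2 (by linarith [h5.2])⟩
      (by rw [Prod.dist_eq, dist_self, dist_eq_norm]; exact max_lt hδ (h3.trans_lt h5.1))
    rw [dF g hg, dF g hg, Real.dist_eq] at h6
    rw [Real.dist_eq]
    refine le_of_eq_of_le ?_ h6.le
    congr 1
    ring
  simp only [hF] at main
  rw [C.jac_zero h hξ, C.b_zero ha h0, Real.log_one] at main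
  linarith

theorem exists_nu (hSp : H.SplitS) (hc : Cob G) : ∃ (hh : ℝ) (ν : Euc n → ℝ), 0 < hh ∧
    (∀ ξ, 0 < ν ξ) ∧ (∀ t : ℝ, 0 < t → ∀ ξ, ν (t • ξ) = ν ξ) ∧
    (∀ ξ, ξ ≠ 0 → ContDiffAt ℝ ∞ ν ξ) ∧
    (∀ ξ η, (ξ, η) ∈ GG n → |C.Mdet ξ η| = Real.exp (hh * C.cc ξ η) * ν ξ * ν η) ∧
    ∀ g, C.Deck g → ∀ ξ, ‖ξ‖ = 1 →
      ν (C.act g ξ) * |(C.DT g ξ).det| = Real.exp (-(hh * C.be g ξ)) * ν ξ := by
  obtain ⟨hh, hcob⟩ := hc
  have hpos := cob_pos h hcob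
  obtain ⟨α, hα, e⟩ := hcob
  obtain ⟨c, hc⟩ := hSp n N a S G h.hyp hh α hα e
  have ha := h.hyp.a_pos
  set ν : Euc n → ℝ := fun ξ => Real.exp (-α (rev (C.qq ξ 0)) - c / 2) with hν
  have νpos : ∀ ξ, 0 < ν ξ := fun ξ => Real.exp_pos _
  have νhom : ∀ t : ℝ, 0 < t → ∀ ξ, ν (t • ξ) = ν ξ := fun t ht ξ => by
    simp only [hν, qq, C.W_smul ht]
  have νdet : ∀ ξ η, (ξ, η) ∈ GG n →
      |C.Mdet ξ η| = Real.exp (hh * C.cc ξ η) * ν ξ * ν η := fun ξ η hp => by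
    have hx := (C.ft_spec ha (GG_sub hp) 0).1
    generalize C.ft ξ η 0 = x at hx
    have h1 := C.log_jac h hα e hc hp.1 x
    have h2 := C.log_jac h hα e hc hp.2.1 x
    have h3 := hc _ (C.qq_mem h (bas_ne0 hp.1) x)
    rw [C.qq_rev h hx, rev_rev] at h2
    rw [C.abs_Mdet h hp hx, ← Real.exp_log (C.jac_pos h hp.1 x),
      ← Real.exp_log (C.jac_pos h hp.2.1 x), C.cc_eq ha (GG_sub hp) hx]
    simp only [hν, ← Real.exp_add]
    congr 1
    dsimp only at h1 h2 h3 ⊢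
    linarith
  refine ⟨hh, ν, hpos, νpos, νhom, fun ξ₀ h0 => ?_, νdet, fun g hg ξ hξ => ?_⟩
  · have hn0 : 0 < ‖ξ₀‖ := norm_pos_iff.2 h0
    set η₀ : Euc n := -(‖ξ₀‖⁻¹ • ξ₀) with hη₀
    have hη : ‖η₀‖ = 1 := by
      rw [hη₀, norm_neg, norm_smul, norm_inv, norm_norm, inv_mul_cancel₀ hn0.ne']
    have hGO : (ξ₀, η₀) ∈ GO n := by
      refine ⟨h0, bas_ne0 hη, fun e => ?_⟩
      dsimp only at e
      rw [hη, inv_one, one_smul] at e
      have h1 : η₀ = -η₀ := by rw [hη₀, neg_neg]; exact e.symm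
      have h2 : (2 : ℝ) • η₀ = 0 := by rw [two_smul]; exact eq_neg_iff_add_eq_zero.1 h1
      exact bas_ne0 hη ((smul_eq_zero.1 h2).resolve_left two_ne_zero)
    have hGG : ∀ ξ, (ξ, η₀) ∈ GO n → (‖ξ‖⁻¹ • ξ, η₀) ∈ GG n := fun ξ hp => by
      have h1 := GO_normalize hp
      rwa [hη, inv_one, one_smul] at h1
    have hN : ContDiffAt ℝ ∞ (fun ξ : Euc n => ‖ξ‖⁻¹ • ξ) ξ₀ :=
      ((contDiffAt_norm ℝ h0).inv hn0.ne').smul contDiffAt_id
    have h1 : ContDiffAt ℝ ∞ (fun ξ : Euc n => C.Mdet (‖ξ‖⁻¹ • ξ) η₀) ξ₀ :=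
      comp2 (f := C.Mdet) (C.contDiffAt_Mdet h (GG_sub (hGG _ hGO))) hN
    have h2 : ContDiffAt ℝ ∞ (fun ξ : Euc n => C.cc (‖ξ‖⁻¹ • ξ) η₀) ξ₀ :=
      comp2 (f := C.cc) (C.contDiffAt_cc h (GG_sub (hGG _ hGO))) hN
    have h3 : ContDiffAt ℝ ∞ (fun ξ : Euc n => |C.Mdet (‖ξ‖⁻¹ • ξ) η₀| *
        (Real.exp (-(hh * C.cc (‖ξ‖⁻¹ • ξ) η₀)) * (ν η₀)⁻¹)) ξ₀ :=
      (h1.abs (C.Mdet_ne h (hGG _ hGO))).mul
        ((contDiffAt_const.mul h2).neg.exp.mul contDiffAt_const)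
    refine h3.congr_of_eventuallyEq ?_
    have h4 : ∀ᶠ ξ in 𝓝 ξ₀, (ξ, η₀) ∈ GO n :=
      (continuous_id.prodMk continuous_const).continuousAt.eventually (isOpen_GO.mem_nhds hGO)
    filter_upwards [h4] with ξ hp
    rw [νdet _ _ (hGG ξ hp), νhom _ (inv_pos.2 (norm_pos_iff.2 hp.1)), Real.exp_neg]
    have := (νpos η₀).ne'
    have := (Real.exp_pos (hh * C.cc (‖ξ‖⁻¹ • ξ) η₀)).ne'
    field_simp
  · have h0 := bas_ne0 hξ
    obtain ⟨h1, h2⟩ := log_act C h hg hξ 0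
    have h3 := C.log_jac h hα e hc hξ 0
    have h4 := C.log_jac h hα e hc (C.norm_act ha hg h0) (g 0)
    rw [C.qq_act h hg h0, C.b_act ha hg h0] at h4
    rw [← Real.exp_log h1]
    simp only [hν, ← Real.exp_add]
    congr 1
    linarith

end Crest.Agent.N221.Cov
end
end

-- ▼ part N221/Bd/Rate
section

/-! Row 221, block Bd: contraction rates of the boundary action. -/

set_option autoImplicit false
set_option linter.unusedSectionVars false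
set_option linter.unusedVariables false

open MeasureTheory Set Filter Topology
open scoped ContDiff RealInnerProductSpace ENNReal
open Crest.GeometryTopology.Submanifold
open Crest.Agent.R241.DDefs Crest.Agent.R241.D2
open Crest.Agent.R208.J Crest.Agent.R208.L

noncomputable section

namespace Crest.Agent.N221.Cov

variable {n N : ℕ} {a : ℝ} {S : Set (Euc N)} {G : Geo n N (-(a ^ 2)) S} (C : Cov G)
variable {x y ξ η ζ ζ' : Euc n} {v : Euc N} {g : Euc n → Euc n} {s σ : ℝ}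
variable {Z : Type} [NormedAddCommGroup Z] [NormedSpace ℝ Z]

variable (h : SH G)
include h

lemma E_bounds : ∃ B > 0, ∀ q ∈ US G, ∀ w,
    ‖UDn.E G q w‖ ≤ B * ‖w‖ ∧ ‖H.Ei G q w‖ ≤ B * ‖w‖ := by
  have hU := H.isU (G := G) h.hyp
  have hc := isCompact_US G h.hyp.cpt
  obtain ⟨B1, h1⟩ := hc.exists_bound_of_continuousOn (UDn.continuousOn_E hU)
  obtain ⟨B2, h2⟩ := hc.exists_bound_of_continuousOn (H.continuousOn_Ei hU h.hyp.a_pos)
  refine ⟨|B1| + |B2| + 1, by positivity, fun q hq w => ⟨?_, ?_⟩⟩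
  · exact ContinuousLinearMap.le_of_opNorm_le _
      ((h1 q hq).trans (by linarith [le_abs_self B1, abs_nonneg B2])) w
  · exact ContinuousLinearMap.le_of_opNorm_le _
      ((h2 q hq).trans (by linarith [le_abs_self B2, abs_nonneg B1])) w

lemma KW_bounds {K : Set (Euc n × Euc n)} (hK : IsCompact K) (hK1 : ∀ p ∈ K, ‖p.1‖ = 1) :
    ∃ B > 0, ∀ p ∈ K, ∀ ζ, ⟪p.1, ζ⟫ = 0 →
      ‖C.KW p.1 p.2 ζ‖ ≤ B * ‖ζ‖ ∧ ‖ζ‖ ≤ B * ‖C.KW p.1 p.2 ζ‖ := by
  have c1 : ContinuousOn (fun p : Euc n × Euc n => C.KW p.1 p.2) K := fun p hp =>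
    (C.contDiffAt_KW h (bas_ne0 (hK1 p hp)) p.2).continuousAt.continuousWithinAt
  have c2 : ContinuousOn (fun p : Euc n × Euc n => C.KT p.1 p.2) K := fun p hp =>
    (C.contDiffAt_KT h (bas_ne0 (hK1 p hp)) p.2).continuousAt.continuousWithinAt
  obtain ⟨B, hB⟩ := hK.exists_bound_of_continuousOn c1
  have c3 : ContinuousOn (fun z : (Euc n × Euc n) × Euc n => ‖C.KT z.1.1 z.1.2 z.2‖)
      (K ×ˢ Metric.sphere 0 1) :=
    ((c2.comp continuous_fst.continuousOn fun z hz => hz.1).clm_apply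
      continuous_snd.continuousOn).norm
  obtain ⟨c, hc, hm⟩ := (hK.prod (isCompact_sphere (0 : Euc n) 1)).exists_forall_le' c3 (a := 0)
    fun z hz => norm_pos_iff.2 fun e => bas_ne0 (mem_sphere_zero_iff_norm.1 hz.2)
      (C.KT_inj h (hK1 _ hz.1) _ (e.trans (map_zero _).symm))
  refine ⟨|B| + c⁻¹, by positivity, fun p hp ζ hζ => ⟨?_, ?_⟩⟩
  · exact ContinuousLinearMap.le_of_opNorm_le _
      ((hB p hp).trans (by linarith [le_abs_self B, inv_pos.2 hc])) ζ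
  · rcases eq_or_ne ζ 0 with rfl | h0
    · simp
    have hn := norm_pos_iff.2 h0
    have h1 := hm (p, ‖ζ‖⁻¹ • ζ) ⟨hp, by
      rw [mem_sphere_zero_iff_norm, norm_smul, norm_inv, norm_norm, inv_mul_cancel₀ hn.ne']⟩
    have e : C.KT p.1 p.2 ζ = C.KW p.1 p.2 ζ := by simp [KT, hζ]
    simp only [map_smul, norm_smul, norm_inv, norm_norm, e] at h1
    rw [← div_eq_inv_mul, le_div_iff₀ hn, ← le_div_iff₀' hc, div_eq_inv_mul] at h1
    exact h1.trans (mul_le_mul_of_nonneg_right (by linarith [abs_nonneg B]) (norm_nonneg _))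

lemma KW_rate : ∃ b B : ℝ, a ≤ b ∧ 0 < B ∧ ∀ ξ, ξ ≠ 0 → ∀ y ζ t,
    (0 ≤ t → Real.exp (a * t) * ‖C.KW ξ y ζ‖ ≤ B * ‖C.KW ξ (C.gd y (C.W ξ y) t) ζ‖ ∧
      ‖C.KW ξ (C.gd y (C.W ξ y) t) ζ‖ ≤ B * Real.exp (b * t) * ‖C.KW ξ y ζ‖) ∧
    (t ≤ 0 → Real.exp (b * t) * ‖C.KW ξ y ζ‖ ≤ B * ‖C.KW ξ (C.gd y (C.W ξ y) t) ζ‖ ∧
      ‖C.KW ξ (C.gd y (C.W ξ y) t) ζ‖ ≤ B * Real.exp (a * t) * ‖C.KW ξ y ζ‖) := by
  have hU := H.isU (G := G) h.hyp
  have ha := h.hyp.a_pos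
  have hc := h.hyp.cpt
  obtain ⟨b, -, hb⟩ := hU.exists_bound hc
  have hb' : ∀ q ∈ US G, ‖U G q‖ ≤ max a b := fun q hq => (hb q hq).trans (le_max_right _ _)
  obtain ⟨B, hB, hE⟩ := E_bounds h
  refine ⟨max a b, B * B, le_max_left _ _, by positivity, fun ξ hξ y ζ t => ?_⟩
  have hq := C.qq_mem h hξ y
  have hw := Pv_of_mem hq.1 (C.KW_mem h hξ y ζ)
  rw [C.KW_flow h hξ]
  generalize C.KW ξ y ζ = w at hw
  generalize C.qq ξ y = q at hq hw
  have hj := H.Pv_Ei hU ha hq hw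
  have e1 : ‖w‖ ≤ B * ‖H.Ei G q w‖ := by
    simpa only [H.E_Ei hU ha hq] using (hE q hq (H.Ei G q w)).1
  have e2 := (hE q hq w).2
  generalize H.Ei G q w = j at hj e1 e2
  have e3 := (hE _ (fl_US hq t) (PT G q t (Ju G q t j))).1
  have e4 := (hE _ (fl_US hq t) (UDn.E G (fl G (q, t)) (PT G q t (Ju G q t j)))).2
  rw [H.Ei_E hU ha (fl_US hq t)] at e4
  rw [norm_PT hq.1] at e3 e4
  generalize ‖UDn.E G (fl G (q, t)) (PT G q t (Ju G q t j))‖ = r at e3 e4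
  have lo : ∀ c : ℝ, Real.exp c * ‖j‖ ≤ ‖Ju G q t j‖ → Real.exp c * ‖w‖ ≤ B * B * r :=
    fun c hc => by
      have := Real.exp_pos c
      calc _ ≤ Real.exp c * (B * ‖j‖) := by gcongr
        _ = B * (Real.exp c * ‖j‖) := by ring
        _ ≤ B * (B * r) := mul_le_mul_of_nonneg_left (hc.trans e4) hB.le
        _ = _ := by ring
  have up : ∀ c : ℝ, ‖Ju G q t j‖ ≤ Real.exp c * ‖j‖ → r ≤ B * B * Real.exp c * ‖w‖ :=
    fun c hc => by
      have := Real.exp_pos c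
      calc _ ≤ B * (Real.exp c * ‖j‖) := e3.trans (by gcongr)
        _ ≤ B * (Real.exp c * (B * ‖w‖)) := by gcongr
        _ = _ := by ring
  refine ⟨fun ht => ⟨lo _ ?_, up _ ?_⟩, fun ht => ⟨lo _ ?_, up _ ?_⟩⟩
  · simpa only [Ju_zero, sub_zero, hj] using Ju_lower hc hU hq j ht
  · simpa only [Ju_zero, sub_zero, hj] using Ju_upper hc hU hb' hq j ht
  · have := Ju_upper hc hU hb' hq j ht
    rwa [Ju_zero, hj, zero_sub, mul_neg, Real.exp_neg, ← div_eq_inv_mul,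
      le_div_iff₀' (Real.exp_pos _)] at this
  · have := Ju_lower hc hU hq j ht
    rwa [Ju_zero, hj, zero_sub, mul_neg, Real.exp_neg, ← div_eq_inv_mul,
      div_le_iff₀' (Real.exp_pos _)] at this

theorem rates : ∃ b : ℝ, a ≤ b ∧ ∀ K : Set (Euc n × Euc n), IsCompact K → K ⊆ GG n →
    ∃ B > 0, ∀ g, C.Deck g → ∀ ξ η, (ξ, η) ∈ K → (C.act g ξ, C.act g η) ∈ K →
      |C.be g ξ + C.be g η| ≤ B ∧ ∀ ζ, ⟪ξ, ζ⟫ = 0 →
      (0 ≤ C.be g ξ → ‖C.Da g ξ ζ‖ ≤ B * Real.exp (-(a * C.be g ξ)) * ‖ζ‖ ∧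
        Real.exp (-(b * C.be g ξ)) * ‖ζ‖ ≤ B * ‖C.Da g ξ ζ‖) ∧
      (C.be g ξ ≤ 0 → ‖C.Da g ξ ζ‖ ≤ B * Real.exp (-(b * C.be g ξ)) * ‖ζ‖ ∧
        Real.exp (-(a * C.be g ξ)) * ‖ζ‖ ≤ B * ‖C.Da g ξ ζ‖) := by
  have ha := h.hyp.a_pos
  obtain ⟨b, B1, hab, hB1, hr⟩ := C.KW_rate h
  refine ⟨b, hab, fun K hK hG => ?_⟩
  have hO : K ⊆ GO n := hG.trans GG_sub
  have c1 : ContinuousOn (fun p : Euc n × Euc n => (p.1, C.ft p.1 p.2 0)) K :=
    continuous_fst.continuousOn.prodMk ((C.continuousOn_ft ha).comp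
      (f := fun p : Euc n × Euc n => (p, (0 : ℝ))) (by fun_prop) fun _ hp => ⟨hO hp, trivial⟩)
  obtain ⟨B2, hB2, hk⟩ := C.KW_bounds h (hK.image_of_continuousOn c1)
    (by rintro _ ⟨p, hp, rfl⟩; exact (hG hp).1)
  obtain ⟨B3, h3⟩ := hK.exists_bound_of_continuousOn ((C.continuousOn_cc ha).mono hO)
  have hB : B2 * B1 * B2 ≤ B2 * B1 * B2 + 2 * |B3| := by linarith [abs_nonneg B3]
  refine ⟨B2 * B1 * B2 + 2 * |B3|, by positivity, fun g hg ξ η hp hp' => ⟨?_, fun ζ hζ => ?_⟩⟩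
  · have e := C.cc_act ha hg (hO hp)
    have e1 := abs_le.1 (h3 _ hp)
    have e2 := abs_le.1 (h3 _ hp')
    have : 0 < B2 * B1 * B2 := by positivity
    rw [abs_le]
    constructor <;> linarith [le_abs_self B3, e1.1, e1.2, e2.1, e2.2]
  have hξ := (hO hp).1
  obtain ⟨k1, k2⟩ := hk _ ⟨_, hp, rfl⟩ ζ hζ
  obtain ⟨k3, k4⟩ := hk _ ⟨_, hp', rfl⟩ _ (C.inner_Da h hg hξ ζ)
  have r := hr _ (hO hp').1 (C.ft (C.act g ξ) (C.act g η) 0) (C.Da g ξ ζ) (C.be g ξ)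
  rw [C.gd_ft ha (hO hp'), C.ft_act ha hg (hO hp), C.KW_act h hg hξ] at r
  dsimp only at k1 k2 k3 k4
  generalize ‖C.KW ξ (C.ft ξ η 0) ζ‖ = v at k1 k2 r
  have u0 := norm_nonneg (C.KW (C.act g ξ) (C.ft (C.act g ξ) (C.act g η) 0) (C.Da g ξ ζ))
  generalize ‖C.KW (C.act g ξ) (C.ft (C.act g ξ) (C.act g η) 0) (C.Da g ξ ζ)‖ = u at k3 k4 r u0
  have up : ∀ c : ℝ, Real.exp c * u ≤ B1 * v →
      ‖C.Da g ξ ζ‖ ≤ (B2 * B1 * B2 + 2 * |B3|) * Real.exp (-c) * ‖ζ‖ := fun c hc => by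
    have := Real.exp_pos (-c)
    rw [← le_div_iff₀' (Real.exp_pos _), div_eq_inv_mul, ← Real.exp_neg] at hc
    calc _ ≤ B2 * (Real.exp (-c) * (B1 * (B2 * ‖ζ‖))) :=
          k4.trans (by gcongr; exact hc.trans (by gcongr))
      _ = B2 * B1 * B2 * Real.exp (-c) * ‖ζ‖ := by ring
      _ ≤ _ := by gcongr
  have lo : ∀ c : ℝ, v ≤ B1 * Real.exp c * u →
      Real.exp (-c) * ‖ζ‖ ≤ (B2 * B1 * B2 + 2 * |B3|) * ‖C.Da g ξ ζ‖ := fun c hc => by
    have := Real.exp_pos (-c)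
    have := Real.exp_pos c
    calc _ ≤ Real.exp (-c) * (B2 * (B1 * Real.exp c * (B2 * ‖C.Da g ξ ζ‖))) := by
          gcongr; exact k2.trans (by gcongr; exact hc.trans (by gcongr))
      _ = B2 * B1 * B2 * ‖C.Da g ξ ζ‖ * (Real.exp (-c) * Real.exp c) := by ring
      _ = B2 * B1 * B2 * ‖C.Da g ξ ζ‖ := by rw [← Real.exp_add, neg_add_cancel, Real.exp_zero, mul_one]
      _ ≤ _ := by gcongr
  exact ⟨fun ht => ⟨up _ (r.1 ht).1, lo _ (r.1 ht).2⟩, fun ht => ⟨up _ (r.2 ht).1, lo _ (r.2 ht).2⟩⟩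

end Crest.Agent.N221.Cov
end
end

-- ▼ part N221/K/In1

/-! Row 221, block K: the cone function of the cover (leaf K-In1). -/

set_option autoImplicit false
set_option linter.unusedSectionVars false
set_option linter.unusedVariables false

open MeasureTheory Set Filter Topology
open scoped ContDiff RealInnerProductSpace
open Crest.GeometryTopology.Submanifold
open Crest.Agent.R241.DDefs Crest.Agent.R241.D2
open Crest.Agent.R208.J Crest.Agent.R208.L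
open Crest.Agent.N221.K

noncomputable section

namespace Crest.Agent.N221

variable {n N : ℕ} {a : ℝ} {S : Set (Euc N)} {G : Geo n N (-(a ^ 2)) S}

namespace In1

open Matrix

lemma det_one_sub (u v : Fin n → ℝ) (h : v ⬝ᵥ u = 0) : (1 - vecMulVec u v).det = 1 := by
  rw [sub_eq_add_neg, ← neg_vecMulVec, vecMulVec_eq Unit, det_one_add_replicateCol_mul_replicateRow,
    dotProduct_neg, h, neg_zero, add_zero]

lemma det_aux (M : Matrix (Fin n) (Fin n) ℝ) (x y u v : Fin n → ℝ) (hx : x ⬝ᵥ x = 1)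
    (hy : y ⬝ᵥ y = 1) (hu : x ⬝ᵥ u = 0) (hv : v ⬝ᵥ y = 0) (h1 : x ᵥ* M = 0) (h2 : M *ᵥ y = 0) :
    (M - vecMulVec (x - u) (y - v)).det = (M - vecMulVec x y).det := by
  have e : M - vecMulVec (x - u) (y - v) =
      (1 - vecMulVec u x) * (M - vecMulVec x y) * (1 - vecMulVec y v) := by
    simp only [sub_mul, mul_sub, one_mul, mul_one, vecMulVec_mul, mul_vecMulVec, h1, h2,
      vecMulVec_mulVec, hx, hy, one_smul, vecMulVec_zero, zero_vecMulVec, zero_mulVec,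
      sub_vecMulVec, vecMulVec_sub, MulOpposite.op_one]
    abel
  rw [e, det_mul, det_mul, det_one_sub _ _ hu, det_one_sub _ _ hv, one_mul, mul_one]

lemma sum_ee (L : Euc n →L[ℝ] ℝ) (x : Euc n) : ∑ i, x i * L (ee i) = L x := by
  conv_rhs => rw [← (EuclideanSpace.basisFun (Fin n) ℝ).sum_repr x]
  simp

lemma dot_self {x : Euc n} (h : ‖x‖ = 1) : (fun i => x i) ⬝ᵥ (fun i => x i) = 1 := by
  have := sum_ee (innerSL ℝ x) x
  simpa [EuclideanSpace.inner_single_right, h, dotProduct] using this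

lemma d_norm {x : Euc n} (h : x ≠ 0) : HasFDerivAt (fun y : Euc n => ‖y‖) (‖x‖⁻¹ • innerSL ℝ x) x := by
  have h0 := norm_ne_zero_iff.2 h
  have h1 := (hasStrictFDerivAt_norm_sq x).hasFDerivAt.sqrt (pow_ne_zero 2 h0)
  simp only [Real.sqrt_sq (norm_nonneg _)] at h1
  refine h1.congr_fderiv (ContinuousLinearMap.ext fun u => ?_)
  simp
  field_simp

end In1

open In1

namespace Cov

variable (C : Cov G) {ξ η u : Euc n} {g : Euc n → Euc n} {t : ℝ}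

/-- the cone function -/
def Fc (p : PE n) : ℝ := ‖p.1‖ * ‖p.2‖ * Real.exp (-C.cc p.1 p.2)

/-- the action on the cone -/
def hat (g : Euc n → Euc n) (ξ : Euc n) : Euc n := (‖ξ‖ * Real.exp (C.be g ξ)) • C.act g ξ

variable (h : SH G)
include h

lemma Fc_sm : ContDiffOn ℝ ∞ C.Fc (GO n) := fun p hp =>
  (((contDiffAt_fst.norm ℝ hp.1).mul (contDiffAt_snd.norm ℝ hp.2.1)).mul
    (C.contDiffAt_cc h (ξ := p.1) (η := p.2) hp).neg.exp).contDiffWithinAt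

lemma Fc_pos (hp : (ξ, η) ∈ GO n) : 0 < C.Fc (ξ, η) :=
  mul_pos (mul_pos (norm_pos_iff.2 hp.1) (norm_pos_iff.2 hp.2.1)) (Real.exp_pos _)

lemma Fc_symm (hp : (ξ, η) ∈ GO n) : C.Fc (η, ξ) = C.Fc (ξ, η) := by
  simp only [Fc, C.cc_symm h.hyp.a_pos hp, mul_comm ‖η‖]

lemma Fc_hom (ht : 0 < t) (hp : (ξ, η) ∈ GO n) : C.Fc (t • ξ, η) = t * C.Fc (ξ, η) := by
  have := C.cc_smul ht one_pos ξ η
  rw [one_smul] at this
  simp only [Fc, this, norm_smul, Real.norm_of_nonneg ht.le, mul_assoc]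

lemma fderiv_Fc' (hp : (ξ, η) ∈ GO n) (u u' : Euc n) : fderiv ℝ C.Fc (ξ, η) (u, u') =
    C.Fc (ξ, η) * (⟪ξ, u⟫ / ‖ξ‖ ^ 2 + ⟪η, u'⟫ / ‖η‖ ^ 2 - C.c1 ξ η u - C.c2 ξ η u') := by
  have h1 := norm_ne_zero_iff.2 (Ft.n1 hp)
  have h2 := norm_ne_zero_iff.2 (Ft.n2 hp)
  have := ((((d_norm (Ft.n1 hp)).comp (ξ, η) hasFDerivAt_fst).mul
    ((d_norm (Ft.n2 hp)).comp (ξ, η) hasFDerivAt_snd)).mul (C.hasFDerivAt_cc h hp).neg.exp).fderiv
  rw [show fderiv ℝ C.Fc (ξ, η) = _ from this]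
  simp [Fc]
  field_simp
  ring

lemma fderiv_Fc (hp : (ξ, η) ∈ GG n) (u u' : Euc n) : fderiv ℝ C.Fc (ξ, η) (u, u') =
    C.Fc (ξ, η) * (⟪ξ, u⟫ + ⟪η, u'⟫ - C.c1 ξ η u - C.c2 ξ η u') := by
  rw [C.fderiv_Fc' h (GG_sub hp), show ‖ξ‖ = 1 from hp.1, show ‖η‖ = 1 from hp.2.1, one_pow, div_one,
    div_one]

lemma inner_MM_Fc (hp : (ξ, η) ∈ GG n) (u u' : Euc n) : ⟪K.MM C.Fc (ξ, η) u, u'⟫ =
    C.Fc (ξ, η) * ((⟪ξ, u⟫ - C.c1 ξ η u) * (⟪η, u'⟫ - C.c2 ξ η u') - C.MMb ξ η u u') := by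
  have ho := GG_sub hp
  have d : ∀ {f : PE n → ℝ}, ContDiffOn ℝ ∞ f (GO n) → DifferentiableAt ℝ f (ξ, η) := fun hf =>
    (hf.contDiffAt (isOpen_GO.mem_nhds ho)).differentiableAt (by simp)
  have h1 := (((d (C.Fc_sm h)).comp ξ (f := fun ξ => (ξ, η)) (by fun_prop)).hasFDerivAt.mul
    ((C.hasFDerivAt_c2 h ho u').const_sub ⟪η, u'⟫)).congr_of_eventuallyEq
    (f₁ := fun ξ => d2 u' C.Fc (ξ, η)) ((Ft.ev1 ho).mono fun ξ' hξ' => by
      simp [d2, C.fderiv_Fc' h hξ', show ‖η‖ = 1 from hp.2.1])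
  have h2 := fderiv_slice (d (C.Fc_sm h)) u
  rw [C.fderiv_Fc h hp] at h2
  rw [K.inner_MM isOpen_GO (C.Fc_sm h) ho, ← fderiv_slice (d (d2_sm isOpen_GO (C.Fc_sm h) u')),
    h1.fderiv]
  simp [Function.comp_def, h2]
  ring

/-- `(l ⊗ l' - M) = -(1 - c1 ⊗ ξ)ᵀ (M - ξ ⊗ η) (1 - η ⊗ c2)`, both factors unipotent -/
lemma det_Fc (hp : (ξ, η) ∈ GG n) :
    |(K.MM C.Fc (ξ, η)).det| = C.Fc (ξ, η) ^ n * |C.Mdet ξ η| := by
  have ho := GG_sub hp
  have h1 := det_aux (Matrix.of fun i j => C.MMb ξ η (ee i) (ee j)) (fun i => ξ i) (fun i => η i)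
    (fun i => C.c1 ξ η (ee i)) (fun i => C.c2 ξ η (ee i)) (dot_self hp.1) (dot_self hp.2.1)
    ((sum_ee _ ξ).trans (C.c1_self h ho))
    ((dotProduct_comm _ _).trans ((sum_ee _ η).trans (C.c2_self h ho)))
    (funext fun j => (sum_ee ((C.MMb ξ η).flip (ee j)) ξ).trans (by simp [(C.MM_self h ho).1]))
    (funext fun i => (dotProduct_comm _ _).trans ((sum_ee _ η).trans ((C.MM_self h ho).2 _)))
  have h2 : ∀ (c : ℝ) (M : Matrix (Fin n) (Fin n) ℝ), c ^ n * M.det = (c • M).det := by simp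
  rw [← NuAux.det_entries, ← Matrix.det_transpose, show C.Mdet ξ η = _ from h1.symm,
    ← abs_of_pos (C.Fc_pos h ho), ← abs_neg (C.Fc _), ← abs_pow, ← abs_mul, h2]
  congr 2
  ext i j
  simp [real_inner_comm (K.MM _ _ _), C.inner_MM_Fc h hp, Matrix.vecMulVec_apply,
    EuclideanSpace.inner_single_right]
  ring

lemma iso_hat (hg : C.Deck g) : Iso C.Fc (C.hat g) (C.hat g) := by
  have ha := h.hyp.a_pos
  have s1 : ContDiffOn ℝ ∞ (C.hat g) {0}ᶜ := fun ξ hξ => (((contDiffAt_id.norm ℝ hξ).mul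
    (C.contDiffAt_be h hg hξ).exp).smul (C.contDiffAt_act h hg hξ)).contDiffWithinAt
  have s2 : Hom1 (C.hat g) := fun t ht ξ => by
    simp only [hat, C.act_smul ht, C.be_smul ht, norm_smul, Real.norm_of_nonneg ht.le, smul_smul,
      mul_assoc]
  have p : ∀ {ξ}, ξ ≠ 0 → 0 < ‖ξ‖ * Real.exp (C.be g ξ) := fun hξ =>
    mul_pos (norm_pos_iff.2 hξ) (Real.exp_pos _)
  refine ⟨s1, s1, s2, s2, fun ξ η hp => GO_smul (p hp.1) (p hp.2.1) (GG_sub (C.act_GO ha hg hp)),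
    fun ξ η hp => ?_⟩
  simp only [Fc, hat, C.cc_smul (p (Ft.n1 hp)) (p (Ft.n2 hp)), C.cc_act ha hg hp, norm_smul,
    C.norm_act ha hg (Ft.n1 hp), C.norm_act ha hg (Ft.n2 hp), Real.norm_of_nonneg (p (Ft.n1 hp)).le,
    Real.norm_of_nonneg (p (Ft.n2 hp)).le, Real.exp_neg, Real.exp_add]
  field_simp

lemma hat_unit (hξ : ‖ξ‖ = 1) : C.hat g ξ = Real.exp (C.be g ξ) • C.act g ξ := by
  rw [hat, hξ, one_mul]

lemma fderiv_hat (hg : C.Deck g) (hξ : ‖ξ‖ = 1) (u : Euc n) : ∃ r : ℝ,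
    fderiv ℝ (C.hat g) ξ u = Real.exp (C.be g ξ) • C.Da g ξ u + r • C.act g ξ := by
  have h0 := bas_ne0 hξ
  have h1 := (((contDiffAt_id.norm ℝ h0).mul (C.contDiffAt_be h hg h0).exp).differentiableAt
    (by simp)).hasFDerivAt.smul (C.hasFDerivAt_Da h hg h0)
  exact ⟨_, by rw [show fderiv ℝ (C.hat g) ξ = _ from h1.fderiv]; simp [hξ]; rfl⟩

end Cov

end Crest.Agent.N221
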